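import Vale.Agent.P060.StA

/-! Part A: the reduction to supersaturation. -/

namespace Vale.Agent.P060

open Finset Vale.Agent.P015

namespace AMain

theorem sq_bound {X : ℕ} (hX : 2 ^ 11 ≤ X) : (32 * X ^ 20) ^ 2 + 1 ≤ 2 ^ (32 * X ^ 4) := by
  have h1 : 1 ≤ X := le_trans (by norm_num) hX
  have h2 : X ^ 40 ≤ (2 ^ X) ^ 40 := Nat.pow_le_pow_left Nat.lt_two_pow_self.le 40
  have h3 : 1 ≤ X ^ 40 := Nat.one_le_pow _ _ h1
  have h4 : 11 + X * 40 ≤ 32 * X ^ 4 := by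
    have : X * X ≤ X ^ 4 := by
      calc X * X = X ^ 2 := by ring
        _ ≤ X ^ 4 := Nat.pow_le_pow_right h1 (by norm_num)
    nlinarith
  calc (32 * X ^ 20) ^ 2 + 1 = 1024 * X ^ 40 + 1 := by ring
    _ ≤ 2 ^ 11 * X ^ 40 := by omega
    _ ≤ 2 ^ 11 * (2 ^ X) ^ 40 := Nat.mul_le_mul_left _ h2
    _ = 2 ^ (11 + X * 40) := by rw [← pow_mul, ← pow_add]
    _ ≤ 2 ^ (32 * X ^ 4) := Nat.pow_le_pow_right (by norm_num) h4

theorem total {X : ℕ} (hX : 2 ^ 11 ≤ X) :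
    (((32 * X ^ 20 : ℕ) : ℝ) ^ 2 + 1) ^ (X ^ 16) * 2 ^ (32 * X ^ 20) *
      ((4 / 2 ^ 100 : ℝ) ^ (X ^ 20) + (((32 * X ^ 20 : ℕ) : ℝ) * (1 / (X : ℝ) ^ 30)) ^ (X ^ 20))
      < 1 := by
  have h1 : 1 ≤ X := le_trans (by norm_num) hX
  have hX' : (2048 : ℝ) ≤ X := by exact_mod_cast hX
  have hX0 : (0 : ℝ) < X := by linarith
  have a1 : (((32 * X ^ 20 : ℕ) : ℝ) ^ 2 + 1) ^ (X ^ 16) ≤ (2 ^ 32) ^ (X ^ 20) := by
    have h : (((32 * X ^ 20 : ℕ) : ℝ) ^ 2 + 1) ≤ 2 ^ (32 * X ^ 4) := by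
      exact_mod_cast sq_bound hX
    refine (pow_le_pow_left₀ (by positivity) h _).trans (le_of_eq ?_)
    rw [← pow_mul, ← pow_mul]
    congr 1
    ring
  have a2 : ((32 * X ^ 20 : ℕ) : ℝ) * (1 / (X : ℝ) ^ 30) ≤ 4 / 2 ^ 100 := by
    have e : ((32 * X ^ 20 : ℕ) : ℝ) * (1 / (X : ℝ) ^ 30) = 32 / (X : ℝ) ^ 10 := by
      push_cast
      field_simp
    have h : (2048 : ℝ) ^ 10 ≤ (X : ℝ) ^ 10 := pow_le_pow_left₀ (by norm_num) hX' 10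
    rw [e]
    refine (div_le_div_of_nonneg_left (by norm_num) (by norm_num) h).trans (by norm_num)
  have a3 : (((32 * X ^ 20 : ℕ) : ℝ) * (1 / (X : ℝ) ^ 30)) ^ (X ^ 20) ≤
      (4 / 2 ^ 100 : ℝ) ^ (X ^ 20) := pow_le_pow_left₀ (by positivity) a2 _
  have hn : X ^ 20 ≠ 0 := by positivity
  have b0 : 0 ≤ (((32 * X ^ 20 : ℕ) : ℝ) * (1 / (X : ℝ) ^ 30)) ^ (X ^ 20) := by positivity
  rw [pow_mul (2 : ℝ) 32]
  generalize (((32 * X ^ 20 : ℕ) : ℝ) * (1 / (X : ℝ) ^ 30)) ^ (X ^ 20) = b at *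
  generalize (((32 * X ^ 20 : ℕ) : ℝ) ^ 2 + 1) ^ (X ^ 16) = a at *
  generalize X ^ 20 = N at *
  have a4 : ((2 : ℝ) ^ 32 * 2 ^ 32 * (4 / 2 ^ 100)) ^ N ≤ 2 ^ 32 * 2 ^ 32 * (4 / 2 ^ 100) :=
    pow_le_of_le_one (by positivity) (by norm_num) hn
  rw [mul_pow, mul_pow] at a4
  have p1 : (0 : ℝ) < (2 ^ 32) ^ N := by positivity
  have p2 : (0 : ℝ) < (4 / 2 ^ 100) ^ N := by positivity
  have a5 : (2 : ℝ) ^ 32 * 2 ^ 32 * (4 / 2 ^ 100) < 1 / 2 := by norm_num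
  generalize ((2 : ℝ) ^ 32) ^ N = u at *
  generalize ((4 : ℝ) / 2 ^ 100) ^ N = v at *
  generalize (2 : ℝ) ^ 32 * 2 ^ 32 * (4 / 2 ^ 100) = w at *
  calc a * u * (v + b) ≤ u * u * (v + b) := by gcongr
    _ ≤ u * u * (v + v) := by gcongr
    _ < 1 := by linarith

end AMain

theorem s_amain (h1 : S_Red) (h2 : S_Term) (h3 : S_Cont) (h4 : S_UB) : S_AMain := by
  intro Ω _ _ H X hT hX hc hS
  have hX1 : 1 ≤ X := le_trans (by norm_num) hX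
  have hX' : (2048 : ℝ) ≤ X := by exact_mod_cast hX
  have hX0 : (0 : ℝ) < X := by linarith
  have hΛ : (1 : ℝ) ≤ (X : ℝ) ^ 30 := one_le_pow₀ (by linarith)
  have hs : 3 * Real.log ((X : ℝ) ^ 30) / (1 / (X : ℝ) ^ 14) + 1 ≤ ((X ^ 16 : ℕ) : ℝ) := by
    have l1 : Real.log X ≤ X := (Real.log_le_sub_one_of_pos hX0).trans (by linarith)
    have l2 : (1 : ℝ) ≤ (X : ℝ) ^ 15 := one_le_pow₀ (by linarith)
    have l3 : Real.log X * (X : ℝ) ^ 14 ≤ (X : ℝ) ^ 15 := by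
      rw [pow_succ' (X : ℝ) 14]
      exact mul_le_mul_of_nonneg_right l1 (by positivity)
    have l4 : 2048 * (X : ℝ) ^ 15 ≤ (X : ℝ) ^ 16 := by
      rw [pow_succ' (X : ℝ) 15]
      exact mul_le_mul_of_nonneg_right hX' (by positivity)
    rw [Real.log_pow, div_div_eq_mul_div, div_one]
    push_cast
    linarith
  obtain ⟨Ct, hC1, hC2⟩ := h3 Ω H _ _ _ (X ^ 16) hT hΛ (by positivity) hs hS
  have hc' : (X : ℝ) ^ 30 ≤ 2 ^ 100 * Fintype.card Ω := by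
    have : (X : ℝ) ^ 30 ≤ Fintype.card Ω := by exact_mod_cast hc
    refine this.trans (le_mul_of_one_le_left (by positivity) (by norm_num))
  choose T A hTA using fun l => h2 Ω _ _ (Ct l) (by positivity) (by positivity) hc' (hC1 l)
  have hn : 2 * X ^ 20 + X ^ 16 ≤ 4 * X ^ 20 := by
    have : X ^ 16 ≤ X ^ 20 := Nat.pow_le_pow_right hX1 (by norm_num)
    omega
  obtain ⟨x, hx⟩ := h4 Ω H _ _ (32 * X ^ 20) (4 * X ^ 20) (X ^ 16) (X ^ 20) T A hT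
    (fun l => (hTA l).1) (fun l => (hTA l).2.1) hn (fun I hI hI' => by
      obtain ⟨l, a, b, c⟩ := hC2 I hI hI'
      exact ⟨l, a, b, fun e he => (hTA l).2.2 e (c e he)⟩) (AMain.total hX)
  have h20 : 1 ≤ X ^ 20 := Nat.one_le_pow _ _ hX1
  exact h1 Ω H _ _ x hT (by omega) (by omega) hx

end Vale.Agent.P060
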