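import Vale.Agent.P060.StB

namespace Vale.Agent.P060

open Finset Vale.Agent.P015
open scoped BigOperators Pointwise

namespace Aff

variable {F : Type} [Field F] {b k : ℕ}

theorem one_P : (1 : Fn F b k) ∈ P1 F b k := Submodule.subset_span (Set.mem_insert _ _)
theorem one_U : (1 : Fn F b k) ∈ U1 F b k := Submodule.subset_span (Set.mem_insert _ _)
theorem z_P (i : Fin b) : (fun s : Zt F b k => s.1 i) ∈ P1 F b k :=
  Submodule.subset_span (Set.mem_insert_of_mem _ ⟨i, rfl⟩)

theorem zo1 {f : Fn F b k} (hf : f ∈ P1 F b k) (s : Zt F b k) : f s = f (s.1, 0) := by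
  induction hf using Submodule.span_induction with
  | mem x hx =>
    rcases hx with rfl | ⟨i, rfl⟩ <;> rfl
  | zero => rfl
  | add x y _ _ hx hy => simp only [Pi.add_apply, hx, hy]
  | smul a x _ hx => simp only [Pi.smul_apply, hx]

theorem zo {e : ℕ} {f : Fn F b k} (hf : f ∈ P1 F b k ^ e) (s : Zt F b k) : f s = f (s.1, 0) := by
  refine Submodule.pow_induction_on_left (P1 F b k) (C := fun f => f s = f (s.1, 0))
    (fun r => rfl) (fun x y hx hy => ?_) (fun m hm x hx => ?_) hf
  · simp only [Pi.add_apply, hx, hy]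
  · simp only [Pi.mul_apply, hx, zo1 hm s]

theorem af1 {f : Fn F b k} (hf : f ∈ U1 F b k) (z : Fin b → F) (u : Fin (k + 1) → F) :
    f (z, u) = f (z, 0) + ∑ i, (f (z, Pi.single i 1) - f (z, 0)) * u i := by
  induction hf using Submodule.span_induction with
  | mem x hx =>
    rcases hx with rfl | ⟨i, rfl⟩
    · simp
    · simp [Pi.single_apply]
  | zero => simp
  | add x y _ _ hx hy =>
    simp only [Pi.add_apply]
    rw [hx, hy, add_add_add_comm, ← sum_add_distrib]
    congr 1
    exact sum_congr rfl fun i _ => by ring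
  | smul a x _ hx =>
    simp only [Pi.smul_apply, smul_eq_mul]
    rw [hx, mul_add, mul_sum]
    congr 1
    exact sum_congr rfl fun i _ => by ring

theorem af {e : ℕ} {f : Fn F b k} (hf : f ∈ P1 F b k ^ e * U1 F b k) (z : Fin b → F)
    (u : Fin (k + 1) → F) :
    f (z, u) = f (z, 0) + ∑ i, (f (z, Pi.single i 1) - f (z, 0)) * u i := by
  refine Submodule.mul_induction_on
    (C := fun f => f (z, u) = f (z, 0) + ∑ i, (f (z, Pi.single i 1) - f (z, 0)) * u i) hf
    (fun m hm x hx => ?_) (fun x y hx hy => ?_)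
  · simp only [Pi.mul_apply]
    rw [af1 hx, zo hm (z, u), mul_add, mul_sum]
    congr 1
    exact sum_congr rfl fun i _ => by rw [zo hm (z, Pi.single i 1)]; ring
  · simp only [Pi.add_apply]
    rw [hx, hy, add_add_add_comm, ← sum_add_distrib]
    congr 1
    exact sum_congr rfl fun i _ => by ring

theorem mono {e e' : ℕ} (h : e ≤ e') : P1 F b k ^ e ≤ P1 F b k ^ e' := by
  induction e', h using Nat.le_induction with
  | base => exact le_rfl
  | succ n _ ih =>
    intro x hx
    rw [pow_succ, ← mul_one x]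
    exact Submodule.mul_mem_mul (ih hx) one_P

theorem le_mulU (A : Submodule F (Fn F b k)) : A ≤ A * U1 F b k := fun x hx => by
  rw [← mul_one x]
  exact Submodule.mul_mem_mul hx one_U

theorem P_le_V (d : ℕ) (m : Fin 3) : P1 F b k ^ d ≤ Vm F b k d m := by
  unfold Vm
  split_ifs
  · exact (mono (Nat.le_succ d)).trans (le_mulU _)
  · exact le_rfl

theorem V_le (d : ℕ) (m : Fin 3) : Vm F b k d m ≤ Cd F b k d := by
  unfold Vm Cd
  split_ifs
  · exact mul_le_mul_left (mono (by omega)) _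
  · exact (mono (by omega)).trans (le_mulU _)

theorem V3 (d : ℕ) : Vm F b k d 0 * Vm F b k d 1 * Vm F b k d 2 = Cd F b k d := by
  have h0 : Vm F b k d 0 = P1 F b k ^ d := if_neg (by decide)
  have h1 : Vm F b k d 1 = P1 F b k ^ d := if_neg (by decide)
  have h2 : Vm F b k d 2 = P1 F b k ^ (d + 1) * U1 F b k := if_pos rfl
  rw [h0, h1, h2, Cd]
  ring

theorem V2 (d : ℕ) : Vm F b k d 1 * Vm F b k d 2 = P1 F b k ^ (2 * d + 1) * U1 F b k := by
  have h1 : Vm F b k d 1 = P1 F b k ^ d := if_neg (by decide)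
  have h2 : Vm F b k d 2 = P1 F b k ^ (d + 1) * U1 F b k := if_pos rfl
  rw [h1, h2]
  ring

theorem one_pow_mem (e : ℕ) : (1 : Fn F b k) ∈ P1 F b k ^ e :=
  mono (Nat.zero_le e) (by rw [pow_zero]; exact Submodule.one_le.1 le_rfl)

variable [Fintype F] [DecidableEq F] {d N : ℕ}

theorem fr_mem (X : Fr F b k d N) (m : Fin 3) (i : Ix N) : fr X m i ∈ Vm F b k d m := by
  cases i with
  | none => exact P_le_V d m (one_pow_mem d)
  | some i => exact (X m i).2

theorem wt_eq (X : Fr F b k d N) (M : Tn F N) :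
    wt M X = ∑ ι, M ι • (fr X 0 ι.1 * fr X 1 ι.2.1 * fr X 2 ι.2.2) := by
  funext s
  simp [wt, tri]

theorem exists_span (E : Submodule F (Fn F b k)) :
    ∃ v : Fin (Module.finrank F E) → Fn F b k, Submodule.span F (Set.range v) = E := by
  refine ⟨fun i => (Module.finBasis F E i : Fn F b k), ?_⟩
  have h := congrArg (Submodule.map E.subtype) (Module.finBasis F E).span_eq
  rw [Submodule.map_span, Submodule.map_subtype_top, ← Set.range_comp] at h
  exact h

theorem fin_le {ι : Type} [Fintype ι] {E : Submodule F (Fn F b k)} (v : ι → Fn F b k)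
    (h : E ≤ Submodule.span F (Set.range v)) : Module.finrank F E ≤ Fintype.card ι :=
  (Submodule.finrank_mono h).trans (finrank_range_le_card v)

theorem pow_set {c : ℕ} (v : Fin c → Fn F b k) (e : ℕ) : ∀ x ∈ (Set.range v) ^ e,
    ∃ m : Fin c → ℕ, ∑ i, m i = e ∧ x = ∏ i, v i ^ m i := by
  induction e with
  | zero =>
    intro x hx
    rw [pow_zero, Set.mem_one] at hx
    exact ⟨0, by simp, by simp [hx]⟩
  | succ e ih =>
    intro x hx
    rw [pow_succ] at hx
    obtain ⟨y, hy, _, ⟨j, rfl⟩, rfl⟩ := Set.mem_mul.1 hx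
    obtain ⟨m, h1, rfl⟩ := ih y hy
    refine ⟨m + Pi.single j 1, ?_, ?_⟩
    · simp [sum_add_distrib, h1]
    · simp only [Pi.add_apply, pow_add, prod_mul_distrib]
      congr 1
      rw [prod_eq_single j (fun i _ hi => by simp [hi]) (by simp)]
      simp

theorem dim_pow (E : Submodule F (Fn F b k)) (c e : ℕ) (h : Module.finrank F E ≤ c) :
    Module.finrank F (E ^ e : Submodule F (Fn F b k)) ≤ (e + 1) ^ c := by
  obtain ⟨v, hv⟩ := exists_span E
  refine (fin_le (fun m : Fin (Module.finrank F E) → Fin (e + 1) => ∏ i, v i ^ (m i : ℕ))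
    ?_).trans ?_
  · conv_lhs => rw [← hv]
    rw [Submodule.span_pow]
    refine Submodule.span_mono fun x hx => ?_
    obtain ⟨m, h1, rfl⟩ := pow_set v e x hx
    refine ⟨fun i => ⟨m i, ?_⟩, rfl⟩
    have := single_le_sum (f := m) (fun i _ => Nat.zero_le _) (mem_univ i)
    omega
  · rw [Fintype.card_fun, Fintype.card_fin, Fintype.card_fin]
    exact Nat.pow_le_pow_right (Nat.succ_pos e) h

theorem dim_mul (E E' : Submodule F (Fn F b k)) :
    Module.finrank F (E * E' : Submodule F (Fn F b k)) ≤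
      Module.finrank F E * Module.finrank F E' := by
  obtain ⟨v, hv⟩ := exists_span E
  obtain ⟨v', hv'⟩ := exists_span E'
  refine (fin_le (fun p : Fin (Module.finrank F E) × Fin (Module.finrank F E') =>
    v p.1 * v' p.2) ?_).trans (by simp)
  conv_lhs => rw [← hv, ← hv']
  rw [Submodule.span_mul_span]
  refine Submodule.span_mono fun x hx => ?_
  obtain ⟨_, ⟨i, rfl⟩, _, ⟨j, rfl⟩, rfl⟩ := Set.mem_mul.1 hx
  exact ⟨(i, j), rfl⟩

theorem dim_ins {c : ℕ} (v : Fin c → Fn F b k) :
    Module.finrank F (Submodule.span F (insert 1 (Set.range v))) ≤ c + 1 := by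
  refine (fin_le (fun o : Option (Fin c) => o.elim 1 v) (Submodule.span_mono ?_)).trans (by simp)
  rintro x (rfl | ⟨i, rfl⟩)
  · exact ⟨none, rfl⟩
  · exact ⟨some i, rfl⟩

end Aff

open Aff in
theorem s_aff : S_Aff := by
  intro F _ _ _ b k
  refine ⟨fun e f hf s => zo hf s, fun e f hf s => af hf s.1 s.2, fun e e' h => mono h,
    fun e => le_mulU _, P_le_V, V_le, V3, V2, fun d => ⟨fun x hx => ?_, ?_⟩, fun s s' h => ?_,
    fun d N X m i => fr_mem X m i, fun d N X M => ?_, fun d N X M S => ?_,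
    fun d N X hX f hf => ?_⟩
  · rw [← one_mul x]
    exact Submodule.mul_mem_mul (one_pow_mem _) hx
  · have h := mono (F := F) (b := b) (k := k) (show 1 ≤ 3 * d + 1 by omega)
    rw [pow_one] at h
    exact h.trans (le_mulU _)
  · obtain ⟨i, hi⟩ := Function.ne_iff.1 h
    refine ⟨(s.1 i - s'.1 i)⁻¹ • ((fun t : Zt F b k => t.1 i) - s'.1 i • 1),
      Submodule.smul_mem _ _ (Submodule.sub_mem _ (z_P i) (Submodule.smul_mem _ _ one_P)), ?_, ?_⟩
    · simp [inv_mul_cancel₀ (sub_ne_zero.2 hi)]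
    · simp
  · rw [wt_eq, ← V3]
    exact Submodule.sum_mem _ fun ι _ => Submodule.smul_mem _ _
      (Submodule.mul_mem_mul (Submodule.mul_mem_mul (fr_mem _ _ _) (fr_mem _ _ _)) (fr_mem _ _ _))
  · rw [wt_eq, dotProduct_sum]
    exact sum_congr rfl fun ι _ => by rw [dotProduct_smul]; rfl
  · have h : Cd F b k d ≤ Submodule.span F (Set.range fun ι : Ix N × Ix N × Ix N =>
        fr X 0 ι.1 * fr X 1 ι.2.1 * fr X 2 ι.2.2) := by
      rw [← V3]
      refine (mul_le_mul' (mul_le_mul' (hX 0) (hX 1)) (hX 2)).trans ?_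
      rw [Submodule.span_mul_span, Submodule.span_mul_span]
      refine Submodule.span_mono fun x hx => ?_
      obtain ⟨y, hy, _, ⟨l, rfl⟩, rfl⟩ := Set.mem_mul.1 hx
      obtain ⟨_, ⟨i, rfl⟩, _, ⟨j, rfl⟩, rfl⟩ := Set.mem_mul.1 hy
      exact ⟨(i, j, l), rfl⟩
    obtain ⟨M, hM⟩ := (Submodule.mem_span_range_iff_exists_fun F).1 (h hf)
    exact ⟨M, by rw [wt_eq, hM]⟩

open Aff in
theorem s_dim : S_Dim := by
  intro F _ _ _ b k
  have hP : Module.finrank F (P1 F b k) ≤ b + 1 := dim_ins _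
  have hU : Module.finrank F (U1 F b k) ≤ k + 2 := dim_ins _
  refine ⟨dim_pow, dim_mul, hP, hU, fun d => ?_⟩
  exact (dim_mul _ _).trans (Nat.mul_le_mul (dim_pow _ _ _ hP) hU)

end Vale.Agent.P060
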