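import Vale.Agent.P060.StB

/-! Correlation rounding. -/

namespace Vale.Agent.P060

open Finset Vale.Agent.P015
open scoped BigOperators

namespace CR

variable {Z : Type} [Fintype Z] [Nonempty Z]

lemma E_inj {ι ι' : Type} [Fintype ι] [DecidableEq ι] [Fintype ι'] [DecidableEq ι'] {e : ι → ι'}
    (he : Function.Injective e) (g : (ι → Z) → ℝ) :
    𝔼 f : ι' → Z, g (fun i => f (e i)) = 𝔼 h, g h := by
  classical
  let e1 := Equiv.piEquivPiSubtypeProd (fun x => x ∈ Set.range e) (fun _ : ι' => Z)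
  let e2 : (Set.range e → Z) ≃ (ι → Z) :=
    (Equiv.arrowCongr (Equiv.ofInjective e he) (Equiv.refl Z)).symm
  have h1 := law_equiv e1 (fun x => e2 x.1) g
  have h2 := law_fst (Ω' := {x // x ∉ Set.range e} → Z) (fun x => e2 x) g
  have h3 := law_equiv e2 id g
  exact h1.trans (h2.trans h3)

lemma E_two {T κ : Type} [Fintype T] [DecidableEq T] [Fintype κ] [DecidableEq κ] {J : ℕ}
    {e : Bool × Fin J ⊕ κ → T} (he : Function.Injective e)
    (Ψ : (Bool → Fin J → Z) → (κ → Z) → ℝ) :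
    𝔼 f : T → Z, Ψ (fun r l => f (e (Sum.inl (r, l)))) (fun a => f (e (Sum.inr a))) =
      𝔼 ζ, 𝔼 z, Ψ ζ z := by
  rw [E_inj he fun h => Ψ (fun r l => h (Sum.inl (r, l))) (fun a => h (Sum.inr a)),
    ← E_prod fun x : (Bool → Fin J → Z) × (κ → Z) => Ψ x.1 x.2]
  exact law_equiv ((Equiv.sumArrowEquivProdArrow _ _ Z).trans
    ((Equiv.curry _ _ _).prodCongr (Equiv.refl _))) id
    fun x : (Bool → Fin J → Z) × (κ → Z) => Ψ x.1 x.2

lemma E_one {T : Type} [Fintype T] [DecidableEq T] {J : ℕ}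
    {e : Bool × Fin J ⊕ Unit → T} (he : Function.Injective e)
    (Ψ : (Bool → Fin J → Z) → Z → ℝ) :
    𝔼 f : T → Z, Ψ (fun r l => f (e (Sum.inl (r, l)))) (f (e (Sum.inr ()))) =
      𝔼 ζ, 𝔼 z, Ψ ζ z := by
  rw [E_two he fun ζ z => Ψ ζ (z ())]
  exact E_congr fun ζ => law_equiv (Equiv.funUnique Unit Z) id (Ψ ζ)

/-- The index set of all points. -/
abbrev T (J : ℕ) : Type := Bool × Fin J ⊕ Option BB

/-- The two new points of each role. -/
def ex (a : BB) (r : Bool) (i : Fin 2) : Option BB :=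
  if (r, decide (i = 1)) = a then none else some (r, decide (i = 1))

lemma ex_inj : ∀ a r i r' i', ex a r i = ex a r' i' → r = r' ∧ i = i' := by decide

lemma ex_ne : ∀ a r i, ex a r i ≠ some a := by decide

lemma ex_mem : ∀ a a' : BB, a' ≠ a → ∃ i, ex a a'.1 i = some a' := by decide

/-- The enlarged family. -/
def ext (J : ℕ) (a : BB) (r : Bool) (l : Fin (J + 2)) : T J :=
  Fin.addCases (fun l => Sum.inl (r, l)) (fun i => Sum.inr (ex a r i)) l

def e0 (J : ℕ) : Bool × Fin J ⊕ BB → T J := Sum.map id some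

def e1 (J : ℕ) (a : BB) : Bool × Fin J ⊕ Unit → T J := Sum.map id fun _ => some a

def e2 (J : ℕ) (a : BB) : Bool × Fin (J + 2) ⊕ Unit → T J :=
  Sum.elim (fun p => ext J a p.1 p.2) fun _ => Sum.inr (some a)

lemma e0_inj (J : ℕ) : Function.Injective (e0 J) :=
  Function.injective_id.sumMap (Option.some_injective _)

lemma e1_inj (J : ℕ) (a : BB) : Function.Injective (e1 J a) :=
  Function.injective_id.sumMap fun _ _ _ => rfl

lemma e2_inj (J : ℕ) (a : BB) : Function.Injective (e2 J a) := by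
  refine Function.Injective.sumElim ?_ (fun _ _ _ => rfl) ?_
  · rintro ⟨r, l⟩ ⟨r', l'⟩ h
    induction l using Fin.addCases <;> induction l' using Fin.addCases <;>
      simp only [ext, Fin.addCases_left, Fin.addCases_right, Sum.inl.injEq, Sum.inr.injEq,
        Prod.mk.injEq, reduceCtorEq] at h
    · rw [h.1, h.2]
    · rw [(ex_inj _ _ _ _ _ h).1, (ex_inj _ _ _ _ _ h).2]
  · rintro ⟨r, l⟩ _ h
    induction l using Fin.addCases <;>
      simp only [ext, Fin.addCases_left, Fin.addCases_right, Sum.inr.injEq, reduceCtorEq] at h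
    exact ex_ne _ _ _ h

variable {S W Y : Type} [Fintype S] [Nonempty S] [Fintype W] [Nonempty W] [Fintype Y] [Nonempty Y]

noncomputable def hY (Wf : Bool → Z → S → W) (Yf : Bool → Z → S → Y) (r : Bool) (J : ℕ) : ℝ :=
  𝔼 ζ : Bool → Fin J → Z, 𝔼 z : Z, cent (Yf r z) (fun σ => (ctx Wf Yf ζ σ, Wf r z σ))

noncomputable def dW (Wf : Bool → Z → S → W) (Yf : Bool → Z → S → Y) (r : Bool) (J : ℕ) : ℝ :=
  𝔼 ζ : Bool → Fin J → Z, 𝔼 z : Z, (Real.log (Fintype.card W) - cent (Wf r z) (ctx Wf Yf ζ))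

omit [Nonempty S] [Nonempty W] in
lemma cent_le_log {β : Type} (X : S → W) (c : S → β) : cent X c ≤ Real.log (Fintype.card W) :=
  (cent_le_ent X c).trans (ent_le_log_card univ fun _ => mem_univ _)

lemma step [DecidableEq W] [DecidableEq Y] (h1 : S_CR1) (Wf : Bool → Z → S → W)
    (Yf : Bool → Z → S → Y) (J : ℕ) {η : ℝ} (hη : 0 ≤ η)
    (h : ∑ a : BB, (dW Wf Yf a.1 (J + 2) + hY Wf Yf a.1 J - hY Wf Yf a.1 (J + 2)) ≤ η ^ 2) :
    𝔼 ζ : Bool → Fin J → Z, 𝔼 z : BB → Z, 𝔼 σ, tv (ctx Wf Yf ζ) Wf Yf z σ ≤ η := by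
  rw [← E_two (e0_inj J) fun ζ z => 𝔼 σ, tv (ctx Wf Yf ζ) Wf Yf z σ]
  let c : (T J → Z) → S → Bool → Fin J → W × Y := fun f =>
    ctx Wf Yf fun r l => f (Sum.inl (r, l))
  let c' : (T J → Z) → BB → S → Bool → Fin (J + 2) → W × Y := fun f a =>
    ctx Wf Yf fun r l => f (ext J a r l)
  let z : (T J → Z) → BB → Z := fun f a => f (Sum.inr (some a))
  have hc : ∀ f a σ σ', c' f a σ = c' f a σ' → c f σ = c f σ' ∧ ∀ a', a' ≠ a →
      Wf a'.1 (z f a') σ = Wf a'.1 (z f a') σ' ∧ Yf a'.1 (z f a') σ = Yf a'.1 (z f a') σ' := by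
    intro f a σ σ' h2
    refine ⟨funext fun r => funext fun l => ?_, fun a' ha => ?_⟩
    · simpa only [c', c, ctx, ext, Fin.addCases_left] using
        congrFun (congrFun h2 r) (Fin.castAdd 2 l)
    · obtain ⟨i, hi⟩ := ex_mem a a' ha
      simpa only [c', z, ctx, ext, Fin.addCases_right, hi, Prod.mk.injEq] using
        congrFun (congrFun h2 a'.1) (Fin.natAdd J i)
  let X : (T J → Z) → ℝ := fun f => ∑ a : BB,
    (Real.log (Fintype.card W) - cent (Wf a.1 (z f a)) (c' f a) +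
      cent (Yf a.1 (z f a)) (fun σ => (c f σ, Wf a.1 (z f a) σ)) -
      cent (Yf a.1 (z f a)) (fun σ => (c' f a σ, Wf a.1 (z f a) σ)))
  have hX0 : ∀ f, 0 ≤ X f := fun f => sum_nonneg fun a _ => by
    have h2 := cent_le_log (Wf a.1 (z f a)) (c' f a)
    have h3 := cent_le_of_det_right (X := Yf a.1 (z f a))
      (Y := fun σ => (c f σ, Wf a.1 (z f a) σ)) (Z := fun σ => (c' f a σ, Wf a.1 (z f a) σ))
      fun σ σ' h => Prod.ext (hc f a σ σ' (Prod.mk.inj h).1).1 (Prod.mk.inj h).2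
    linarith
  have hX : 𝔼 f, X f =
      ∑ a : BB, (dW Wf Yf a.1 (J + 2) + hY Wf Yf a.1 J - hY Wf Yf a.1 (J + 2)) := by
    rw [E_sum]
    refine sum_congr rfl fun a _ => ?_
    rw [E_sub, E_add, dW, hY, hY, ← E_one (e2_inj J a), ← E_one (e1_inj J a),
      ← E_one (e2_inj J a)]
    rfl
  refine (E_mono (g := fun f => √(X f)) fun f =>
    h1 S _ _ Z W Y (c f) Wf Yf (z f) (c' f) (hc f)).trans ?_
  have h2 := expect_mul_sq_le_sq_mul_sq univ (fun f => √(X f)) (fun _ => (1 : ℝ))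
  simp only [mul_one, one_pow, E_const, Real.sq_sqrt (hX0 _)] at h2
  exact abs_le_of_sq_le_sq' (h2.trans (hX.le.trans h)) hη |>.2

end CR

open CR

theorem s_cr (h1 : S_CR1) (h2 : S_CR2) : S_CR := by
  intro S Z W Y _ _ _ _ _ _ _ _ _ _ Wf Yf gp Λ M δ η Lm L J0 hH hL hJ hLm1 hLm2 hη hb
  have hJ' : (0 : ℝ) < J0 := by exact_mod_cast hJ
  have hL' : (0 : ℝ) < L := by exact_mod_cast hL
  have hY0 : 0 ≤ Real.log (Fintype.card Y) := Real.log_natCast_nonneg _
  let g : ℕ → ℝ := fun i => ∑ a : BB, hY Wf Yf a.1 (2 * i)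
  have g0 : 0 ≤ g J0 := sum_nonneg fun a _ => E_nonneg fun _ => E_nonneg fun _ => cent_nonneg _ _
  have g1 : g 0 ≤ 4 * Real.log (Fintype.card Y) := by
    refine (sum_le_card_nsmul _ _ (Real.log (Fintype.card Y)) fun a _ =>
      E_le fun _ => E_le fun _ => cent_le_log _ _).trans (le_of_eq ?_)
    simp
  obtain ⟨i, hi, hg⟩ := exists_le_of_sum_le (s := range J0) (f := fun i => g i - g (i + 1))
    (g := fun _ => 4 * Real.log (Fintype.card Y) / J0) (nonempty_range_iff.2 hJ.ne') (by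
      rw [sum_range_sub', sum_const, card_range, nsmul_eq_mul, mul_div_cancel₀ _ hJ'.ne']
      linarith)
  have hi' := mem_range.1 hi
  have hd : ∀ r, dW Wf Yf r (2 * i + 2) ≤ (Real.log M + 4 * J0 * Real.log (Fintype.card Y) +
      Real.log Λ / L) / L + 2 * Lm * δ * Real.log (Fintype.card W) := by
    intro r
    refine (h2 S Z W Y Wf Yf gp Λ M δ Lm L (2 * i + 2) r hH hL (by omega)
      ((Nat.mul_le_mul_left L (by omega)).trans hLm2)).trans ?_
    have h3 : (2 : ℝ) * ((2 * i + 2 : ℕ) : ℝ) ≤ 4 * J0 := by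
      have : 2 * (2 * i + 2) ≤ 4 * J0 := by omega
      exact_mod_cast this
    gcongr
  have h4 := step h1 Wf Yf (2 * i) hη (by
    have h5 : ∑ a : BB, dW Wf Yf a.1 (2 * i + 2) ≤ 4 * ((Real.log M +
        4 * J0 * Real.log (Fintype.card Y) + Real.log Λ / L) / L +
        2 * Lm * δ * Real.log (Fintype.card W)) := by
      refine (sum_le_card_nsmul _ _ _ fun a _ => hd a.1).trans (le_of_eq ?_)
      simp only [card_univ, Fintype.card_prod, Fintype.card_bool, nsmul_eq_mul]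
      norm_num
    have h6 : ∑ a : BB, hY Wf Yf a.1 (2 * i) - ∑ a : BB, hY Wf Yf a.1 (2 * i + 2) ≤
        4 * Real.log (Fintype.card Y) / J0 := hg
    rw [sum_sub_distrib, sum_add_distrib]
    linarith)
  obtain ⟨ζ, -, hζ⟩ := exists_le_of_expect_le univ_nonempty h4
  exact ⟨_, ctx Wf Yf ζ, hζ⟩

end Vale.Agent.P060
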