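import Vale.Agent.P060.StB

/-! Correlation rounding, first step: total variation from entropy differences. -/

namespace Vale.Agent.P060

open Finset Vale.Agent.P015
open scoped BigOperators

namespace CR1

variable {S O W Y : Type} [Fintype S] [Fintype W] [Fintype Y]

/-- Superadditivity of conditional entropy under finer conditioning. -/
lemma sum_cent_le {ι δ O' : Type} (T : ι → S → δ) (c : S → O) (c' : ι → S → O')
    (h : ∀ a σ σ', c' a σ = c' a σ' → c σ = c σ' ∧ ∀ a', a' ≠ a → T a' σ = T a' σ')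
    (J : Finset ι) : ∀ {α : Type} (X : S → α),
      (∀ σ σ', X σ = X σ' → ∀ i ∈ J, T i σ = T i σ') →
      ∑ i ∈ J, cent (T i) (c' i) ≤ cent X c := by
  classical
  induction J using Finset.induction_on with
  | empty => intro α X _; simpa using cent_nonneg X c
  | insert a J ha ih =>
    intro α X hX
    rw [sum_insert ha]
    have h1 := ih (fun σ => fun i : J => T i σ) fun σ σ' h' i hi => congrFun h' ⟨i, hi⟩
    have h2 : cent (T a) (c' a) ≤ cent (T a) (fun σ => ((fun i : J => T i σ), c σ)) := by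
      refine cent_le_of_det_right fun σ σ' h' => ?_
      obtain ⟨h3, h4⟩ := h a σ σ' h'
      refine Prod.ext (funext fun i => h4 i ?_) h3
      rintro rfl
      exact ha i.2
    have h3 := cent_pair (T a) (fun σ => fun i : J => T i σ) c
    have h4 : cent (fun σ => (T a σ, fun i : J => T i σ)) c ≤ cent X c := by
      refine cent_le_of_det_left fun σ σ' h' _ => ?_
      exact Prod.ext (hX σ σ' h' a (mem_insert_self _ _))
        (funext fun i => hX σ σ' h' i (mem_insert_of_mem i.2))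
    linarith

lemma cK_nonneg (c : S → O) (Wf : S → W) (Yf : S → Y) (o : O) (w : W) (y : Y) :
    0 ≤ cK c Wf Yf o w y := by
  unfold cK
  split_ifs
  · positivity
  · exact div_nonneg (pr_nonneg _) (pr_nonneg _)

lemma cK_sum [Nonempty Y] (c : S → O) (Wf : S → W) (Yf : S → Y) (o : O) (w : W) :
    ∑ y, cK c Wf Yf o w y = 1 := by
  unfold cK
  split_ifs with h
  · have : (Fintype.card Y : ℝ) ≠ 0 := by positivity
    rw [sum_const, card_univ, nsmul_eq_mul]
    field_simp
  · rw [← sum_div, div_eq_one_iff_eq h]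
    simp only [pr]
    rw [← E_sum]
    refine E_congr fun σ => ?_
    rw [← sum_ind_eq (mem_univ (Yf σ)) fun _ => ind (c σ = o ∧ Wf σ = w)]
    refine sum_congr rfl fun y _ => ?_
    rw [← ind_and]
    exact ind_congr (by tauto)

lemma cK_self (c : S → O) (Wf : S → W) (Yf : S → Y) (σ : S) :
    cK c Wf Yf (c σ) (Wf σ) (Yf σ) =
      (pr fun σ' => Yf σ' = Yf σ ∧ (c σ', Wf σ') = (c σ, Wf σ)) /
        pr fun σ' => (c σ', Wf σ') = (c σ, Wf σ) := by
  unfold cK
  rw [if_neg (pr_pos (ω := σ) ⟨rfl, rfl⟩).ne']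
  congr 1
  · exact pr_congr fun σ' => by simp only [Prod.mk.injEq]; tauto
  · exact pr_congr fun σ' => by simp only [Prod.mk.injEq]

lemma cK_pos (c : S → O) (Wf : S → W) (Yf : S → Y) (σ : S) :
    0 < cK c Wf Yf (c σ) (Wf σ) (Yf σ) := by
  rw [cK_self]
  exact div_pos (pr_pos (ω := σ) ⟨rfl, rfl⟩) (pr_pos (ω := σ) rfl)

lemma cK_ent (c : S → O) (Wf : S → W) (Yf : S → Y) :
    𝔼 σ, -Real.log (cK c Wf Yf (c σ) (Wf σ) (Yf σ)) = cent Yf fun σ => (c σ, Wf σ) := by
  rw [cent_eq]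
  exact E_congr fun σ => by rw [cK_self]

lemma tok_sum [Nonempty W] [Nonempty Y] (c : S → O) (Wf : S → W) (Yf : S → Y) (o : O) :
    ∑ t : W × Y, cK c Wf Yf o t.1 t.2 / (Fintype.card W : ℝ) = 1 := by
  have : (Fintype.card W : ℝ) ≠ 0 := by positivity
  rw [← sum_div, Fintype.sum_prod_type]
  simp only [cK_sum, sum_const, card_univ, nsmul_eq_mul, mul_one]
  exact div_self this

lemma tok_ent {O' : Type} (Wf : S → W) (Yf : S → Y) (c' : S → O') :
    cent Wf c' + cent Yf (fun σ => (c' σ, Wf σ)) ≤ cent (fun σ => (Wf σ, Yf σ)) c' := by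
  have h1 := cent_pair Yf Wf c'
  have h2 : cent Yf (fun σ => (c' σ, Wf σ)) ≤ cent Yf (fun σ => (Wf σ, c' σ)) :=
    cent_le_of_det_right fun σ σ' h => Prod.ext (Prod.mk.inj h).2 (Prod.mk.inj h).1
  have h3 : cent (fun σ => (Yf σ, Wf σ)) c' ≤ cent (fun σ => (Wf σ, Yf σ)) c' :=
    cent_le_of_det_left fun σ σ' h _ => Prod.ext (Prod.mk.inj h).2 (Prod.mk.inj h).1
  linarith

end CR1

open CR1 in
theorem s_cr1 (hp : S_Pin) : S_CR1 := by
  intro S O O' Z W Y _ _ _ _ _ _ _ _ c Wf Yf z c' h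
  have hW : (0 : ℝ) < Fintype.card W := by positivity
  refine hp S O (BB → W × Y) c (fun σ' a => (Wf a.1 (z a) σ', Yf a.1 (z a) σ'))
    (fun o x => ∏ a : BB, (cK c (Wf a.1 (z a)) (Yf a.1 (z a)) o (x a).1 (x a).2 / Fintype.card W))
    _ (fun o x => prod_nonneg fun a _ => div_nonneg (cK_nonneg _ _ _ _ _ _) hW.le) (fun o => ?_)
    (fun σ => prod_pos fun a _ => div_pos (cK_pos _ _ _ σ) hW) ?_
  · have := prod_univ_sum (fun _ : BB => (univ : Finset (W × Y)))
      fun a t => cK c (Wf a.1 (z a)) (Yf a.1 (z a)) o t.1 t.2 / (Fintype.card W : ℝ)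
    rw [Fintype.piFinset_univ] at this
    rw [← this]
    exact prod_eq_one fun a _ => tok_sum _ _ _ _
  · have h1 : 𝔼 σ, -Real.log (∏ a : BB, (cK c (Wf a.1 (z a)) (Yf a.1 (z a)) (c σ)
        (Wf a.1 (z a) σ) (Yf a.1 (z a) σ) / Fintype.card W)) =
        ∑ a : BB, (Real.log (Fintype.card W) +
          cent (Yf a.1 (z a)) (fun σ => (c σ, Wf a.1 (z a) σ))) := by
      have : ∀ σ, -Real.log (∏ a : BB, (cK c (Wf a.1 (z a)) (Yf a.1 (z a)) (c σ)
          (Wf a.1 (z a) σ) (Yf a.1 (z a) σ) / Fintype.card W)) =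
          ∑ a : BB, (Real.log (Fintype.card W) + -Real.log (cK c (Wf a.1 (z a)) (Yf a.1 (z a))
            (c σ) (Wf a.1 (z a) σ) (Yf a.1 (z a) σ))) := fun σ => by
        rw [Real.log_prod fun a _ => (div_pos (cK_pos _ _ _ σ) hW).ne', ← sum_neg_distrib]
        refine sum_congr rfl fun a _ => ?_
        rw [Real.log_div (cK_pos _ _ _ σ).ne' hW.ne']
        ring
      rw [E_congr this, E_sum]
      refine sum_congr rfl fun a _ => ?_
      rw [E_add, E_const, cK_ent]
    have h2 := sum_cent_le (fun (a : BB) σ => (Wf a.1 (z a) σ, Yf a.1 (z a) σ)) c c'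
      (fun a σ σ' h' => ⟨(h a σ σ' h').1, fun a' ha' =>
        Prod.ext ((h a σ σ' h').2 a' ha').1 ((h a σ σ' h').2 a' ha').2⟩) univ
      (fun σ' a => (Wf a.1 (z a) σ', Yf a.1 (z a) σ')) fun σ σ' h' i _ => congrFun h' i
    have h3 := sum_le_sum fun a (_ : a ∈ (univ : Finset BB)) =>
      tok_ent (Wf a.1 (z a)) (Yf a.1 (z a)) (c' a)
    have h4 : ∑ a : BB, (Real.log (Fintype.card W) - cent (Wf a.1 (z a)) (c' a) +
        cent (Yf a.1 (z a)) (fun σ => (c σ, Wf a.1 (z a) σ)) -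
        cent (Yf a.1 (z a)) (fun σ => (c' a σ, Wf a.1 (z a) σ))) =
        ∑ a : BB, (Real.log (Fintype.card W) +
          cent (Yf a.1 (z a)) (fun σ => (c σ, Wf a.1 (z a) σ))) -
        ∑ a : BB, (cent (Wf a.1 (z a)) (c' a) +
          cent (Yf a.1 (z a)) (fun σ => (c' a σ, Wf a.1 (z a) σ))) := by
      rw [← sum_sub_distrib]
      exact sum_congr rfl fun a _ => by ring
    rw [h4]
    simp only []
    rw [h1]
    linarith

end Vale.Agent.P060
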