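import Vale.Agent.P060.StB

namespace Vale.Agent.P060

open Finset Vale.Agent.P015
open scoped BigOperators

namespace CR2

theorem law_comp {ι ι' Z : Type} [Fintype ι] [DecidableEq ι] [Fintype ι'] [DecidableEq ι']
    [Fintype Z] [Nonempty Z] {e : ι → ι'} (he : Function.Injective e) :
    Law (fun f : ι' → Z => fun i => f (e i)) (fun g : ι → Z => g) := by
  classical
  have h1 := law_equiv (Equiv.piEquivPiSubtypeProd (fun x => x ∈ Set.range e) fun _ => Z)
    (fun p => fun i => p.1 ⟨e i, i, rfl⟩)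
  have h2 := law_fst (Ω' := {x // ¬ x ∈ Set.range e} → Z)
    (fun (p : {x // x ∈ Set.range e} → Z) => fun i => p ⟨e i, i, rfl⟩)
  have h3 := law_equiv (Equiv.arrowCongr (Equiv.ofInjective e he).symm (Equiv.refl Z))
    (fun g : ι → Z => g)
  exact (h1.trans h2).trans h3

theorem le_ent {S α : Type} [Fintype S] [Nonempty S] {X : S → α} {c : ℝ}
    (h : ∀ σ0, pr (fun σ => X σ = X σ0) ≤ c) : -Real.log c ≤ ent X :=
  le_E fun σ => neg_le_neg (Real.log_le_log (pr_fib_pos X σ) (h σ))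

theorem ent_le {S ι W : Type} [Fintype S] [Fintype ι] [Fintype W] (X : S → ι → W) :
    ent X ≤ Fintype.card ι * Real.log (Fintype.card W) := by
  classical
  have := ent_le_log_card (X := X) univ fun _ => mem_univ _
  rwa [card_univ, Fintype.card_fun, Nat.cast_pow, Real.log_pow] at this

/-- The context positions. -/
def zz {Z : Type} {J : ℕ} (r : Bool) (a c : Fin J → Z) : Bool → Fin J → Z :=
  fun r' => if r' = r then a else c

theorem zz_self {Z : Type} {J : ℕ} (r : Bool) (a c : Fin J → Z) : zz r a c r = a := if_pos rfl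

theorem zz_not {Z : Type} {J : ℕ} (r : Bool) (a c : Fin J → Z) : zz r a c (!r) = c :=
  if_neg (by simp)

variable {S Z W Y : Type} [Fintype S] [Nonempty S] [Fintype W] [Nonempty W] [Fintype Y]
  (Wf : Bool → Z → S → W) (Yf : Bool → Z → S → Y) {L J : ℕ} (r : Bool)

omit [Nonempty S] [Nonempty W] in
theorem row (zr : Fin J ⊕ Fin L → Z) (c : Fin J → Z) :
    ent (fun σ i => Wf r (zr i) σ) + cent (fun σ j => Wf (!r) (c j) σ) (fun σ i => Wf r (zr i) σ) -
      2 * J * Real.log (Fintype.card W) - 2 * J * Real.log (Fintype.card Y) ≤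
      ∑ l, cent (Wf r (zr (Sum.inr l))) (ctx Wf Yf (zz r (fun j => zr (Sum.inl j)) c)) := by
  obtain ⟨ζ, hζ⟩ : ∃ ζ, ζ = zz r (fun j => zr (Sum.inl j)) c := ⟨_, rfl⟩
  rw [← hζ]
  have h1 := cent_le_sum univ (fun l => Wf r (zr (Sum.inr l))) (ctx Wf Yf ζ)
    (fun σ l => Wf r (zr (Sum.inr l)) σ) fun σ σ' h _ => funext fun l => h l (mem_univ l)
  have h2 : ent (fun σ => ((fun j => Wf (!r) (c j) σ), fun i => Wf r (zr i) σ)) ≤
      ent (fun σ => ((fun l => Wf r (zr (Sum.inr l)) σ), ctx Wf Yf ζ σ)) := by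
    refine ent_le_of_det fun σ σ' h => ?_
    obtain ⟨p1, p2⟩ := Prod.mk.inj h
    have p3 : ∀ r' j, Wf r' (ζ r' j) σ = Wf r' (ζ r' j) σ' := fun r' j =>
      (Prod.mk.inj (congrFun (congrFun p2 r') j)).1
    refine Prod.ext (funext fun j => ?_) (funext fun i => ?_)
    · have := p3 (!r) j
      rwa [hζ, zz_not] at this
    · rcases i with j | l
      · have := p3 r j
        rwa [hζ, zz_self] at this
      · exact congrFun p1 l
  have h3 : ent (ctx Wf Yf ζ) ≤ ent (fun σ (p : Bool × Fin J) => Wf p.1 (ζ p.1 p.2) σ) +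
      ent (fun σ (p : Bool × Fin J) => Yf p.1 (ζ p.1 p.2) σ) :=
    ent_le_add_of_det fun σ σ' p q => funext fun r' => funext fun j =>
      Prod.ext (congrFun p (r', j)) (congrFun q (r', j))
  have h4 := ent_le (fun σ (p : Bool × Fin J) => Wf p.1 (ζ p.1 p.2) σ)
  have h5 := ent_le (fun σ (p : Bool × Fin J) => Yf p.1 (ζ p.1 p.2) σ)
  simp only [Fintype.card_prod, Fintype.card_bool, Fintype.card_fin, Nat.cast_mul,
    Nat.cast_ofNat] at h4 h5
  unfold cent at h1 ⊢
  linarith

theorem good [Fintype Z] {gp : ∀ ι : Type, (ι → Z) → Prop} {Λ M δ : ℝ} {Lm : ℕ}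
    (h : CRH Wf gp Λ M δ Lm) (zr : Fin J ⊕ Fin L → Z) (zc : Fin L × Fin J → Z) (g1 : gp _ zr)
    (g2 : gp _ zc) :
    ∑ l', ∑ l, (Real.log (Fintype.card W) - cent (Wf r (zr (Sum.inr l)))
      (ctx Wf Yf (zz r (fun j => zr (Sum.inl j)) fun j => zc (l', j)))) ≤
      L * (Real.log M + 2 * J * Real.log (Fintype.card Y)) + Real.log Λ := by
  have hW : (0 : ℝ) < Fintype.card W := Nat.cast_pos.2 Fintype.card_pos
  have hM : 0 < M := one_pos.trans_le h.one.2.1
  have hΛ : 0 < Λ := one_pos.trans_le h.one.1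
  have h1 := le_ent (X := fun σ i => Wf r (zr i) σ) fun σ0 =>
    (pr_congr fun σ => funext_iff).trans_le (h.d1 r _ zr g1 σ0)
  have h2 := le_ent (X := fun σ => ((fun p => Wf (!r) (zc p) σ), fun i => Wf r (zr i) σ))
    fun σ0 => (pr_congr fun σ => by
      rw [Prod.mk.injEq, funext_iff, funext_iff, and_comm]).trans_le (h.d2 r _ _ zr zc g1 g2 σ0)
  have h3 := ent_le (fun σ i => Wf r (zr i) σ)
  have h4 := cent_le_sum univ (fun l' σ j => Wf (!r) (zc (l', j)) σ) (fun σ i => Wf r (zr i) σ)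
    (fun σ p => Wf (!r) (zc p) σ) fun σ σ' h _ => funext fun p => congrFun (h p.1 (mem_univ _)) p.2
  have h5 := sum_le_sum fun l' (_ : l' ∈ univ) => row Wf Yf r zr fun j => zc (l', j)
  rw [Real.log_div (by positivity) (by positivity), Real.log_pow] at h1 h2
  simp only [sum_sub_distrib, sum_add_distrib, sum_const, card_univ, Fintype.card_fin,
    nsmul_eq_mul, Fintype.card_sum, Fintype.card_prod, Nat.cast_add, Nat.cast_mul] at *
  rw [cent] at h4
  have h6 := mul_le_mul_of_nonneg_left h1 (Nat.cast_nonneg (α := ℝ) L)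
  linarith

/-- The embedding of the small index set. -/
def emb (r : Bool) (l l' : Fin L) :
    Option (Bool × Fin J) → (Fin J ⊕ Fin L) ⊕ (Fin L × Fin J)
  | none => Sum.inl (Sum.inr l)
  | some p => if p.1 = r then Sum.inl (Sum.inl p.2) else Sum.inr (l', p.2)

theorem emb_inj (l l' : Fin L) : Function.Injective (emb (J := J) r l l') := by
  rintro (_ | ⟨a, j⟩) (_ | ⟨b, j'⟩) h <;> simp only [emb] at h
  · rfl
  · split_ifs at h <;> simp at h
  · split_ifs at h <;> simp at h
  · cases r <;> cases a <;> cases b <;> simp_all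

theorem unif [Fintype Z] [Nonempty Z] (l l' : Fin L) (φ : (Bool → Fin J → Z) → Z → ℝ) :
    𝔼 f : (Fin J ⊕ Fin L) ⊕ (Fin L × Fin J) → Z,
      φ (zz r (fun j => f (Sum.inl (Sum.inl j))) fun j => f (Sum.inr (l', j)))
        (f (Sum.inl (Sum.inr l))) = 𝔼 ζ, 𝔼 z, φ ζ z := by
  have h1 := law_comp (Z := Z) (emb_inj (J := J) r l l') fun g => φ (fun r' j => g (some (r', j)))
    (g none)
  have h2 := law_equiv ((Equiv.piOptionEquivProd (β := fun _ : Option (Bool × Fin J) => Z)).trans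
    (Equiv.prodCongr (Equiv.refl Z) (Equiv.curry Bool (Fin J) Z))) (fun p => p)
    fun p => φ p.2 p.1
  rw [E_comm, ← E_prod fun p : Z × (Bool → Fin J → Z) => φ p.2 p.1, ← h2]
  refine Eq.trans (E_congr fun f => ?_) h1
  congr 1
  funext r' j
  simp only [zz, emb]
  split_ifs <;> rfl

end CR2

open CR2 in
theorem s_cr2 : S_CR2 := by
  intro S Z W Y _ _ _ _ _ _ _ _ Wf Yf gp Λ M δ Lm L J r h hL h1 h2
  have hL' : (0 : ℝ) < L := Nat.cast_pos.2 hL
  have hw : 0 ≤ Real.log (Fintype.card W) := Real.log_natCast_nonneg _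
  have hy : 0 ≤ Real.log (Fintype.card Y) := Real.log_natCast_nonneg _
  have hM := Real.log_nonneg h.one.2.1
  have hΛ := Real.log_nonneg h.one.1
  have hδ := h.one.2.2
  obtain ⟨φ, hφ⟩ : ∃ φ : (Bool → Fin J → Z) → Z → ℝ, ∀ ζ z, φ ζ z =
      Real.log (Fintype.card W) - cent (Wf r z) (ctx Wf Yf ζ) := ⟨_, fun _ _ => rfl⟩
  have hφw : ∀ ζ z, φ ζ z ≤ Real.log (Fintype.card W) := fun ζ z => by
    rw [hφ]
    exact sub_le_self _ (cent_nonneg _ _)
  simp only [← hφ]
  have e1 : (L : ℝ) * (L * 𝔼 ζ, 𝔼 z, φ ζ z) =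
      𝔼 f : (Fin J ⊕ Fin L) ⊕ (Fin L × Fin J) → Z, ∑ l', ∑ l,
        φ (zz r (fun j => f (Sum.inl (Sum.inl j))) fun j => f (Sum.inr (l', j)))
          (f (Sum.inl (Sum.inr l))) := by
    simp only [E_sum, unif, sum_const, card_univ, Fintype.card_fin, nsmul_eq_mul]
  have e2 : ∀ f : (Fin J ⊕ Fin L) ⊕ (Fin L × Fin J) → Z, ∑ l', ∑ l,
      φ (zz r (fun j => f (Sum.inl (Sum.inl j))) fun j => f (Sum.inr (l', j)))
        (f (Sum.inl (Sum.inr l))) ≤
      L * (Real.log M + 2 * J * Real.log (Fintype.card Y)) + Real.log Λ +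
        L * (L * Real.log (Fintype.card W)) *
          (ind (¬ gp _ fun i => f (Sum.inl i)) + ind (¬ gp _ fun i => f (Sum.inr i))) := by
    intro f
    have i1 := ind_nonneg (¬ gp _ fun i => f (Sum.inl i))
    have i2 := ind_nonneg (¬ gp _ fun i => f (Sum.inr i))
    by_cases g : (gp _ fun i => f (Sum.inl i)) ∧ gp _ fun i => f (Sum.inr i)
    · simp only [hφ]
      exact (good Wf Yf r h _ _ g.1 g.2).trans (le_add_of_nonneg_right (by positivity))
    · have i3 : 1 ≤ ind (¬ gp _ fun i => f (Sum.inl i)) + ind (¬ gp _ fun i => f (Sum.inr i)) := by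
        rcases not_and_or.1 g with g | g
        · rw [ind_pos g]
          linarith
        · rw [ind_pos g]
          linarith
      refine (sum_le_sum fun l' _ => sum_le_sum fun l _ => hφw _ _).trans ?_
      simp only [sum_const, card_univ, Fintype.card_fin, nsmul_eq_mul]
      exact (le_mul_of_one_le_right (by positivity) i3).trans
        (le_add_of_nonneg_left (by positivity))
  have e3 := E_mono e2
  rw [← e1, E_add, E_const, E_mul_left, E_add] at e3
  have p1 := ((law_comp (Z := Z) (Sum.inl_injective (α := Fin J ⊕ Fin L)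
    (β := Fin L × Fin J))).pr_eq fun ζ => ¬ gp _ ζ).trans_le (h.gen _ (by simpa using h1))
  have p2 := ((law_comp (Z := Z) (Sum.inr_injective (α := Fin J ⊕ Fin L)
    (β := Fin L × Fin J))).pr_eq fun ζ => ¬ gp _ ζ).trans_le (h.gen _ (by simpa using h2))
  simp only [Fintype.card_sum, Fintype.card_prod, Fintype.card_fin] at p1 p2
  have q1 := p1.trans (mul_le_mul_of_nonneg_right (Nat.cast_le.2 h1) hδ)
  have q2 := p2.trans (mul_le_mul_of_nonneg_right (Nat.cast_le.2 h2) hδ)
  have q3 := mul_le_mul_of_nonneg_left (add_le_add q1 q2)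
    (by positivity : (0 : ℝ) ≤ L * (L * Real.log (Fintype.card W)))
  refine le_of_mul_le_mul_left (le_of_mul_le_mul_left ?_ hL') hL'
  refine (e3.trans (add_le_add le_rfl q3)).trans_eq ?_
  field_simp
  ring

end Vale.Agent.P060
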