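import Vale.Agent.P060.StA

/-! The additive character in characteristic two and its orthogonality relations. -/

namespace Vale.Agent.P060

open Finset Vale.Agent.P015
open scoped BigOperators

namespace ChiP

theorem expect_zero {G : Type} [AddCommGroup G] [Fintype G] (f : G → ℝ) (g : G) (c : ℝ)
    (hc : c ≠ 1) (h : ∀ x, f (x + g) = f x * c) : 𝔼 x, f x = 0 := by
  have h1 : 𝔼 x, f (x + g) = 𝔼 x, f x :=
    Fintype.expect_equiv (Equiv.addRight g) _ _ fun _ => rfl
  simp only [h] at h1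
  rw [← Finset.expect_mul] at h1
  have h2 : (𝔼 x, f x) * (c - 1) = 0 := by rw [mul_sub, h1, mul_one, sub_self]
  exact (mul_eq_zero.1 h2).resolve_right (sub_ne_zero.2 hc)

theorem zmod_sign (a b : ZMod 2) : (if a + b = 0 then (1 : ℝ) else -1) =
    (if a = 0 then (1 : ℝ) else -1) * if b = 0 then (1 : ℝ) else -1 := by
  have h : ∀ x : ZMod 2, x = 0 ∨ x = 1 := by decide
  have h1 : (1 : ZMod 2) + 1 = 0 := by decide
  rcases h a with rfl | rfl <;> rcases h b with rfl | rfl <;> simp [h1]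

theorem exists_chi (F : Type) [Field F] [CharP F 2] : ∃ χ : F → ℝ, Chi χ := by
  let : Algebra (ZMod 2) F := ZMod.algebra F 2
  have : Fact (Nat.Prime 2) := Nat.fact_prime_two
  obtain ⟨τ, hτ⟩ := not_forall.1 fun h =>
    one_ne_zero ((Module.forall_dual_apply_eq_zero_iff (ZMod 2) (1 : F)).1 h)
  refine ⟨fun a => if τ a = 0 then 1 else -1, by simp, fun a b => ?_, 1, ?_⟩
  · rw [map_add, zmod_sign]
  · rw [if_neg hτ]
    norm_num

end ChiP

theorem s_chi : S_Chi := by
  intro F _ _ _ _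
  refine ⟨ChiP.exists_chi F, fun χ h => ?_⟩
  obtain ⟨a0, ha0⟩ := h.nontriv
  refine ⟨fun a => ?_, fun a => ?_, fun ι _ _ v => ?_⟩
  · rw [← mul_self_eq_one_iff, ← h.add, CharTwo.add_self_eq_zero, h.zero]
  · by_cases ha : a = 0
    · simp [ha, h.zero, ind]
    · rw [ChiP.expect_zero (fun x => χ (a * x)) (a⁻¹ * a0) (χ a0) ha0 fun x => ?_]
      · simp [ind, ha]
      · rw [mul_add, mul_inv_cancel_left₀ ha, h.add]
  · by_cases hv : v = 0
    · simp [hv, h.zero, ind]
    · obtain ⟨i, hi⟩ := Function.ne_iff.1 hv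
      have hi' : v i ≠ 0 := hi
      rw [ChiP.expect_zero (fun ξ : ι → F => χ (ξ ⬝ᵥ v)) (Pi.single i (a0 * (v i)⁻¹)) (χ a0) ha0
        fun x => ?_]
      · simp [ind, hv]
      · rw [add_dotProduct, single_dotProduct, inv_mul_cancel_right₀ hi', h.add]

end Vale.Agent.P060
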