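import Vale.Agent.P060.StC

/-! The counting step. -/

namespace Vale.Agent.P060

open Finset Vale.Agent.P015
open scoped BigOperators

namespace Cnt

lemma cond_avg {S O : Type} [Fintype S] (c : S → O) (A : S → Prop) :
    𝔼 σ, pr (fun σ' => c σ' = c σ ∧ A σ') / pr (fun σ' => c σ' = c σ) = pr A := by
  have h1 : ∀ σ, pr (fun σ' => c σ' = c σ ∧ A σ') / pr (fun σ' => c σ' = c σ) =
      𝔼 σ', ind (A σ') * (ind (c σ = c σ') / pr (fun σ'' => c σ'' = c σ')) := by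
    intro σ
    rw [pr, ← E_div]
    refine E_congr fun σ' => ?_
    by_cases h : c σ' = c σ
    · rw [ind_and, ind_pos h, ind_pos h.symm, h]
      ring
    · rw [ind_and, ind_neg h, ind_neg (p := c σ = c σ') fun h' => h h'.symm]
      ring
  simp only [h1]
  rw [E_comm, pr]
  refine E_congr fun σ' => ?_
  rw [E_mul_left, E_div]
  have h2 : 𝔼 σ, ind (c σ = c σ') = pr (fun σ'' => c σ'' = c σ') := rfl
  rw [h2, div_self (pr_fib_pos c σ').ne', mul_one]

lemma markov {S : Type} [Fintype S] [Nonempty S] (f : S → ℝ) (a : ℝ) (ha : 0 < a)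
    (h0 : ∀ σ, 0 ≤ f σ) (h : 𝔼 σ, f σ ≤ a) : 1 / 2 ≤ pr fun σ => f σ ≤ 2 * a := by
  have h1 : 𝔼 σ, (1 - f σ / (2 * a)) ≤ pr fun σ => f σ ≤ 2 * a := by
    refine E_mono fun σ => ?_
    by_cases hσ : f σ ≤ 2 * a
    · rw [ind_pos hσ]
      have := div_nonneg (h0 σ) (by positivity : (0 : ℝ) ≤ 2 * a)
      linarith
    · rw [ind_neg hσ, sub_nonpos, le_div_iff₀ (by positivity)]
      linarith
  rw [E_sub, E_const, E_div] at h1
  have h2 : (𝔼 σ, f σ) / (2 * a) ≤ 1 / 2 := by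
    rw [div_le_iff₀ (by positivity)]
    linarith
  linarith

variable {F : Type} [Field F] [Fintype F] [DecidableEq F] {b k d N n : ℕ} {S O : Type}

lemma tvs_nonneg [Fintype S] (u : S → Un F b k d N) (c : S → O) (s : BB → Zt F b k) (σ : S) :
    0 ≤ tvs u c s σ :=
  sum_nonneg fun _ _ => le_max_right _ _

lemma tvs_le (ρ : Zt F b k → Fn F b k) (τ : Ty F b k n) [Fintype S] (u : S → Un F b k d N)
    (c : S → O) (E : ℝ) (σ : S) : 𝔼 s : BB → Zt F b k, tvs u c s σ ≤ ee ρ τ u c E σ :=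
  E_mono fun _ => le_add_of_nonneg_right (div_nonneg (pr_nonneg _) (pr_nonneg _))

lemma ee_nonneg (ρ : Zt F b k → Fn F b k) (τ : Ty F b k n) [Fintype S] (u : S → Un F b k d N)
    (c : S → O) (E : ℝ) (σ : S) : 0 ≤ ee ρ τ u c E σ :=
  (E_nonneg fun s => tvs_nonneg u c s σ).trans (tvs_le ρ τ u c E σ)

lemma ee_avg (ρ : Zt F b k → Fn F b k) (τ : Ty F b k n) [Fintype S] (u : S → Un F b k d N)
    (c : S → O) (E : ℝ) : 𝔼 σ, ee ρ τ u c E σ = (𝔼 s : BB → Zt F b k, 𝔼 σ, tvs u c s σ) +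
      𝔼 s : BB → Zt F b k, pr (fun σ => ¬ Gd ρ τ u E s σ) := by
  unfold ee
  rw [E_comm, ← E_add]
  refine E_congr fun s => ?_
  rw [E_add, cond_avg]

lemma energy (hk : S_AK) (La : (Fin b → F) → Co F k → Lx n → Co F k)
    {K : (Fin b → F) → Wt F k N → Co F k → ℝ} (hK : Kern K) :
    ∑ θ, 𝔼 κ, abar La K κ θ ^ 2 ≤ 1 := by
  obtain ⟨-, h2, -, h4⟩ := hk F b k N n La K
  rw [← E_sum]
  refine E_le fun κ => ?_
  have h0 : ∀ θ, 0 ≤ abar La K κ θ := fun θ => E_nonneg fun s => h2 hK.1 s κ θ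
  have h1 : ∑ θ, abar La K κ θ = 1 := by
    simp only [abar]
    rw [← E_sum]
    simp only [h4 hK.2, E_const]
  rw [← h1]
  refine sum_le_sum fun θ _ => ?_
  have : abar La K κ θ ≤ 1 := h1 ▸ single_le_sum (fun θ _ => h0 θ) (mem_univ θ)
  nlinarith [h0 θ]

lemma num {q η : ℝ} (n : ℕ) (hq : 100 ≤ q) (hη : η ≤ 1 / q ^ (24 * n + 90)) :
    η ≤ 1 ∧ 22 * η ≤ 1 / 100 ∧ 22 * η ≤ 1 / q ∧
      1 / q ^ (24 * n + 81) ≤ (1 / q ^ (6 * n + 19)) ^ 4 / q ^ 4 - 56 * η := by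
  have hq0 : 0 < q := by linarith
  have hq1 : 1 ≤ q := by linarith
  have e1 : (1 / q ^ (6 * n + 19)) ^ 4 / q ^ 4 = 1 / q ^ (24 * n + 80) := by
    field_simp
    ring
  have h3 : η ≤ 1 / q ^ 3 :=
    hη.trans (one_div_le_one_div_of_le (by positivity) (pow_le_pow_right₀ hq1 (by omega)))
  have h4 : 1 / q ^ 3 ≤ 1 / (10000 * q) := by
    refine one_div_le_one_div_of_le (by positivity) ?_
    nlinarith [mul_le_mul hq hq (by norm_num) hq0.le]
  have h5 : 1 / (10000 * q) = 1 / q / 10000 := by field_simp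
  have h6 : 1 / q ≤ 1 / 100 := one_div_le_one_div_of_le (by norm_num) hq
  have h7 : 0 < 1 / q := by positivity
  refine ⟨by linarith, by linarith, by linarith, ?_⟩
  rw [e1]
  have h8 : η ≤ 1 / q ^ (24 * n + 81) :=
    hη.trans (one_div_le_one_div_of_le (by positivity) (pow_le_pow_right₀ hq1 (by omega)))
  have h9 : 1 / q ^ (24 * n + 81) = 1 / q ^ (24 * n + 80) * (1 / q) := by
    field_simp
    ring
  have h10 : 0 < 1 / q ^ (24 * n + 80) := by positivity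
  rw [h9] at h8 ⊢
  nlinarith [mul_le_mul_of_nonneg_left h6 h10.le]

end Cnt

open Cnt in
theorem s_cnt (he : S_EI) (hk : S_AK) (ht : S_Tok) (hp : S_Push) (hl : S_Lab) (h1 : S_Cnt1)
    (h2 : S_Cnt2) (h3 : S_Cnt3) : S_Cnt := by
  intro F _ _ _ _ b k d N j n δ θ η E ρ Sg τ S O _ _ u c hq hρ hSg hθ hτ hty hδ hδ' hη hη' hcut
    htv hgd
  obtain ⟨n1, n2, n3, n4⟩ := num n hq hη'
  have hq0 : 0 < qq F := by linarith
  have hKc := (hp F b k d N j n δ ρ τ S O u c hρ).1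
  have hE0 := markov (ee ρ τ u c E) (11 * η) (by positivity) (ee_nonneg ρ τ u c E)
    (by rw [ee_avg]; linarith)
  obtain ⟨E', hsub, hpr, happ⟩ := he S (Bool × Lb F n) (Ky F N)
    (fun σ t κ => abar (lam ρ τ t.1) (Kc u c (c σ) t.1) κ t.2) _ 2 η hη n1 hE0 (fun σ => by
      rw [Fintype.sum_prod_type, Fintype.sum_bool]
      have a1 := energy hk (lam ρ τ true) (hKc (c σ) true)
      have a2 := energy hk (lam ρ τ false) (hKc (c σ) false)
      linarith)
  have hpos : 0 < pr E' := (Real.exp_pos _).trans_le hpr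
  obtain ⟨k1, k2, k3, k4⟩ := h1 F b k d N j n δ (22 * η) ρ τ S O u c E' hρ hty hpos
    fun σ hσ => (tvs_le ρ τ u c E σ).trans (by have := hsub σ hσ; linarith)
  have hd : (0 : ℝ) ≤ d := Nat.cast_nonneg d
  obtain ⟨t, t', v, v', halg, hlow⟩ := hl F b k N n Sg θ (3 * d + 2) δ (alf τ) τ.fl (lam ρ τ)
    (Kb u c E') hq hSg (by linarith) hθ k1 ((ht F b k d N j n δ ρ τ hρ).2 Sg hτ hδ) hδ' hτ.2.2
    (fun r x w hx hf => (k3 r x w hx hf).trans n2) (fun r x hx hf w => (k4 r x hx hf w).trans (by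
      have a1 : 1 / qq F ≤ (3 * d + 2) / qq F := div_le_div_of_nonneg_right (by linarith) hq0.le
      have a2 : 2 * (3 * (d : ℝ) + 2) / qq F = (3 * d + 2) / qq F + (3 * d + 2) / qq F := by ring
      linarith))
  refine ⟨t, t', v, v', halg, ?_⟩
  have c2 := h2 F b k d N n η (1 / qq F ^ (6 * n + 19)) ρ τ S O u c E' t t' v v'
    (fun r κ θ => abar (lam ρ τ r) (Kb u c E' r) κ θ) hcut hpos (by positivity) hKc k2
    (fun r θ e hee => by
      have := happ (r, θ) e hee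
      simp only [k2]
      exact this) hlow
  have c3 := h3 F b k d N j n δ E ρ τ S O u c E' t t' v v' hρ
  have c4 : (𝔼 σ, 𝔼 σ', ind (E' σ) * ind (E' σ') * Idl ρ τ u c t t' v v' σ σ') -
      pr E' ^ 2 * (44 * η) ≤ 𝔼 σ, 𝔼 σ', ind (E' σ) * ind (E' σ') *
        (Idl ρ τ u c t t' v v' σ σ' - ee ρ τ u c E σ - ee ρ τ u c E σ') := by
    have e : pr E' ^ 2 * (44 * η) = 𝔼 σ, 𝔼 σ', ind (E' σ) * ind (E' σ') * (44 * η) := by
      simp only [E_mul_right, E_mul_left]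
      rw [sq]
      rfl
    rw [e, ← E_sub]
    refine E_mono fun σ => ?_
    rw [← E_sub]
    refine E_mono fun σ' => ?_
    by_cases hσ : E' σ
    · by_cases hσ' : E' σ'
      · rw [ind_pos hσ, ind_pos hσ']
        have a1 := hsub σ hσ
        have a2 := hsub σ' hσ'
        linarith
      · rw [ind_neg hσ']
        simp
    · rw [ind_neg hσ]
      simp
  have c5 : Real.exp (-6 / η ^ 2) ≤ pr E' ^ 2 := by
    have e : Real.exp (-6 / η ^ 2) = Real.exp (-(2 + 1) / η ^ 2) ^ 2 := by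
      rw [← Real.exp_nat_mul]
      congr 1
      push_cast
      ring
    rw [e]
    exact pow_le_pow_left₀ (Real.exp_pos _).le hpr 2
  calc Real.exp (-6 / η ^ 2) / qq F ^ (24 * n + 81)
      = Real.exp (-6 / η ^ 2) * (1 / qq F ^ (24 * n + 81)) := by ring
    _ ≤ pr E' ^ 2 * ((1 / qq F ^ (6 * n + 19)) ^ 4 / qq F ^ 4 - 56 * η) :=
      mul_le_mul c5 n4 (by positivity) (by positivity)
    _ ≤ _ := by linarith

end Vale.Agent.P060
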