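import Vale.Agent.P060.StC

namespace Vale.Agent.P060

open Finset Vale.Agent.P015
open scoped BigOperators

namespace Cnt1

theorem lin {S W Y : Type} [Fintype S] [Fintype W] [Fintype Y] (e : S → ℝ) (K : S → W → Y → ℝ)
    (g : W → Y → ℝ) (p : ℝ) :
    𝔼 w, ∑ y, ((𝔼 σ, e σ * K σ w y) / p) * g w y =
      (𝔼 σ, e σ * 𝔼 w, ∑ y, K σ w y * g w y) / p := by
  simp only [← E_mul_left]
  rw [E_comm, ← E_div]
  refine E_congr fun w => ?_
  simp only [mul_sum]
  rw [E_sum, sum_div]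
  refine sum_congr rfl fun y _ => ?_
  simp only [← mul_assoc]
  rw [E_mul_right]
  ring

theorem lin2 {S Z : Type} [Fintype S] [Fintype Z] (e : S → ℝ) (X : S → Z → ℝ) (a p : ℝ) :
    𝔼 s, a * ((𝔼 σ, e σ * X σ s) / p) = (𝔼 σ, e σ * 𝔼 s, a * X σ s) / p := by
  simp only [← E_mul_left]
  rw [E_comm, ← E_div]
  refine E_congr fun s => ?_
  rw [← mul_div_assoc, ← E_mul_left]
  congr 1
  exact E_congr fun σ => by ring

theorem avg_le {S : Type} [Fintype S] {E : S → Prop} (hE : 0 < pr E) {X : S → ℝ} {β : ℝ}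
    (h : ∀ σ, E σ → X σ ≤ β) : (𝔼 σ, ind (E σ) * X σ) / pr E ≤ β := by
  rw [div_le_iff₀ hE, pr, ← E_mul_left]
  refine E_mono fun σ => ?_
  by_cases hσ : E σ
  · rw [ind_pos hσ, one_mul, mul_one]
    exact h σ hσ
  · rw [ind_neg hσ, zero_mul, mul_zero]

theorem marg {ι Z : Type} [Fintype ι] [DecidableEq ι] [Fintype Z] [Nonempty Z] (a0 : ι)
    (f : Z → ℝ) : 𝔼 s : ι → Z, f (s a0) = 𝔼 z, f z := by
  have h := E_pi (fun (a : ι) (z : Z) => if a = a0 then f z else 1)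
  simp only [prod_ite_eq', mem_univ, if_true] at h
  rw [h, prod_eq_single a0]
  · simp
  · intro a _ ha
    simp [ha]
  · simp

variable {F : Type} [Field F] [Fintype F] [DecidableEq F] {b k d N n : ℕ} {S O : Type}

theorem idl_eq (hk : S_AK) (ρ : Zt F b k → Fn F b k) (τ : Ty F b k n) [Fintype S]
    (u : S → Un F b k d N) (c : S → O) (hK : ∀ o r, Kern (Kc u c o r)) (σ : S)
    (s : BB → Zt F b k) (r : Bool) (g : Lb F n → ℝ) :
    𝔼 κ, ∑ θ, idl ρ τ u c σ s κ θ * g (θ (r, false)) =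
      𝔼 w, ∑ y, Kc u c (c σ) r (s (r, false)).1 w y *
        g (labW (lam ρ τ r) (s (r, false)) w y) := by
  have h1 : ∀ κ : BB → Ky F N, ∑ θ, idl ρ τ u c σ s κ θ * g (θ (r, false)) =
      ∏ a : BB, ∑ t, aK (lam ρ τ a.1) (Kc u c (c σ) a.1) (s a) (κ a) t *
        (if a = (r, false) then g t else 1) := by
    intro κ
    rw [prod_univ_sum, Fintype.piFinset_univ]
    refine sum_congr rfl fun θ _ => ?_
    rw [prod_mul_distrib, prod_ite_eq', if_pos (mem_univ _)]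
    rfl
  rw [E_congr h1, E_pi (fun (a : BB) (κ : Ky F N) => ∑ t,
    aK (lam ρ τ a.1) (Kc u c (c σ) a.1) (s a) κ t * (if a = (r, false) then g t else 1)),
    prod_eq_single (r, false)]
  · simp only [if_true]
    exact (hk F b k N n _ _).1 (s (r, false)) (fun _ t => g t)
  · intro a _ ha
    simp only [if_neg ha, mul_one]
    rw [E_congr fun κ => (hk F b k N n _ _).2.2.2 (hK (c σ) a.1).2 (s a) κ, E_const]
  · simp

theorem key (hk : S_AK) (hp : S_Push) {j : ℕ} {δ ε : ℝ} {ρ : Zt F b k → Fn F b k}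
    (τ : Ty F b k n) [Fintype S] (u : S → Un F b k d N) (c : S → O) {E : S → Prop}
    (hρ : RhoOK d j δ ρ) (hE : 0 < pr E)
    (hε : ∀ σ, E σ → 𝔼 s : BB → Zt F b k, tvs u c s σ ≤ ε) (r : Bool) (A : Lb F n → Prop) {β : ℝ}
    (hA : ∀ σ, pr (fun s => A (lab ρ τ (u σ) r s)) ≤ β) :
    𝔼 s : Zt F b k, 𝔼 w, ∑ y, Kb u c E r s.1 w y * ind (A (labW (lam ρ τ r) s w y)) ≤ β + ε := by
  obtain ⟨hK, hP⟩ := hp F b k d N j n δ ρ τ S O u c hρ
  have h1 : ∀ s : Zt F b k, 𝔼 w, ∑ y, Kb u c E r s.1 w y * ind (A (labW (lam ρ τ r) s w y)) =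
      1 * ((𝔼 σ, ind (E σ) * 𝔼 w, ∑ y, Kc u c (c σ) r s.1 w y *
        ind (A (labW (lam ρ τ r) s w y))) / pr E) := fun s => by
    rw [one_mul]
    exact lin _ (fun σ => Kc u c (c σ) r s.1) _ _
  rw [E_congr h1, lin2]
  refine avg_le hE fun σ hσ => ?_
  simp only [one_mul]
  rw [← marg ((r, false) : BB)]
  refine (E_mono fun s => (idl_eq hk ρ τ u c hK σ s r (fun t => ind (A t))).symm.trans_le
    (hP σ s (fun _ θ => ind (A (θ (r, false)))) fun _ _ => ⟨ind_nonneg _, ind_le_one _⟩)).trans ?_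
  rw [E_add]
  refine add_le_add ?_ (hε σ hσ)
  rw [E_div, E_comm]
  simp only [E_mul_left]
  refine avg_le (pr_fib_pos c σ) fun σ' _ => ?_
  exact (marg ((r, false) : BB) (fun s => ind (A (lab ρ τ (u σ') r s)))).trans_le (hA σ')

theorem res_lab (ρ : Zt F b k → Fn F b k) (τ : Ty F b k n) (U : Un F b k d N) (r : Bool)
    {x : Lx n → F} (hx : NH (alf τ) x) (s : Zt F b k) :
    res x (lab ρ τ U r s) = yl U r s + TS ρ (comb τ r fun l => x (Sum.inl l)) s := by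
  unfold res lab comb TS
  simp only [sum_dotProduct, smul_dotProduct, smul_eq_mul]
  rw [dotProduct, Fintype.sum_sum_type]
  simp [hx.1]

theorem TS_mem {j : ℕ} {δ : ℝ} {ρ : Zt F b k → Fn F b k} (hρ : RhoOK d j δ ρ) (T : Fn F b k) :
    TS ρ T ∈ Cd F b k d := by
  have : TS ρ T = ∑ s, T s • ρ s := by
    funext s'
    simp [TS, dotProduct]
  rw [this]
  exact Submodule.sum_mem _ fun s _ => Submodule.smul_mem _ _ (hρ.mem s)

end Cnt1

open Cnt1 in
theorem s_cnt1 (ha : S_Aff) (hz : S_SZ) (hk : S_AK) (hp : S_Push) : S_Cnt1 := by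
  intro F _ _ _ _ b k d N j n δ ε ρ τ S O _ u c E hρ hT hE hε
  have hK := (hp F b k d N j n δ ρ τ S O u c hρ).1
  refine ⟨fun r => ⟨fun z w y => ?_, fun z w => ?_⟩, fun r κ θ => ?_, fun r x v hx hf => ?_,
    fun r x hx hf v => ?_⟩
  · exact div_nonneg (E_nonneg fun σ => mul_nonneg (ind_nonneg _) ((hK _ _).1 _ _ _)) hE.le
  · unfold Kb
    rw [← sum_div, ← E_sum]
    simp only [← mul_sum, (hK _ _).2, mul_one]
    exact div_self hE.ne'
  · unfold abar aK
    rw [← lin2]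
    refine E_congr fun s => ?_
    congr 1
    exact lin _ (fun σ => Kc u c (c σ) r s.1) _ _
  · have h := key hk hp τ u c hρ hE hε r (fun t => res x t ≠ v) (β := 0) fun σ => by
      refine E_le fun s => (ind_neg fun h => h ?_).le
      rw [res_lab ρ τ _ r hx]
      exact (hT σ).2.2.1 r _ v hf s
    rwa [zero_add] at h
  · refine key hk hp τ u c hρ hE hε r (fun t => res x t = v) fun σ => ?_
    simp only [res_lab ρ τ _ r hx]
    exact hz F b k d (yl (u σ) r + TS ρ (comb τ r fun l => x (Sum.inl l)))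
      (Submodule.add_mem _ ((ha F b k).2.2.2.2.2.2.2.2.2.2.2.1 _ _ _ _) (TS_mem hρ _)) v
      ((hT σ).2.2.2 r _ hf v)

end Vale.Agent.P060
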