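import Vale.Agent.P060.StC

/-! The ideal count is large. -/

namespace Vale.Agent.P060

open Finset Vale.Agent.P015
open scoped BigOperators

namespace Cnt2

theorem prod_ge {ι : Type} (s : Finset ι) (m m' : ι → ℝ) (h : ∀ i, 0 ≤ m i ∧ m i ≤ 1)
    (h' : ∀ i, 0 ≤ m' i ∧ m' i ≤ 1) :
    ∏ i ∈ s, m' i - ∑ i ∈ s, |m i - m' i| ≤ ∏ i ∈ s, m i := by
  classical
  induction s using Finset.induction_on with
  | empty => simp
  | insert a s ha ih =>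
    rw [prod_insert ha, prod_insert ha, sum_insert ha]
    have h1 : 0 ≤ ∏ i ∈ s, m' i := prod_nonneg fun i _ => (h' i).1
    have h2 : ∏ i ∈ s, m' i ≤ 1 := prod_le_one (fun i _ => (h' i).1) fun i _ => (h' i).2
    have h3 : 0 ≤ ∑ i ∈ s, |m i - m' i| := sum_nonneg fun i _ => abs_nonneg _
    have h4 := mul_le_mul_of_nonneg_left ih (h a).1
    have h5 := mul_le_of_le_one_left h3 (h a).2
    have h6 := mul_le_mul_of_nonneg_right (neg_abs_le (m a - m' a)) h1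
    have h7 := mul_le_of_le_one_right (abs_nonneg (m a - m' a)) h2
    nlinarith

theorem unit_mul {K : Type} [Fintype K] [Nonempty K] {f g : K → ℝ} (hf : ∀ κ, 0 ≤ f κ ∧ f κ ≤ 1)
    (hg : ∀ κ, 0 ≤ g κ ∧ g κ ≤ 1) : 0 ≤ 𝔼 κ, f κ * g κ ∧ 𝔼 κ, f κ * g κ ≤ 1 :=
  ⟨E_nonneg fun κ => mul_nonneg (hf κ).1 (hg κ).1,
    E_le fun κ => mul_le_one₀ (hf κ).2 (hg κ).1 (hg κ).2⟩

theorem sq_le {K : Type} [Fintype K] [Nonempty K] {f : K → ℝ} (hf : ∀ κ, 0 ≤ f κ ∧ f κ ≤ 1) :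
    𝔼 κ, f κ ^ 2 ≤ 1 := E_le fun κ => pow_le_one₀ (hf κ).1 (hf κ).2

theorem main {S K : Type} [Fintype S] [Fintype K] [Nonempty K] (E : S → Prop)
    (A B : BB → S → K → ℝ) (va vb : BB → K → ℝ) (I : S → S → ℝ) (η c2 Q : ℝ) (hQ : 1 ≤ Q)
    (hc : 0 ≤ c2) (hA : ∀ a σ κ, 0 ≤ A a σ κ ∧ A a σ κ ≤ 1)
    (hB : ∀ a σ κ, 0 ≤ B a σ κ ∧ B a σ κ ≤ 1) (hva : ∀ a κ, 0 ≤ va a κ ∧ va a κ ≤ 1)
    (hvb : ∀ a κ, 0 ≤ vb a κ ∧ vb a κ ≤ 1)
    (tA : ∀ a (e : K → ℝ), 𝔼 κ, e κ ^ 2 ≤ 1 →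
      𝔼 σ, ind (E σ) * |𝔼 κ, (A a σ κ - va a κ) * e κ| ≤ η * pr E)
    (tB : ∀ a (e : K → ℝ), 𝔼 κ, e κ ^ 2 ≤ 1 →
      𝔼 σ, ind (E σ) * |𝔼 κ, (B a σ κ - vb a κ) * e κ| ≤ η * pr E)
    (hc2 : ∀ a, c2 ≤ 𝔼 κ, va a κ * vb a κ)
    (hI : ∀ σ σ', (∏ a, 𝔼 κ, A a σ κ * B a σ' κ) / Q - 4 * η ≤ I σ σ') :
    pr E ^ 2 * (c2 ^ 4 / Q - 12 * η) ≤ 𝔼 σ, 𝔼 σ', ind (E σ) * ind (E σ') * I σ σ' := by
  have key : ∀ σ σ', c2 ^ 4 / Q - 4 * η - ∑ a, (|𝔼 κ, (A a σ κ - va a κ) * B a σ' κ| +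
      |𝔼 κ, (B a σ' κ - vb a κ) * va a κ|) ≤ I σ σ' := by
    intro σ σ'
    refine le_trans ?_ (hI σ σ')
    have h1 := prod_ge univ (fun a => 𝔼 κ, A a σ κ * B a σ' κ) (fun a => 𝔼 κ, va a κ * vb a κ)
      (fun a => unit_mul (hA a σ) (hB a σ')) fun a => unit_mul (hva a) (hvb a)
    have h2 : c2 ^ 4 ≤ ∏ a, 𝔼 κ, va a κ * vb a κ := by
      have := prod_le_prod (s := univ) (f := fun _ : BB => c2) (fun _ _ => hc) fun a _ => hc2 a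
      simpa using this
    have h3 : ∑ a, |(𝔼 κ, A a σ κ * B a σ' κ) - 𝔼 κ, va a κ * vb a κ| ≤
        ∑ a, (|𝔼 κ, (A a σ κ - va a κ) * B a σ' κ| + |𝔼 κ, (B a σ' κ - vb a κ) * va a κ|) := by
      refine sum_le_sum fun a _ => le_trans (le_of_eq ?_) (abs_add_le _ _)
      rw [← E_sub, ← E_add]
      exact congrArg abs (E_congr fun κ => by ring)
    have h4 : 0 ≤ ∑ a, (|𝔼 κ, (A a σ κ - va a κ) * B a σ' κ| +
        |𝔼 κ, (B a σ' κ - vb a κ) * va a κ|) := sum_nonneg fun a _ => by positivity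
    have h5 := div_le_div_of_nonneg_right
      ((sub_le_sub h2 h3).trans h1) (zero_le_one.trans hQ)
    have h6 := div_le_self h4 hQ
    rw [sub_div] at h5
    linarith
  have eA : ∀ a, 𝔼 σ, 𝔼 σ', ind (E σ) * ind (E σ') * |𝔼 κ, (A a σ κ - va a κ) * B a σ' κ| ≤
      pr E * (η * pr E) := fun a => by
    rw [E_comm, pr, ← E_mul_right]
    refine E_mono fun σ' => le_trans (le_of_eq ?_)
      (mul_le_mul_of_nonneg_left (tA a (B a σ') (sq_le (hB a σ'))) (ind_nonneg _))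
    rw [← E_mul_left]
    exact E_congr fun σ => by ring
  have eB : ∀ a, 𝔼 σ, 𝔼 σ', ind (E σ) * ind (E σ') * |𝔼 κ, (B a σ' κ - vb a κ) * va a κ| ≤
      pr E * (η * pr E) := fun a => by
    rw [pr, ← E_mul_right]
    refine E_mono fun σ => le_trans (le_of_eq ?_)
      (mul_le_mul_of_nonneg_left (tB a (va a) (sq_le (hva a))) (ind_nonneg _))
    rw [← E_mul_left]
    exact E_congr fun σ' => by ring
  have e0 : 𝔼 σ, 𝔼 σ', ind (E σ) * ind (E σ') * (c2 ^ 4 / Q - 4 * η) =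
      pr E ^ 2 * (c2 ^ 4 / Q - 4 * η) := by
    simp only [E_mul_right, E_mul_left, sq, pr]
  refine le_trans ?_ (E_mono fun σ => E_mono fun σ' => mul_le_mul_of_nonneg_left (key σ σ')
    (mul_nonneg (ind_nonneg _) (ind_nonneg _)))
  simp only [mul_sub _ (c2 ^ 4 / Q - 4 * η), E_sub, e0, mul_sum, E_sum, mul_add, E_add]
  have h1 := sum_le_sum (s := univ) fun a _ => add_le_add (eA a) (eB a)
  rw [sum_const, card_univ, show Fintype.card BB = 4 from rfl, nsmul_eq_mul] at h1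
  push_cast at h1
  linarith

end Cnt2

theorem s_cnt2 (hk : S_AK) (hf : S_Four) : S_Cnt2 := by
  intro F _ _ _ b k d N n η c2 ρ τ S O _ u c E t t' v v' vb hcut hE hc hK hvb htest hc2
  have ha : ∀ σ r s κ θ, 0 ≤ aK (lam ρ τ r) (Kc u c (c σ) r) s κ θ ∧
      aK (lam ρ τ r) (Kc u c (c σ) r) s κ θ ≤ 1 := by
    intro σ r s κ θ
    obtain ⟨-, h1, -, h2⟩ := hk F b k N n (lam ρ τ r) (Kc u c (c σ) r)
    have h3 := h1 (hK (c σ) r).1 s κ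
    exact ⟨h3 θ, (single_le_sum (fun θ _ => h3 θ) (mem_univ θ)).trans (h2 (hK (c σ) r).2 s κ).le⟩
  have hb : ∀ σ r κ θ, 0 ≤ abar (lam ρ τ r) (Kc u c (c σ) r) κ θ ∧
      abar (lam ρ τ r) (Kc u c (c σ) r) κ θ ≤ 1 := fun σ r κ θ =>
    ⟨E_nonneg fun s => (ha σ r s κ θ).1, E_le fun s => (ha σ r s κ θ).2⟩
  have hv : ∀ r κ θ, 0 ≤ vb r κ θ ∧ vb r κ θ ≤ 1 := fun r κ θ => by
    rw [hvb]
    exact ⟨div_nonneg (E_nonneg fun σ => mul_nonneg (ind_nonneg _) (hb σ r κ θ).1) hE.le,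
      (div_le_one hE).2 (E_mono fun σ => mul_le_of_le_one_right (ind_nonneg _) (hb σ r κ θ).2)⟩
  have hq : (1 : ℝ) ≤ qq F := Nat.one_le_cast.2 Fintype.card_pos
  refine Cnt2.main E (fun a σ κ => abar (lam ρ τ a.1) (Kc u c (c σ) a.1) κ (t a))
    (fun a σ κ => abar (lam ρ τ a.2) (Kc u c (c σ) a.2) κ (t' a.swap))
    (fun a κ => vb a.1 κ (t a)) (fun a κ => vb a.2 κ (t' a.swap)) _ η c2 _ (one_le_pow₀ hq) hc
    (fun a σ κ => hb σ _ κ _) (fun a σ κ => hb σ _ κ _) (fun a κ => hv _ κ _)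
    (fun a κ => hv _ κ _) (fun a => htest _ _) (fun a => htest _ _) hc2 fun σ σ' => ?_
  have h1 := hf F b k η ρ (fun a s s' => 𝔼 κ, aK (lam ρ τ a.1) (Kc u c (c σ) a.1) s κ (t a) *
    aK (lam ρ τ a.2) (Kc u c (c σ') a.2) s' κ (t' a.swap)) v v' hcut
    fun a s s' => Cnt2.unit_mul (fun κ => ha σ _ s κ _) fun κ => ha σ' _ s' κ _
  refine le_trans (le_of_eq ?_) (h1.trans (le_of_eq ?_))
  · congr 2
    refine prod_congr rfl fun a _ => ?_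
    simp only [abar, ← E_mul_right]
    simp only [← E_mul_left]
    rw [E_comm]
    exact E_congr fun s => E_comm _
  · refine E_congr fun s => E_congr fun s' => ?_
    congr 1
    rw [← E_pi fun a κ => aK (lam ρ τ a.1) (Kc u c (c σ) a.1) (s a) κ (t a) *
      aK (lam ρ τ a.2) (Kc u c (c σ') a.2) (s' a.swap) κ (t' a.swap)]
    refine E_congr fun κ => ?_
    rw [prod_mul_distrib, idl, idl]
    congr 1
    exact Fintype.prod_equiv (Equiv.prodComm Bool Bool) _ _ fun a => rfl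

end Vale.Agent.P060
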