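import Vale.Agent.P060.StC

/-! Comparison of the ideal and the true count. -/

namespace Vale.Agent.P060

open Finset Vale.Agent.P015
open scoped BigOperators

namespace Cnt3

variable {S O K L P : Type} [Fintype S] [Fintype K] [Fintype L] [Fintype P]

lemma tower (c : S → O) (Q : S → Prop) :
    𝔼 σ, pr (fun σ' => c σ' = c σ ∧ Q σ') / pr (fun σ' => c σ' = c σ) = pr Q := by
  have h1 : ∀ σ, pr (fun σ' => c σ' = c σ ∧ Q σ') / pr (fun σ' => c σ' = c σ) =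
      𝔼 σ', ind (Q σ') * (ind (c σ = c σ') / pr (fun σ'' => c σ'' = c σ')) := by
    intro σ
    rw [pr, ← E_div]
    refine E_congr fun σ' => ?_
    by_cases h : c σ' = c σ
    · rw [ind_and, h, mul_comm, mul_div_assoc]
    · rw [ind_neg fun h' => h h'.1, ind_neg fun h' : c σ = c σ' => h h'.symm]
      simp
  rw [E_congr h1, E_comm, pr]
  refine E_congr fun σ' => ?_
  rw [E_mul_left, E_div]
  exact (congrArg _ (div_self (pr_fib_pos c σ').ne')).trans (mul_one _)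

/-- The true density of a cell in the context of `σ`. -/
noncomputable def Xs (c : S → O) (A : S → Prop) (ky : S → K) (lb : S → L) (t : L) (σ : S)
    (κ : K) : ℝ :=
  Fintype.card K * (pr (fun σ' => c σ' = c σ ∧ (A σ' ∧ ky σ' = κ ∧ lb σ' = t)) /
    pr (fun σ' => c σ' = c σ))

omit [Fintype L] in
lemma Xs_nonneg (c : S → O) (A : S → Prop) (ky : S → K) (lb : S → L) (t : L) (σ : S) (κ : K) :
    0 ≤ Xs c A ky lb t σ κ :=
  mul_nonneg (Nat.cast_nonneg _) (div_nonneg (pr_nonneg _) (pr_nonneg _))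

omit [Fintype L] in
lemma E_Xs (c : S → O) (A : S → Prop) (ky : S → K) (lb : S → L) (t : L) (κ : K) :
    𝔼 σ, Xs c A ky lb t σ κ = Fintype.card K * pr (fun σ => A σ ∧ ky σ = κ ∧ lb σ = t) := by
  simp only [Xs]
  rw [E_mul_left, tower]

lemma err [Nonempty K] (c : S → O) (A : S → Prop) (ky : S → K) (lb : S → L) (t : L) (σ : S)
    (x : K → L → ℝ) {e : ℝ}
    (h : ∀ h : K → L → ℝ, (∀ κ θ, 0 ≤ h κ θ ∧ h κ θ ≤ 1) → 𝔼 κ, ∑ θ, x κ θ * h κ θ ≤
      (𝔼 σ', ind (c σ' = c σ) * h (ky σ') (lb σ')) / pr (fun σ' => c σ' = c σ) + e) :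
    𝔼 κ, max (x κ t - Xs c A ky lb t σ κ) 0 ≤
      e + pr (fun σ' => c σ' = c σ ∧ ¬ A σ') / pr (fun σ' => c σ' = c σ) := by
  have h1 := h (fun κ θ => ind (t = θ) * ind (Xs c A ky lb t σ κ < x κ t)) fun κ θ =>
    ⟨mul_nonneg (ind_nonneg _) (ind_nonneg _),
      mul_le_one₀ (ind_le_one _) (ind_nonneg _) (ind_le_one _)⟩
  have h2 : ∀ κ, ∑ θ, x κ θ * (ind (t = θ) * ind (Xs c A ky lb t σ κ < x κ t)) =
      x κ t * ind (Xs c A ky lb t σ κ < x κ t) := fun κ => by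
    rw [← sum_ind_eq (mem_univ t) fun θ => x κ θ * ind (Xs c A ky lb t σ κ < x κ t)]
    exact sum_congr rfl fun θ _ => by ring
  have h3 : 𝔼 σ', ind (c σ' = c σ) * (ind (t = lb σ') *
      ind (Xs c A ky lb t σ (ky σ') < x (ky σ') t)) ≤ pr (fun σ' => c σ' = c σ ∧ ¬ A σ') +
      ∑ κ, ind (Xs c A ky lb t σ κ < x κ t) *
        pr (fun σ' => c σ' = c σ ∧ (A σ' ∧ ky σ' = κ ∧ lb σ' = t)) := by
    simp only [pr, ← E_mul_left]
    rw [← E_sum, ← E_add]
    refine E_mono fun σ' => ?_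
    have h4 : ∑ κ, ind (Xs c A ky lb t σ κ < x κ t) *
        ind (c σ' = c σ ∧ (A σ' ∧ ky σ' = κ ∧ lb σ' = t)) =
        ind (Xs c A ky lb t σ (ky σ') < x (ky σ') t) *
          (ind (c σ' = c σ) * ind (A σ') * ind (lb σ' = t)) := by
      rw [← sum_ind_eq (mem_univ (ky σ')) fun κ => ind (Xs c A ky lb t σ κ < x κ t) *
        (ind (c σ' = c σ) * ind (A σ') * ind (lb σ' = t))]
      refine sum_congr rfl fun κ _ => ?_
      simp only [ind_and]
      ring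
    rw [h4, ind_and, ind_congr (eq_comm (a := t))]
    by_cases hA : A σ'
    · rw [ind_pos hA, ind_neg (not_not.2 hA)]
      exact le_of_eq (by ring)
    · rw [ind_neg hA, ind_pos hA, mul_zero, zero_mul, mul_zero, add_zero]
      exact mul_le_mul_of_nonneg_left
        (mul_le_one₀ (ind_le_one _) (ind_nonneg _) (ind_le_one _)) (ind_nonneg _)
  have h4 : (∑ κ, ind (Xs c A ky lb t σ κ < x κ t) *
      pr (fun σ' => c σ' = c σ ∧ (A σ' ∧ ky σ' = κ ∧ lb σ' = t))) / pr (fun σ' => c σ' = c σ) =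
      𝔼 κ, Xs c A ky lb t σ κ * ind (Xs c A ky lb t σ κ < x κ t) := by
    have hc : (Fintype.card K : ℝ) ≠ 0 := by positivity
    rw [E_eq, sum_div, sum_div]
    refine sum_congr rfl fun κ _ => ?_
    generalize ind (Xs c A ky lb t σ κ < x κ t) = w
    rw [Xs]
    field_simp
  have h5 : 𝔼 κ, max (x κ t - Xs c A ky lb t σ κ) 0 =
      (𝔼 κ, x κ t * ind (Xs c A ky lb t σ κ < x κ t)) -
        𝔼 κ, Xs c A ky lb t σ κ * ind (Xs c A ky lb t σ κ < x κ t) := by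
    rw [← E_sub]
    refine E_congr fun κ => ?_
    by_cases h6 : Xs c A ky lb t σ κ < x κ t
    · rw [ind_pos h6, max_eq_left (by linarith), mul_one, mul_one]
    · rw [ind_neg h6, max_eq_right (by linarith), mul_zero, mul_zero, sub_zero]
  have h6 := div_le_div_of_nonneg_right h3 (pr_nonneg fun σ' => c σ' = c σ)
  rw [E_congr h2] at h1
  rw [add_div, h4] at h6
  linarith

lemma prod_ge {x x' X X' : ℝ} (h0 : 0 ≤ x) (h1 : x ≤ 1) (h0' : 0 ≤ x') (h1' : x' ≤ 1)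
    (hX : 0 ≤ X) (hX' : 0 ≤ X') : x * x' - max (x - X) 0 - max (x' - X') 0 ≤ X * X' := by
  rcases le_total x X with h | h <;> rcases le_total x' X' with h' | h'
  · rw [max_eq_right (by linarith), max_eq_right (by linarith)]
    nlinarith
  · rw [max_eq_right (by linarith), max_eq_left (by linarith)]
    nlinarith
  · rw [max_eq_left (by linarith), max_eq_right (by linarith)]
    nlinarith
  · rw [max_eq_left (by linarith), max_eq_left (by linarith)]
    nlinarith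

lemma main [Nonempty K] [Nonempty P] (sw : K ≃ K) (E : S → Prop) (m m' : P → Prop)
    {x x' X X' : S → P → K → ℝ} {e : S → P → ℝ} (hx : ∀ σ s κ, 0 ≤ x σ s κ ∧ x σ s κ ≤ 1)
    (hx' : ∀ σ s κ, 0 ≤ x' σ s κ ∧ x' σ s κ ≤ 1) (hX : ∀ σ s κ, 0 ≤ X σ s κ)
    (hX' : ∀ σ s κ, 0 ≤ X' σ s κ) (he : ∀ σ s, 𝔼 κ, max (x σ s κ - X σ s κ) 0 ≤ e σ s)
    (he' : ∀ σ s, 𝔼 κ, max (x' σ s κ - X' σ s κ) 0 ≤ e σ s) :
    𝔼 σ, 𝔼 σ', ind (E σ) * ind (E σ') * ((𝔼 s, 𝔼 s', ind (m s) * ind (m' s') *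
        𝔼 κ, x σ s κ * x' σ' s' (sw κ)) - (𝔼 s, e σ s) - 𝔼 s, e σ' s) ≤
      𝔼 s, 𝔼 s', ind (m s) * ind (m' s') * 𝔼 κ, (𝔼 σ, X σ s κ) * 𝔼 σ', X' σ' s' (sw κ) := by
  have i0 : ∀ p q : Prop, 0 ≤ ind p * ind q := fun p q => mul_nonneg (ind_nonneg _) (ind_nonneg _)
  have i1 : ∀ p q : Prop, ind p * ind q ≤ 1 := fun p q =>
    mul_le_one₀ (ind_le_one _) (ind_nonneg _) (ind_le_one _)
  have e0 : ∀ σ s, 0 ≤ e σ s := fun σ s => (E_nonneg fun κ => le_max_right _ _).trans (he σ s)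
  calc _ ≤ 𝔼 σ, 𝔼 σ', 𝔼 s, 𝔼 s', ind (m s) * ind (m' s') * 𝔼 κ, X σ s κ * X' σ' s' (sw κ) := by
        refine E_mono fun σ => E_mono fun σ' => ?_
        refine le_trans (mul_le_mul_of_nonneg_left ?_ (i0 _ _)) (mul_le_of_le_one_left
          (E_nonneg fun s => E_nonneg fun s' => mul_nonneg (i0 _ _) (E_nonneg fun κ =>
            mul_nonneg (hX _ _ _) (hX' _ _ _))) (i1 _ _))
        rw [← E_const (Ω := P) (𝔼 s, e σ' s), ← E_sub, ← E_sub]
        refine E_mono fun s => ?_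
        rw [← E_const (Ω := P) (e σ s), ← E_sub, ← E_sub]
        refine E_mono fun s' => ?_
        have h1 := E_mono fun κ => prod_ge (hx σ s κ).1 (hx σ s κ).2 (hx' σ' s' (sw κ)).1
          (hx' σ' s' (sw κ)).2 (hX σ s κ) (hX' σ' s' (sw κ))
        have h6 : 𝔼 κ, max (x' σ' s' (sw κ) - X' σ' s' (sw κ)) 0 =
            𝔼 κ, max (x' σ' s' κ - X' σ' s' κ) 0 := Fintype.expect_equiv sw _ _ fun _ => rfl
        rw [E_sub, E_sub, h6] at h1
        have h2 := he σ s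
        have h3 := he' σ' s'
        have h4 := mul_le_mul_of_nonneg_left (show (𝔼 κ, x σ s κ * x' σ' s' (sw κ)) -
          (e σ s + e σ' s') ≤ 𝔼 κ, X σ s κ * X' σ' s' (sw κ) by linarith) (i0 (m s) (m' s'))
        have h5 := mul_le_of_le_one_left (add_nonneg (e0 σ s) (e0 σ' s')) (i1 (m s) (m' s'))
        rw [mul_sub] at h4
        linarith
    _ = _ := by
        simp only [← E_mul_right, ← E_mul_left]
        rw [E_congr fun σ => E_comm _, E_comm]
        refine E_congr fun s => ?_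
        rw [E_congr fun σ => E_comm _, E_comm]
        refine E_congr fun s' => ?_
        rw [E_congr fun σ => E_comm _, E_comm]
        exact E_congr fun κ => E_comm _

end Cnt3

open Cnt3

theorem s_cnt3 (hk : S_AK) (hp : S_Push) : S_Cnt3 := by
  intro F _ _ _ b k d N j n δ E' ρ τ S O _ u c E t t' v v' hρ
  obtain ⟨h1, h2⟩ := hp F b k d N j n δ ρ τ S O u c hρ
  have hx : ∀ σ s κ θ, 0 ≤ idl ρ τ u c σ s κ θ ∧ idl ρ τ u c σ s κ θ ≤ 1 := by
    intro σ s κ θ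
    have h3 := fun r => hk F b k N n (lam ρ τ r) (Kc u c (c σ) r)
    have h4 := fun r => (h3 r).2.1 (h1 (c σ) r).1
    refine ⟨prod_nonneg fun a _ => h4 _ _ _ _, prod_le_one (fun a _ => h4 _ _ _ _) fun a _ => ?_⟩
    rw [← (h3 a.1).2.2.2 (h1 (c σ) a.1).2 (s a) (κ a)]
    exact single_le_sum (fun θ _ => h4 _ _ _ θ) (mem_univ _)
  refine (main (Equiv.arrowCongr (Equiv.prodComm Bool Bool) (Equiv.refl (Ky F N))) E
    (fun s => Mat ρ s v) (fun s => Mat ρ s v') (x := fun σ s κ => idl ρ τ u c σ s κ t)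
    (x' := fun σ s κ => idl ρ τ u c σ s κ t')
    (X := fun σ s => Xs c (Gd ρ τ u E' s) (fun σ => kys (u σ) s) (fun σ => lbs ρ τ (u σ) s) t σ)
    (X' := fun σ s => Xs c (Gd ρ τ u E' s) (fun σ => kys (u σ) s) (fun σ => lbs ρ τ (u σ) s) t' σ)
    (fun σ s κ => hx σ s κ t) (fun σ s κ => hx σ s κ t') (fun σ s κ => Xs_nonneg _ _ _ _ _ _ _)
    (fun σ s κ => Xs_nonneg _ _ _ _ _ _ _) (fun σ s => err c _ _ _ t σ _ (h2 σ s))
    (fun σ s => err c _ _ _ t' σ _ (h2 σ s))).trans (le_of_eq ?_)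
  have hc : (Fintype.card (BB → Ky F N) : ℝ) = (Fintype.card (Ky F N) : ℝ) ^ 4 := by
    rw [Fintype.card_fun, Fintype.card_prod, Fintype.card_bool]
    push_cast
    rfl
  have hc0 : (Fintype.card (BB → Ky F N) : ℝ) ≠ 0 := by positivity
  rw [Tru, ← hc, ← E_mul_left]
  refine E_congr fun s => ?_
  rw [← E_mul_left]
  refine E_congr fun s' => ?_
  rw [mul_left_comm]
  congr 1
  simp only [E_Xs]
  rw [E_eq, div_eq_iff hc0, mul_sum, sum_mul]
  refine sum_congr rfl fun κ _ => ?_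
  have e : (Equiv.arrowCongr (Equiv.prodComm Bool Bool) (Equiv.refl (Ky F N))) κ =
    fun a => κ a.swap := rfl
  rw [e]
  ring

end Vale.Agent.P060
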