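import Vale.Agent.P060.StC

namespace Vale.Agent.P060

open Finset Vale.Agent.P015
open scoped BigOperators

theorem s_col : S_Col := by
  intro F _ _ VA VB VC _ _ _ _ _ _ I S _ _ f g h G BA BB' BC j1 e σ0 ψ ξ a hf hg hh hψ hξ h1 h2
    h3 h4
  classical
  have : Nonempty S := ⟨σ0⟩
  obtain ⟨e0, he0⟩ := (Submodule.mem_span_range_iff_exists_fun F).1 hψ
  obtain ⟨e1, he1⟩ := (Submodule.mem_span_range_iff_exists_fun F).1 hξ
  have key : ∀ c : I → F, ∑ i, c i • f σ0 i ∈ BA → ∀ σ,
      G (∑ i, c i • f σ i) (∑ i, e0 i • g σ i) (∑ i, e1 i • h σ i) =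
        G (∑ i, c i • f σ i) ψ ξ := by
    intro c hc σ
    have a1 : ∑ i, c i • f σ i ∈ BA := by
      have := BA.add_mem hc (BA.sum_mem (t := univ) fun i _ => BA.smul_mem (c i) (hf σ σ0 i))
      simpa [smul_sub] using this
    have a2 : ∑ i, e0 i • g σ i - ψ ∈ BB' := by
      have := BB'.sum_mem (t := univ) fun i _ => BB'.smul_mem (e0 i) (hg σ σ0 i)
      simpa [smul_sub, he0] using this
    have a3 : ∑ i, e1 i • h σ i - ξ ∈ BC := by
      have := BC.sum_mem (t := univ) fun i _ => BC.smul_mem (e1 i) (hh σ σ0 i)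
      simpa [smul_sub, he1] using this
    have a4 : G (∑ i, c i • f σ i) (∑ i, e0 i • g σ i - ψ) (∑ i, e1 i • h σ i) = 0 := by
      rw [map_sum]
      exact sum_eq_zero fun i _ => by rw [map_smul, h1 _ a1 _ a2, smul_zero]
    have a5 := h2 _ a1 _ a3
    rw [map_sub, LinearMap.sub_apply, sub_eq_zero] at a4
    rw [map_sub, sub_eq_zero] at a5
    rw [a4, a5]
  have dual : ∀ p : S × S, (∀ i i' i'', G (f p.1 i) (g p.1 i') (h p.1 i'') =
      G (f p.2 i) (g p.2 i') (h p.2 i'')) → ∃ c : Fin j1 → F,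
      ∀ i, G (f p.1 i) ψ ξ = G (f p.2 i) ψ ξ + ∑ t, c t * a t (f σ0 i) := by
    intro p hp
    have hm : Fintype.linearCombination F (fun i => G (f p.1 i) ψ ξ - G (f p.2 i) ψ ξ) ∈
        Submodule.span F (Set.range fun t => a t ∘ₗ Fintype.linearCombination F (f σ0)) := by
      refine mem_span_of_iInf_ker_le_ker fun c hc => ?_
      simp only [Submodule.mem_iInf, LinearMap.mem_ker, LinearMap.comp_apply,
        Fintype.linearCombination_apply] at hc ⊢
      have hb := h3 _ (Submodule.sum_mem _ fun i _ => Submodule.smul_mem _ (c i)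
        (Submodule.subset_span ⟨i, rfl⟩)) hc
      have e2 : G (∑ i, c i • f p.1 i) ψ ξ = G (∑ i, c i • f p.2 i) ψ ξ := by
        rw [← key c hb, ← key c hb]
        simp only [map_sum, map_smul, LinearMap.sum_apply, LinearMap.smul_apply, hp]
      simp only [map_sum, map_smul, LinearMap.sum_apply, LinearMap.smul_apply] at e2
      simp only [smul_sub, sum_sub_distrib, e2, sub_self]
    obtain ⟨c, hc⟩ := (Submodule.mem_span_range_iff_exists_fun F).1 hm
    refine ⟨c, fun i => ?_⟩
    have := LinearMap.congr_fun hc (Pi.single i 1)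
    simp only [LinearMap.sum_apply, LinearMap.smul_apply, LinearMap.comp_apply,
      Fintype.linearCombination_apply_single, one_smul, smul_eq_mul] at this
    rw [this]; ring
  refine le_trans (E_mono fun p => (ind_mono fun hp => ?_).trans (ind_exists_le univ
    fun c : Fin j1 → F => ∀ i, G (f p.1 i) ψ ξ = G (f p.2 i) ψ ξ + ∑ t, c t * a t (f σ0 i))) ?_
  · obtain ⟨c, hc⟩ := dual p hp
    exact ⟨c, mem_univ _, hc⟩
  rw [E_sum]
  refine (sum_le_card_nsmul _ _ e fun c _ => ?_).trans_eq (by simp)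
  rw [E_prod, E_comm]
  exact E_le fun σ => h4 fun i => G (f σ i) ψ ξ + ∑ t, c t * a t (f σ0 i)

end Vale.Agent.P060
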