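import Vale.Agent.P060.StA

/-! Containers with an entropy potential. -/

namespace Vale.Agent.P060

open Finset Vale.Agent.P015
open scoped BigOperators

namespace Cont

/-- Finite samples of pairs. -/
abbrev Smp (Ω : Type) : Type := Σ n : ℕ, Fin (n + 1) → Ω × Ω

variable {Ω : Type} [Fintype Ω]

/-- Witnesses of feasibility. -/
def Wit (Λ M : ℝ) (A : Ω × Ω → Prop) (w : Smp Ω) : Prop :=
  (∀ s, A (w.2 s)) ∧ Dens w.2 Λ ∧ Dens (fun s => (w.2 s).1) M ∧ Dens (fun s => (w.2 s).2) M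

theorem feas_iff {Λ M : ℝ} {A : Ω × Ω → Prop} : Feas Λ M A ↔ ∃ w, Wit Λ M A w :=
  ⟨fun ⟨n, u, h⟩ => ⟨⟨n, u⟩, h⟩, fun ⟨w, h⟩ => ⟨w.1, w.2, h⟩⟩

/-- The density of a sample. -/
noncomputable def den (w : Smp Ω) (e : Ω × Ω) : ℝ :=
  pr (fun s => w.2 s = e) * Fintype.card (Ω × Ω)

/-- The potential of a sample. -/
noncomputable def Psi (w : Smp Ω) : ℝ := 𝔼 e, den w e * Real.log (den w e)

theorem den_nonneg (w : Smp Ω) (e : Ω × Ω) : 0 ≤ den w e :=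
  mul_nonneg (pr_nonneg _) (Nat.cast_nonneg _)

variable [Nonempty Ω]

theorem mass (w : Smp Ω) (g : Ω × Ω → ℝ) : 𝔼 e, den w e * g e = 𝔼 s, g (w.2 s) := by
  have hN : (Fintype.card (Ω × Ω) : ℝ) ≠ 0 := Nat.cast_ne_zero.2 Fintype.card_ne_zero
  have e1 : ∀ s, g (w.2 s) = ∑ e, ind (w.2 s = e) * g e :=
    fun s => (sum_ind_eq (mem_univ _) g).symm
  rw [E_congr e1, E_sum, E_eq, sum_div]
  refine sum_congr rfl fun e _ => ?_
  rw [E_mul_right, den, pr]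
  field_simp

theorem Psi_nonneg (w : Smp Ω) : 0 ≤ Psi w := by
  have h1 := mass w fun _ => 1
  have h2 : 𝔼 e, (den w e * 1 - 1) ≤ Psi w := E_mono fun e => by
    rw [mul_one]; exact Real.self_sub_one_le_mul_log (den_nonneg w e)
  rw [E_sub, h1, E_const, E_const] at h2
  linarith

theorem Psi_le {Λ : ℝ} {w : Smp Ω} (h : Dens w.2 Λ) : Psi w ≤ Real.log Λ := by
  classical
  have hN : (Fintype.card (Ω × Ω) : ℝ) ≠ 0 := Nat.cast_ne_zero.2 Fintype.card_ne_zero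
  have h1 := mass w fun _ => Real.log Λ
  rw [E_const] at h1
  rw [← h1]
  refine E_mono fun e => ?_
  rcases (den_nonneg w e).eq_or_lt with h0 | h0
  · rw [← h0, zero_mul, zero_mul]
  · refine mul_le_mul_of_nonneg_left (Real.log_le_log h0 ?_) h0.le
    have h2 := h fun x => x = e
    have h3 : pr (fun x : Ω × Ω => x = e) = 1 / Fintype.card (Ω × Ω) := by
      rw [pr_eq_card, filter_eq' univ e, if_pos (mem_univ e), card_singleton, Nat.cast_one]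
    rw [h3] at h2
    have h4 := mul_le_mul_of_nonneg_right h2 (Nat.cast_nonneg (α := ℝ) (Fintype.card (Ω × Ω)))
    rwa [mul_assoc, one_div_mul_cancel hN, mul_one] at h4

omit [Fintype Ω] [Nonempty Ω] in
theorem mix (w w' : Smp Ω) : ∃ v : Smp Ω,
    (∀ g : Ω × Ω → ℝ, 𝔼 s, g (v.2 s) = ((𝔼 s, g (w.2 s)) + 𝔼 s, g (w'.2 s)) / 2) ∧
    ∀ s, (∃ t, v.2 s = w.2 t) ∨ ∃ t, v.2 s = w'.2 t := by
  obtain ⟨N, hN⟩ : ∃ N, Fintype.card (Fin (w.1 + 1) × Fin (w'.1 + 1) × Bool) = N + 1 :=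
    Nat.exists_eq_succ_of_ne_zero Fintype.card_ne_zero
  let q := (Fintype.equivFinOfCardEq hN).symm
  let X : Fin (w.1 + 1) × Fin (w'.1 + 1) × Bool → Ω × Ω :=
    fun t => if t.2.2 = true then w.2 t.1 else w'.2 t.2.1
  refine ⟨⟨N, fun s => X (q s)⟩, fun g => ?_, fun s => ?_⟩
  · rw [law_equiv q X g]
    simp only [E_prod, E_bool, X, if_true, Bool.false_eq_true, if_false, E_div, E_add, E_const]
  · by_cases h : (q s).2.2 = true
    · exact Or.inl ⟨(q s).1, if_pos h⟩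
    · exact Or.inr ⟨(q s).2.1, if_neg h⟩

theorem phi_mix {x y : ℝ} (hx : 0 ≤ x) (hy : 0 ≤ y) (p : Prop) (h : p → y = 0) :
    (x + y) / 2 * Real.log ((x + y) / 2) ≤
      (x * Real.log x + y * Real.log y) / 2 - Real.log 2 / 2 * (x * ind p) := by
  by_cases hp : p
  · rw [h hp, ind_pos hp, add_zero, zero_mul, add_zero, mul_one]
    rcases hx.eq_or_lt with rfl | h0
    · simp
    · rw [Real.log_div h0.ne' two_ne_zero]
      exact le_of_eq (by ring)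
  · rw [ind_neg hp, mul_zero, mul_zero, sub_zero]
    have h1 := Real.convexOn_mul_log.2 (Set.mem_Ici.2 hx) (Set.mem_Ici.2 hy)
      (show (0 : ℝ) ≤ 1 / 2 by norm_num) (show (0 : ℝ) ≤ 1 / 2 by norm_num) (by norm_num)
    simp only [smul_eq_mul] at h1
    have e : (x + y) / 2 = 1 / 2 * x + 1 / 2 * y := by ring
    rw [e]
    linarith

variable (H : Ω → Ω → Prop) (Λ M γ : ℝ)

/-- The optimal potential. -/
noncomputable def Pst (A : Ω × Ω → Prop) : ℝ := sInf {x | ∃ w, Wit Λ M A w ∧ x = Psi w}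

/-- A nearly optimal witness. -/
noncomputable def opt (A : Ω × Ω → Prop) : Smp Ω :=
  @Classical.epsilon _ ⟨⟨0, fun _ => Classical.arbitrary _⟩⟩
    fun w => Wit Λ M A w ∧ Psi w ≤ Pst Λ M A + γ / 100

/-- The degree of a pair. -/
noncomputable def deg (A : Ω × Ω → Prop) (e : Ω × Ω) : ℝ :=
  pr fun s => Conf H ((opt Λ M γ A).2 s) e

/-- One step of the algorithm. -/
def step (A : Ω × Ω → Prop) (e : Ω × Ω) : Ω × Ω → Prop :=
  fun e' => A e' ∧ deg H Λ M γ A e' ≤ deg H Λ M γ A e ∧ ¬ Conf H e' e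

/-- The set after a list of steps. -/
def Fl : List (Ω × Ω) → Ω × Ω → Prop
  | [] => fun e => ¬ H e.1 e.2
  | e :: l => step H Λ M γ (Fl l) e

variable {H Λ M γ}

theorem bdd (A : Ω × Ω → Prop) : BddBelow {x | ∃ w, Wit Λ M A w ∧ x = Psi w} :=
  ⟨0, by rintro _ ⟨w, -, rfl⟩; exact Psi_nonneg w⟩

theorem Pst_le {A : Ω × Ω → Prop} {w : Smp Ω} (h : Wit Λ M A w) : Pst Λ M A ≤ Psi w :=
  csInf_le (bdd A) ⟨w, h, rfl⟩

omit [Nonempty Ω] in
theorem le_Pst {A : Ω × Ω → Prop} (hA : Feas Λ M A) {c : ℝ}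
    (h : ∀ w, Wit Λ M A w → c ≤ Psi w) : c ≤ Pst Λ M A := by
  obtain ⟨w, hw⟩ := feas_iff.1 hA
  exact le_csInf ⟨_, w, hw, rfl⟩ (by rintro _ ⟨w, hw, rfl⟩; exact h w hw)

theorem opt_spec {A : Ω × Ω → Prop} (hA : Feas Λ M A) (hγ : 0 < γ) :
    Wit Λ M A (opt Λ M γ A) ∧ Psi (opt Λ M γ A) ≤ Pst Λ M A + γ / 100 := by
  refine @Classical.epsilon_spec _ (fun w => Wit Λ M A w ∧ Psi w ≤ Pst Λ M A + γ / 100) ?_
  obtain ⟨w, hw⟩ := feas_iff.1 hA
  obtain ⟨_, ⟨v, hv, rfl⟩, h⟩ := exists_lt_of_csInf_lt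
    (s := {x | ∃ w, Wit Λ M A w ∧ x = Psi w}) ⟨_, w, hw, rfl⟩
    (show Pst Λ M A < Pst Λ M A + γ / 100 by linarith)
  exact ⟨v, hv, h.le⟩

theorem key (hSS : SS H Λ M γ) (hγ : 0 < γ) {A : Ω × Ω → Prop} (hH : ∀ e, A e → ¬ H e.1 e.2)
    (hA : Feas Λ M A) (e : Ω × Ω) (hs : Feas Λ M (step H Λ M γ A e)) :
    Pst Λ M A + γ / 3 ≤ Pst Λ M (step H Λ M γ A e) := by
  obtain ⟨hw, hΨ⟩ := opt_spec hA hγ
  have h1 : γ ≤ 2 * pr fun s => ¬ step H Λ M γ A e ((opt Λ M γ A).2 s) := by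
    have h2 := hSS _ _ (fun s => hH _ (hw.1 s)) hw.2.1 hw.2.2.1 hw.2.2.2
    have h3 : (pr fun p : Fin ((opt Λ M γ A).1 + 1) × Fin ((opt Λ M γ A).1 + 1) =>
        Conf H ((opt Λ M γ A).2 p.1) ((opt Λ M γ A).2 p.2)) =
        𝔼 s, deg H Λ M γ A ((opt Λ M γ A).2 s) := by
      rw [pr, E_prod, E_comm]
      rfl
    have h4 : deg H Λ M γ A e ≤ pr fun s => ¬ step H Λ M γ A e ((opt Λ M γ A).2 s) :=
      pr_mono fun s h h' => h'.2.2 h
    have h5 : 𝔼 s, deg H Λ M γ A ((opt Λ M γ A).2 s) ≤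
        𝔼 s, (ind (¬ step H Λ M γ A e ((opt Λ M γ A).2 s)) + deg H Λ M γ A e) := by
      refine E_mono fun s => ?_
      by_cases h : step H Λ M γ A e ((opt Λ M γ A).2 s)
      · linarith [h.2.1, ind_nonneg (¬ step H Λ M γ A e ((opt Λ M γ A).2 s))]
      · rw [ind_pos h]
        have a1 : deg H Λ M γ A ((opt Λ M γ A).2 s) ≤ 1 := pr_le_one _
        have a2 : 0 ≤ deg H Λ M γ A e := pr_nonneg _
        linarith
    rw [E_add, E_const] at h5
    change _ ≤ (pr fun s => ¬ step H Λ M γ A e ((opt Λ M γ A).2 s)) + _ at h5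
    linarith
  generalize opt Λ M γ A = w at hw hΨ h1
  refine le_Pst hs fun w' hw' => ?_
  obtain ⟨v, hv, hv'⟩ := mix w w'
  have hD : ∀ {α : Type} [Fintype α] (π : Ω × Ω → α) (L : ℝ), Dens (fun s => π (w.2 s)) L →
      Dens (fun s => π (w'.2 s)) L → Dens (fun s => π (v.2 s)) L := by
    intro α _ π L a1 a2 B
    have a3 := hv fun x => ind (B (π x))
    have a4 := a1 B
    have a5 := a2 B
    unfold pr at a4 a5 ⊢
    linarith
  have hv1 : Wit Λ M A v := by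
    refine ⟨fun s => ?_, hD id Λ hw.2.1 hw'.2.1, hD Prod.fst M hw.2.2.1 hw'.2.2.1,
      hD Prod.snd M hw.2.2.2 hw'.2.2.2⟩
    rcases hv' s with ⟨t, h⟩ | ⟨t, h⟩
    · rw [h]; exact hw.1 t
    · rw [h]; exact (hw'.1 t).1
  have hden : ∀ x, den v x = (den w x + den w' x) / 2 := by
    intro x
    have a3 := hv fun y => ind (y = x)
    unfold den pr
    rw [a3]
    ring
  have h2 : Psi v ≤ 𝔼 x, ((den w x * Real.log (den w x) + den w' x * Real.log (den w' x)) / 2 -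
      Real.log 2 / 2 * (den w x * ind (¬ step H Λ M γ A e x))) := by
    refine E_mono fun x => ?_
    rw [hden]
    refine phi_mix (den_nonneg w x) (den_nonneg w' x) _ fun h => ?_
    have a1 : ∀ s, ind (w'.2 s = x) = 0 := fun s => ind_neg fun h' => h (h' ▸ hw'.1 s)
    unfold den pr
    rw [E_congr a1, E_const, zero_mul]
  rw [E_sub, E_div, E_add, E_mul_left, mass w fun x => ind (¬ step H Λ M γ A e x)] at h2
  change Psi v ≤ (Psi w + Psi w') / 2 -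
    Real.log 2 / 2 * pr (fun s => ¬ step H Λ M γ A e (w.2 s)) at h2
  have h3 := Pst_le hv1
  have h4 := Real.log_two_gt_d9
  have h5 : 0.69 * γ ≤ Real.log 2 * (2 * pr fun s => ¬ step H Λ M γ A e (w.2 s)) :=
    mul_le_mul (by linarith) h1 hγ.le (by linarith)
  linarith

theorem Fl_sub (l : List (Ω × Ω)) : ∀ e, Fl H Λ M γ l e → ¬ H e.1 e.2 := by
  induction l with
  | nil => exact fun _ h => h
  | cons a l ih => exact fun e h => ih e h.1

theorem run (hSS : SS H Λ M γ) (hγ : 0 < γ) {I : Ω × Ω → Prop} (h0 : ∃ e, I e)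
    (h1 : ∀ e, I e → ¬ H e.1 e.2) (h2 : ∀ e e', I e → I e' → ¬ Conf H e e') (r : ℕ) :
    ∃ l : List (Ω × Ω), l.length ≤ r ∧ (∀ e ∈ l, I e) ∧ (∀ e, I e → Fl H Λ M γ l e) ∧
      (Feas Λ M (Fl H Λ M γ l) → l.length = r ∧ r * (γ / 3) ≤ Pst Λ M (Fl H Λ M γ l)) := by
  classical
  induction r with
  | zero =>
    refine ⟨[], le_rfl, by simp, h1, fun h => ⟨rfl, ?_⟩⟩
    rw [Nat.cast_zero, zero_mul]
    exact le_Pst h fun w _ => Psi_nonneg w
  | succ r ih =>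
    obtain ⟨l, a1, a2, a3, a4⟩ := ih
    by_cases hf : Feas Λ M (Fl H Λ M γ l)
    · obtain ⟨a5, a6⟩ := a4 hf
      obtain ⟨e0, he0⟩ := h0
      obtain ⟨e, he, hmax⟩ := exists_max_image (univ.filter I) (deg H Λ M γ (Fl H Λ M γ l))
        ⟨e0, mem_filter.2 ⟨mem_univ _, he0⟩⟩
      have he' := (mem_filter.1 he).2
      refine ⟨e :: l, by simp [a5], ?_, fun e' h => ⟨a3 e' h,
        hmax e' (mem_filter.2 ⟨mem_univ _, h⟩), h2 e' e h he'⟩, fun h => ⟨by simp [a5], ?_⟩⟩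
      · intro x hx
        rcases List.mem_cons.1 hx with rfl | hx
        · exact he'
        · exact a2 x hx
      · have a7 := key hSS hγ (Fl_sub l) hf e h
        change _ ≤ Pst Λ M (step H Λ M γ (Fl H Λ M γ l) e)
        push_cast
        linarith
    · exact ⟨l, a1.trans (Nat.le_succ r), a2, a3, fun h => absurd h hf⟩

end Cont

open Cont in
theorem s_cont : S_Cont := by
  intro Ω _ _ H Λ M γ s _ _ hγ hs hSS
  refine ⟨fun l e => ¬ Feas Λ M (Fl H Λ M γ l) ∧ Fl H Λ M γ l e, fun l h => ?_,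
    fun I h1 h2 => ?_⟩
  · obtain ⟨n, u, a1, a2⟩ := h
    exact (a1 0).1 ⟨n, u, fun s => (a1 s).2, a2⟩
  · by_cases h0 : ∃ e, I e
    · obtain ⟨l, a1, a2, a3, a4⟩ := run hSS hγ h0 h1 h2 s
      refine ⟨l, a1, a2, fun e he => ⟨fun hf => ?_, a3 e he⟩⟩
      obtain ⟨w, hw⟩ := feas_iff.1 hf
      have a5 := ((a4 hf).2.trans (Pst_le hw)).trans (Psi_le hw.2.1)
      have a6 := mul_le_mul_of_nonneg_right hs (show 0 ≤ γ / 3 by positivity)
      have e1 : (3 * Real.log Λ / γ + 1) * (γ / 3) = Real.log Λ + γ / 3 := by field_simp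
      rw [e1] at a6
      linarith
    · exact ⟨[], Nat.zero_le _, by simp, fun e he => absurd ⟨e, he⟩ h0⟩

end Vale.Agent.P060
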