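import Vale.Agent.P060.StC

namespace Vale.Agent.P060

open Finset Vale.Agent.P015
open scoped BigOperators

namespace Core

theorem pr_prod {α β : Type} [Fintype α] [Fintype β] (A : α → Prop) (B : β → Prop) :
    pr (fun U : α × β => A U.1 ∧ B U.2) = pr A * pr B := by
  rw [pr, E_prod, pr, ← E_mul_right]
  refine E_congr fun x => ?_
  rw [pr, ← E_mul_left]
  exact E_congr fun y => ind_and _ _

theorem E_fst {Z U : Type} [Fintype Z] [Fintype U] [Nonempty U] (g : (BB → Z) → ℝ) :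
    𝔼 s : BB → Z × U, g (fun a => (s a).1) = 𝔼 z, g z :=
  (law_equiv (Equiv.arrowProdEquivProdArrow BB (fun _ => Z) fun _ => U) Prod.fst g).trans
    (law_fst (fun z => z) g)

theorem c1 {Y Z : ℝ} (hY : 8 ≤ Y) (h0 : 0 ≤ Z) (hZ : 8 * Z ≤ Y ^ 2) (m : ℕ) (hm : m = 40000) :
    2 * (Y ^ 3200) ^ 31 * (Y ^ 8) ^ 89 * (Y ^ 3200) ^ 12 * (2 * 4 ^ m * (Z * (2 / Y ^ 8)) ^ m) ≤
      (1 / Y) ^ (2 * m) := by
  have hp : 0 < Y := by linarith
  have h1 : 4 ^ m * (Z * (2 / Y ^ 8)) ^ m ≤ (1 / Y ^ 6) ^ m := by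
    rw [← mul_pow]
    refine pow_le_pow_left₀ (by positivity) ?_ m
    have e : 4 * (Z * (2 / Y ^ 8)) = 8 * Z / Y ^ 8 := by ring
    rw [e, div_le_div_iff₀ (by positivity) (by positivity)]
    nlinarith [mul_le_mul_of_nonneg_right hZ (pow_pos hp 6).le]
  have h2 : 2 * (Y ^ 3200) ^ 31 * (Y ^ 8) ^ 89 * (Y ^ 3200) ^ 12 * 2 ≤ Y ^ 138313 := by
    have e : 2 * (Y ^ 3200) ^ 31 * (Y ^ 8) ^ 89 * (Y ^ 3200) ^ 12 * 2 = Y ^ 138312 * 4 := by ring
    rw [e, pow_succ Y 138312]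
    exact mul_le_mul_of_nonneg_left (by linarith) (by positivity)
  rw [mul_assoc 2 (4 ^ m), ← mul_assoc _ 2]
  refine (mul_le_mul h2 h1 (by positivity) (by positivity)).trans ?_
  rw [one_div_pow, one_div_pow, ← pow_mul, mul_one_div,
    div_le_div_iff₀ (by positivity) (by positivity), one_mul, ← pow_add]
  exact pow_le_pow_right₀ (by linarith) (by omega)

theorem c2 {Y a M : ℝ} (hY : 8 ≤ Y) (h : a * M ≤ Y) :
    4 * (Y ^ 8) ^ 90 * (a * (2 * M * (Y ^ 8) ^ 90 / Y ^ 3200)) ≤ (1 / Y) ^ 2 := by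
  have hp : 0 < Y := by linarith
  have e : 4 * (Y ^ 8) ^ 90 * (a * (2 * M * (Y ^ 8) ^ 90 / Y ^ 3200)) =
      8 * (a * M) * Y ^ 1440 / Y ^ 3200 := by ring
  rw [e, one_div_pow, div_le_div_iff₀ (by positivity) (by positivity), one_mul]
  have h1 : 8 * (a * M) ≤ Y * Y := by nlinarith
  calc 8 * (a * M) * Y ^ 1440 * Y ^ 2 ≤ Y * Y * Y ^ 1440 * Y ^ 2 := by gcongr
    _ = Y ^ 1444 := by ring
    _ ≤ Y ^ 3200 := pow_le_pow_right₀ (by linarith) (by omega)

theorem c3 {Y x a b T : ℝ} (hY : 8 ≤ Y) (hx : 1 / Y ≤ x) (ha0 : 0 < a) (ha : a ≤ Y) (hb0 : 0 < b)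
    (hb : b ≤ Y) (h : x / a ≤ ((Y ^ 3200) ^ 3) ^ 4 * T) :
    1 / (Y ^ 3200) ^ 13 ≤ T / (8 * (Y ^ 8) ^ 176 * b) := by
  have hp : 0 < Y := by linarith
  have h1 : 1 / Y / Y ≤ ((Y ^ 3200) ^ 3) ^ 4 * T :=
    le_trans (div_le_div₀ (le_trans (by positivity) hx) hx ha0 ha) h
  rw [div_div, div_le_iff₀ (by positivity)] at h1
  have hT : 0 ≤ T := by
    by_contra h2
    have h3 : ((Y ^ 3200) ^ 3) ^ 4 * T * (Y * Y) < 0 :=
      mul_neg_of_neg_of_pos (mul_neg_of_pos_of_neg (by positivity) (not_le.1 h2)) (by positivity)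
    linarith
  rw [div_le_div_iff₀ (by positivity) (by positivity), one_mul]
  calc 8 * (Y ^ 8) ^ 176 * b ≤ Y * (Y ^ 8) ^ 176 * Y * (((Y ^ 3200) ^ 3) ^ 4 * T * (Y * Y)) := by
        refine le_trans ?_ (le_mul_of_one_le_right (by positivity) h1)
        gcongr
    _ = T * Y ^ 39812 := by ring
    _ ≤ T * Y ^ 41600 := mul_le_mul_of_nonneg_left (pow_le_pow_right₀ (by linarith) (by omega)) hT
    _ = T * (Y ^ 3200) ^ 13 := by rw [← pow_mul]

theorem c4 {Y t : ℝ} (hY : 0 < Y) :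
    (Y ^ 3200) ^ 31 * t * (1 / Y ^ 8) ^ 13200 = t / (Y ^ 3200) ^ 2 := by
  rw [one_div_pow, ← pow_mul, ← pow_mul, ← pow_mul, mul_one_div,
    div_eq_div_iff (by positivity) (by positivity), mul_right_comm, ← pow_add, mul_comm]

theorem small {q : ℝ} (hq : 100 ≤ q) {c : ℝ} (hc : c ≤ 3) {k a : ℕ} (h : a + 2 ≤ k) :
    2 * q / q ^ k + c / q ^ k ≤ 1 / q ^ a := by
  have hp : 0 < q := by linarith
  rw [← add_div, div_le_div_iff₀ (by positivity) (by positivity), one_mul]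
  calc (2 * q + c) * q ^ a ≤ q ^ 2 * q ^ a := by gcongr; nlinarith
    _ = q ^ (a + 2) := by ring
    _ ≤ q ^ k := pow_le_pow_right₀ (by linarith) h

theorem le_pow {q c : ℝ} (hq : 100 ≤ q) (hc : c ≤ 100) {a n : ℕ} (h : a + 1 ≤ n) :
    c * q ^ a ≤ q ^ n := by
  calc c * q ^ a ≤ q * q ^ a := by gcongr; linarith
    _ = q ^ (a + 1) := by ring
    _ ≤ q ^ n := pow_le_pow_right₀ (by linarith) h

variable {F : Type} [Field F] [Fintype F] [DecidableEq F] {b k d N j n : ℕ}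

theorem crh (ha : S_Aff) (hg : S_GP) (hw : S_WU) {Lm : ℕ} {δ1 Λ M : ℝ}
    {ρ : Zt F b k → Fn F b k} {τ : Ty F b k n} {S : Type} [Fintype S] {u : S → Un F b k d N}
    (hT : TGp F b k (d - 1) Lm δ1) (hL : 0 < Lm) (hΛ : 1 ≤ Λ) (hM : 1 ≤ M)
    (hs : Smp ρ j τ Λ M u) :
    CRH (Wf u) (fun _ ζ => Sep (fun f : Fn F b k => f ∈ P1 F b k ^ d) ζ) Λ M δ1 Lm := by
  refine ⟨⟨hΛ, hM, (pr_nonneg _).trans (hT Empty Empty.elim (by simpa using hL))⟩,
    fun ι _ _ h => ?_, fun r ι _ ζ h σ0 => ?_, fun r ι ι' _ _ ζ ζ' h h' σ0 => ?_⟩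
  · have h0 := hg F b k (d - 1) Lm δ1 hT ι Empty Empty.elim (by simpa using h)
    refine le_trans (pr_mono ?_) h0
    intro ζ hζ hs
    refine hζ fun l => ?_
    obtain ⟨f, hf, h1⟩ := hs l
    exact ⟨f, (ha F b k).2.2.1 (d - 1) d (by omega) hf.1, h1⟩
  · classical
    refine (hs.marg r fun x => ∀ l, Wd x (ζ l) = Wd (vx (u σ0) r) (ζ l)).trans ?_
    rw [← mul_one_div]
    exact mul_le_mul_of_nonneg_left ((hw F b k d N ι).1 ζ _ h (hs.span σ0 r)) (by linarith)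
  · classical
    refine (hs.dens fun U => (∀ l, Wd (vx U r) (ζ l) = Wd (vx (u σ0) r) (ζ l)) ∧
      ∀ l, Wd (vx U (!r)) (ζ' l) = Wd (vx (u σ0) (!r)) (ζ' l)).trans ?_
    rw [← mul_one_div, pow_add, ← one_div_mul_one_div]
    refine mul_le_mul_of_nonneg_left ?_ (by linarith)
    refine le_trans (le_of_eq ?_) (mul_le_mul ((hw F b k d N ι).1 ζ _ h (hs.span σ0 r))
      ((hw F b k d N ι').1 ζ' _ h' (hs.span σ0 (!r))) (pr_nonneg _) (by positivity))
    cases r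
    · rw [← pr_prod]
      exact pr_congr fun U => Iff.rfl
    · rw [mul_comm, ← pr_prod]
      exact pr_congr fun U => and_comm

end Core

open Vale.Agent.P060.Core in
theorem s_core (ha : S_Aff) (hg : S_GP) (hw : S_WU) (hcr : S_CR) (hcut : S_Cut) (hgd : S_Good)
    (hcnt : S_Cnt) (hf : S_Fin) : S_Core := by
  intro F _ _ _ _ b k d N N1 j L Lm J0 m1 n δ1 θ η ρ Sg τ S _ _ u hN hT hρ hσ hn hty hs
  have hq : 100 ≤ qq F := by
    have := hN.hq
    unfold qq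
    exact_mod_cast this
  have hp : 0 < qq F := by linarith
  have h1q : 1 ≤ qq F := by linarith
  have hbig := hN.big
  have hk := hN.hk
  have hη : η = 1 / qq F ^ (24 * j ^ 3 + 90) := hN.hη
  have hη0 : 0 < η := by rw [hη]; positivity
  have cY : (Fintype.card (Co F k) : ℝ) = qq F ^ (k + 2) := by simp [qq]
  have cW : (Fintype.card (Wt F k N) : ℝ) = qq F ^ (2 * N + N * (k + 2) + (k + 2)) := by
    simp [qq]
    ring
  have cK : (Fintype.card (Ky F N) : ℝ) = (qq F ^ N) ^ 3 := by simp [qq]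
  have cZ : (Fintype.card (Zt F b k) : ℝ) = qq F ^ (b + (k + 1)) := by simp [qq, pow_add]
  obtain ⟨O, c, hc⟩ := hcr S (Fin b → F) (Wt F k N) (Co F k) (Wf u) (Yf u) _ _ _ δ1 η Lm L J0
    (crh ha hg hw hT (by have := hN.nd2; omega) (one_le_pow₀ (one_le_pow₀ h1q)) (one_le_pow₀ h1q)
      hs) hN.hL hN.hJ hN.l1 hN.l2 hη0.le (by
      have h := hN.cr
      rw [cY, cW]
      simp only [Real.log_pow]
      push_cast
      refine le_trans (le_of_eq ?_) h
      unfold qq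
      ring)
  have htv : 𝔼 s : BB → Zt F b k, 𝔼 σ, tvs u c s σ ≤ η :=
    (E_fst fun z => 𝔼 σ, tv c (Wf u) (Yf u) z σ).trans_le hc
  have hX : qq F ^ N = (qq F ^ N1) ^ 3200 := by rw [hN.hN, mul_comm, pow_mul]
  have hY8 : 8 ≤ qq F ^ N1 := by
    simpa using le_pow (c := 8) (a := 0) (n := N1) hq (by norm_num) (by omega)
  have hgood := hgd F b k d N j n Lm L 13200 _ δ1 _ ((qq F ^ N1) ^ 8) η ρ τ S O u c hρ hT hs.cod
    hs.dens (by positivity) hN.hL hN.l3 hN.hd hN.l4 htv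
  have hg2 : (qq F ^ N) ^ 31 * 2 ^ L * (1 / (qq F ^ N1) ^ 8) ^ 13200 = 2 ^ L / qq F ^ (2 * N) := by
    rw [mul_comm 2 N, pow_mul, hX]
    exact c4 (by positivity)
  have hg3 : qq F ^ (4 * (n + 3)) / (qq F ^ N1) ^ 8 ≤ qq F ^ (4 * (j ^ 3 + 3)) / qq F ^ (8 * N1) := by
    rw [← pow_mul, mul_comm N1]
    exact div_le_div_of_nonneg_right (pow_le_pow_right₀ h1q (by omega)) (by positivity)
  have hg4 : 3 * (13200 / L + 2 ^ L / qq F ^ (2 * N)) + (16 * L + 12) * δ1 +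
    qq F ^ (4 * (j ^ 3 + 3)) / qq F ^ (8 * N1) ≤ 8 * η := hN.good
  rw [hg2, Nat.cast_ofNat] at hgood
  have hcut' := hcut F b k d j _ η ρ hρ (by have := hN.hj; omega) hη0.le (by
    rw [hη, one_div_pow, ← pow_mul, cZ]
    refine le_trans ?_ (small hq (c := 1) (k := k) (by norm_num) (by omega))
    gcongr
    omega)
  obtain ⟨t, t', v, v', hal, hcn⟩ := hcnt F b k d N j n _ θ η ((qq F ^ N1) ^ 8) ρ Sg τ S O u c hq
    hρ hσ hN.hθ hty hs.ty (by
      rw [pow_succ, div_le_div_iff₀ (by positivity) (by positivity)]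
      nlinarith [pow_pos hp k, mul_le_mul_of_nonneg_left h1q (pow_pos hp k).le])
    (small hq le_rfl (by omega)) hη0 (by
      rw [hη]
      gcongr) hcut' htv (by linarith)
  have hfin := hf F b k d N j n 40000 _ _ _ ((qq F ^ N1) ^ 8) (1 / qq F ^ N1) ρ Sg τ S u t t' v v'
    hρ hN.hd hs (one_le_pow₀ (by linarith))
    (by rw [hX, ← pow_mul]; exact pow_le_pow_right₀ (by linarith) (by omega)) le_rfl
    (by rw [← pow_mul]; exact le_pow hq (by norm_num) (by omega))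
    (by
      rw [← pow_mul, ← pow_mul, ← pow_add, hN.hN]
      exact pow_lt_pow_right₀ (by linarith) (by omega)) (by omega) (by positivity)
    (by
      rw [hX]
      refine c1 hY8 (by positivity) ?_ _ rfl
      rw [← pow_mul]
      exact le_pow hq (by norm_num) (by omega))
    (by
      rw [hX]
      refine c2 hY8 ?_
      rw [← pow_add]
      exact pow_le_pow_right₀ h1q (by omega))
    (by
      rw [mul_one_div, div_le_div_iff₀ (by positivity) (by positivity), one_mul]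
      exact le_pow hq (by norm_num) (by omega)) hal
  refine le_trans ?_ hfin
  rw [cK, hX] at hcn
  rw [hX]
  refine c3 hY8 ?_ (by positivity) (pow_le_pow_right₀ h1q (by omega)) (by positivity)
    (pow_le_pow_right₀ h1q (by omega)) hcn
  have e1 : -6 / η ^ 2 = -(6 * qq F ^ (2 * (24 * j ^ 3 + 90))) := by
    rw [hη, one_div_pow, ← pow_mul, mul_comm _ 2]
    field_simp
  have e2 : 6 * qq F ^ (2 * (24 * j ^ 3 + 90)) ≤ N1 := by
    have h : 6 * Fintype.card F ^ (2 * (24 * j ^ 3 + 90)) ≤ N1 := by omega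
    unfold qq
    exact_mod_cast h
  rw [e1, Real.exp_neg, one_div]
  refine inv_anti₀ (Real.exp_pos _) ((Real.exp_le_exp.2 e2).trans ?_)
  rw [← Real.exp_one_pow]
  exact pow_le_pow_left₀ (Real.exp_pos _).le (by linarith [Real.exp_one_lt_d9]) _

end Vale.Agent.P060
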