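import Vale.Agent.P060.StB

namespace Vale.Agent.P060

open Finset Vale.Agent.P015
open scoped BigOperators

namespace Cut

variable {F : Type} [Field F] [Fintype F] [DecidableEq F] [CharP F 2] {b k d j : ℕ} {δ : ℝ}
  {ρ : Zt F b k → Fn F b k}

theorem nd (ha : S_Aff) (h : RhoOK d j δ ρ) (hj : 2 ≤ j) {s t : Zt F b k} (hst : s ≠ t) :
    pr (fun z : Fin b → F => ∀ i, co (ρ s + ρ t) z (some i) = 0) ≤ δ := by
  obtain ⟨-, -, -, -, -, -, -, -, a9, a10, -⟩ := ha F b k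
  have hS : ∀ φ : Fn F b k, (Pi.single s 1 + Pi.single t 1 : Fn F b k) ⬝ᵥ φ = φ s + φ t :=
    fun φ => by simp [add_dotProduct]
  have h1 := h.nd (Pi.single s 1 + Pi.single t 1) ?_ ?_ 0
  · have e : (fun s' : Zt F b k => 0 * s'.2 0 + TS ρ (Pi.single s 1 + Pi.single t 1) s') =
        ρ s + ρ t := by
      funext s'
      simp only [TS, hS, zero_mul, zero_add, Pi.add_apply]
    rwa [e] at h1
  · refine ⟨fun i => if i.1 = 0 then LinearMap.proj s else LinearMap.proj t,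
      fun φ _ hφ ψ _ => ?_⟩
    have e0 : φ s = 0 := by simpa using hφ ⟨0, by omega⟩
    have e1 : φ t = 0 := by simpa using hφ ⟨1, by omega⟩
    rw [hS]
    simp [e0, e1]
  · by_cases h2 : s.1 = t.1
    · have h3 : s.2 ≠ t.2 := fun h3 => hst (Prod.ext h2 h3)
      obtain ⟨i, hi⟩ := Function.ne_iff.1 h3
      refine ⟨fun x => x.2 i, (a9 d).1
        (Submodule.subset_span (Set.mem_insert_of_mem _ ⟨i, rfl⟩)), ?_⟩
      rw [hS]
      exact fun h4 => hi (CharTwo.add_eq_zero.1 h4)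
    · obtain ⟨g, hg, e1, e2⟩ := a10 s t h2
      exact ⟨g, (a9 d).2 hg, by rw [hS, e1, e2]; simp⟩

theorem pair (hc : S_Chi) (ha : S_Aff) (h : RhoOK d j δ ρ) (hj : 2 ≤ j) {χ : F → ℝ} (hχ : Chi χ)
    {x : F} (hx : x ≠ 0) (s t : Zt F b k) :
    |𝔼 s', χ (ρ s s' * x) * χ (ρ t s' * x)| ≤ ind (t = s) + δ := by
  obtain ⟨c1, -, c3⟩ := (hc F).2 χ hχ
  have hb : ∀ a, |χ a| ≤ 1 := fun a => by rcases c1 a with e | e <;> simp [e]
  by_cases hst : t = s
  · have h0 : (0 : ℝ) ≤ δ := (pr_nonneg _).trans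
      (nd ha h hj (s := (0, 0)) (t := (0, 1)) fun e => zero_ne_one (congrFun (Prod.mk.inj e).2 0))
    rw [ind_pos hst]
    refine ((abs_expect_le _ _).trans (E_le fun s' => ?_)).trans (le_add_of_nonneg_right h0)
    rw [abs_mul]
    exact mul_le_one₀ (hb _) (abs_nonneg _) (hb _)
  rw [ind_neg hst, zero_add, E_prod]
  refine (abs_expect_le _ _).trans (le_trans (E_mono fun z => ?_) (nd ha h hj (Ne.symm hst)))
  have hm : ρ s + ρ t ∈ Cd F b k d := Submodule.add_mem _ (h.mem s) (h.mem t)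
  have e : 𝔼 u, χ (ρ s (z, u) * x) * χ (ρ t (z, u) * x) = χ (co (ρ s + ρ t) z none * x) *
      ind ((fun i => co (ρ s + ρ t) z (some i) * x) = 0) := by
    rw [← c3, ← E_mul_left]
    refine E_congr fun u => ?_
    have e1 := (ha F b k).2.1 _ _ hm (z, u)
    rw [← hχ.add, ← hχ.add, ← add_mul, ← Pi.add_apply (ρ s) (ρ t), e1, ev, add_mul, sum_mul]
    congr 2
    exact sum_congr rfl fun i _ => by ring
  rw [e, abs_mul, abs_of_nonneg (ind_nonneg _)]
  refine (mul_le_of_le_one_left (ind_nonneg _) (hb _)).trans (ind_mono fun h1 i => ?_)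
  exact (mul_eq_zero.1 (congrFun h1 i)).resolve_right hx

theorem E_ind_eq {Ω : Type} [Fintype Ω] (s : Ω) : 𝔼 t, ind (t = s) = 1 / Fintype.card Ω := by
  rw [E_eq, sum_eq_single s (fun t _ ht => ind_neg ht) (fun h => absurd (mem_univ s) h),
    ind_pos rfl]

end Cut

open Cut in
theorem s_cut (hc : S_Chi) (ha : S_Aff) : S_Cut := by
  intro F _ _ _ _ b k d j δ lm ρ h hj hlm hδ f g v hf hg
  obtain ⟨χ, hχ⟩ := (hc F).1
  obtain ⟨c1, c2, -⟩ := (hc F).2 χ hχ
  have hb : ∀ a, |χ a| ≤ 1 := fun a => by rcases c1 a with e | e <;> simp [e]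
  have e1 : ∀ a : F, ind (a = v) - 1 / Fintype.card F =
      𝔼 x : F, ind (x ≠ 0) * (χ (v * x) * χ (a * x)) := by
    intro a
    rw [ind_congr (CharTwo.add_eq_zero (a := v) (b := a) |>.trans eq_comm).symm, ← c2,
      ← E_ind_eq (0 : F), ← E_sub]
    refine E_congr fun x => ?_
    rw [← hχ.add, ← add_mul]
    by_cases hx : x = 0
    · simp [hx, hχ.zero]
    · rw [ind_neg hx, ind_pos hx]; ring
  have e2 : 𝔼 s, 𝔼 s', f s * g s' * (ind (ρ s s' = v) - 1 / Fintype.card F) =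
      𝔼 x : F, ind (x ≠ 0) * χ (v * x) * 𝔼 s', g s' * 𝔼 s, f s * χ (ρ s s' * x) := by
    simp only [e1, ← E_mul_left]
    rw [E_comm]
    refine (E_congr fun s' => E_comm _).trans ((E_comm _).trans (E_congr fun x => ?_))
    exact E_congr fun s' => E_congr fun s => by ring
  rw [e2]
  refine (abs_expect_le _ _).trans (E_le fun x => ?_)
  by_cases hx : x = 0
  · simpa [hx] using hlm
  rw [ind_pos hx, one_mul, abs_mul]
  refine (mul_le_of_le_one_left (abs_nonneg _) (hb _)).trans (abs_le_of_sq_le_sq ?_ hlm)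
  refine le_trans ?_ hδ
  have h1 : (𝔼 s', g s' * 𝔼 s, f s * χ (ρ s s' * x)) ^ 2 ≤
      𝔼 s', (𝔼 s, f s * χ (ρ s s' * x)) ^ 2 := by
    refine (expect_mul_sq_le_sq_mul_sq _ _ _).trans (mul_le_of_le_one_left
      (E_nonneg fun _ => sq_nonneg _) (E_le fun s' => ?_))
    exact (sq_le_one_iff_abs_le_one _).2 (hg s')
  refine h1.trans ?_
  have e3 : 𝔼 s', (𝔼 s, f s * χ (ρ s s' * x)) ^ 2 =
      𝔼 s, 𝔼 t, f s * f t * 𝔼 s', χ (ρ s s' * x) * χ (ρ t s' * x) := by
    simp only [sq, ← E_mul_left, ← E_mul_right]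
    rw [E_comm]
    refine E_congr fun s => (E_comm _).trans (E_congr fun t => E_congr fun s' => by ring)
  rw [e3]
  refine E_le fun s => ?_
  rw [← E_ind_eq s, ← E_const (Ω := Zt F b k) δ, ← E_add]
  refine E_mono fun t => (le_abs_self _).trans ?_
  rw [abs_mul, abs_mul, add_comm δ]
  exact (mul_le_of_le_one_left (abs_nonneg _) (mul_le_one₀ (hf s) (abs_nonneg _) (hf t))).trans
    (pair hc ha h hj hχ hx s t)

end Vale.Agent.P060
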