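import Vale.Agent.P060.StA

/-! The tensor frame model: definitions. -/

namespace Vale.Agent.P060

open Finset Vale.Agent.P015
open scoped BigOperators

/-- Positions `s = (z, u)`. -/
abbrev Zt (F : Type) (b k : ℕ) : Type := (Fin b → F) × (Fin (k + 1) → F)
/-- Functions on positions; also used for formal combinations of positions via `⬝ᵥ`. -/
abbrev Fn (F : Type) (b k : ℕ) : Type := Zt F b k → F
abbrev Ix (N : ℕ) : Type := Option (Fin N)
abbrev Tn (F : Type) (N : ℕ) : Type := Ix N × Ix N × Ix N → F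
/-- Coefficients of an affine function of `u`. -/
abbrev Co (F : Type) (k : ℕ) : Type := Option (Fin (k + 1)) → F
abbrev Ky (F : Type) (N : ℕ) : Type := Fin 3 → Fin N → F
abbrev Wt (F : Type) (k N : ℕ) : Type := ((Fin N → F) × (Fin N → F)) × (Fin N → Co F k) × Co F k
/-- Index of the free label coordinates: `inl l` is `T_l`, `inr false` is `x`, `inr true` is `β`. -/
abbrev Lx (n : ℕ) : Type := Fin n ⊕ Bool
abbrev Lb (F : Type) (n : ℕ) : Type := (Lx n → F) × F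
abbrev BB : Type := Bool × Bool

section
variable (F : Type) [Field F] (b k : ℕ)

/-- Affine functions of `z`. -/
def P1 : Submodule F (Fn F b k) :=
  Submodule.span F (insert 1 (Set.range fun (i : Fin b) (s : Zt F b k) => s.1 i))
/-- Affine functions of `u`. -/
def U1 : Submodule F (Fn F b k) :=
  Submodule.span F (insert 1 (Set.range fun (i : Fin (k + 1)) (s : Zt F b k) => s.2 i))
/-- The three frame spaces. -/
def Vm (d : ℕ) (m : Fin 3) : Submodule F (Fn F b k) :=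
  if m = 2 then P1 F b k ^ (d + 1) * U1 F b k else P1 F b k ^ d
/-- The code. -/
def Cd (d : ℕ) : Submodule F (Fn F b k) := P1 F b k ^ (3 * d + 1) * U1 F b k

noncomputable instance instFintypeVm [Fintype F] [DecidableEq F] (d : ℕ) (m : Fin 3) :
    Fintype (Vm F b k d m) := Fintype.ofFinite _

abbrev Fr (d N : ℕ) : Type := (m : Fin 3) → Fin N → Vm F b k d m
/-- Vertices. -/
abbrev Vx (d N : ℕ) : Type := Fr F b k d N × Tn F N
/-- Units (ordered pairs of vertices). -/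
abbrev Un (d N : ℕ) : Type := Vx F b k d N × Vx F b k d N

/-- Type of a unit: a basis of the relation space and the flag table. -/
structure Ty (n : ℕ) where
  S : Bool → Fin n → Fn F b k
  fl : Bool → (Fin n → F) → Option F
end

section
variable {F : Type} [Field F] [Fintype F] [DecidableEq F] {b k d N n : ℕ}

def fr (X : Fr F b k d N) (m : Fin 3) : Ix N → Fn F b k
  | none => 1
  | some i => (X m i : Fn F b k)

def tri (M : Tn F N) (p q r : Ix N → F) : F := ∑ ι, M ι * (p ι.1 * q ι.2.1 * r ι.2.2)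

/-- `w ∘ tok`. -/
def wt (M : Tn F N) (X : Fr F b k d N) : Fn F b k :=
  fun s => tri M (fun i => fr X 0 i s) (fun i => fr X 1 i s) (fun i => fr X 2 i s)

def Th (X : Fr F b k d N) (S : Fn F b k) : Tn F N :=
  fun ι => S ⬝ᵥ (fr X 0 ι.1 * fr X 1 ι.2.1 * fr X 2 ι.2.2)

def TS (ρ : Zt F b k → Fn F b k) (S : Fn F b k) : Fn F b k := fun s' => S ⬝ᵥ fun s => ρ s s'

def Hole (ρ : Zt F b k → Fn F b k) (Sg : F → Prop) (x y : Vx F b k d N) : Prop :=
  ∃ (S S' : Fn F b k) (t t' : F), Th x.1 S = Th y.1 S' ∧ S ⬝ᵥ 1 = 1 ∧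
    (∀ s, wt y.2 x.1 s = t + TS ρ S s) ∧ (∀ s, wt x.2 y.1 s = t' + TS ρ S' s) ∧ Sg (t + t')

def ev (c : Co F k) (u : Fin (k + 1) → F) : F := c none + ∑ i, c (some i) * u i

def co (f : Fn F b k) (z : Fin b → F) : Co F k
  | none => f (z, 0)
  | some i => f (z, Pi.single i 1) - f (z, 0)

/-- Low rank functionals. -/
def LowRk (d j : ℕ) (S : Fn F b k) : Prop :=
  ∃ a : Fin j → Module.Dual F (Fn F b k), ∀ φ ∈ P1 F b k ^ d, (∀ i, a i φ = 0) →
    ∀ ψ ∈ P1 F b k ^ (2 * d + 1) * U1 F b k, S ⬝ᵥ (φ * ψ) = 0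

/-- Properties of the symmetric form. -/
structure RhoOK (d j : ℕ) (δ : ℝ) (ρ : Zt F b k → Fn F b k) : Prop where
  symm : ∀ s s', ρ s s' = ρ s' s
  diag : ∀ s, ρ s s = s.2 0 ^ 2
  mem : ∀ s, ρ s ∈ Cd F b k d
  nd : ∀ S, LowRk d j S → (∃ φ ∈ Cd F b k d, S ⬝ᵥ φ ≠ 0) → ∀ c : F,
    pr (fun z : Fin b → F => ∀ i, co (fun s => c * s.2 0 + TS ρ S s) z (some i) = 0) ≤ δ

/-- Few points lie in the common zero set of a subspace of small codimension. -/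
def TGp (F : Type) [Field F] [Fintype F] [DecidableEq F] (b k e Lm : ℕ) (δ : ℝ) : Prop :=
  ∀ (ι : Type) [Fintype ι] (a : ι → Module.Dual F (Fn F b k)), Fintype.card ι < Lm →
    pr (fun z : Fin b → F => ∀ f ∈ P1 F b k ^ e, (∀ i, a i f = 0) → f (z, 0) = 0) ≤ δ

/-- The points `ζ l` are separated by elements of `J`. -/
def Sep (J : Fn F b k → Prop) {ι : Type} (ζ : ι → Fin b → F) : Prop :=
  ∀ l, ∃ f, J f ∧ f (ζ l, 0) = 1 ∧ ∀ l', l' ≠ l → f (ζ l', 0) = 0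

def vx (U : Un F b k d N) (r : Bool) : Vx F b k d N := if r then U.2 else U.1

def Span (X : Fr F b k d N) : Prop :=
  ∀ m, Vm F b k d m ≤ Submodule.span F (Set.range (fr X m))

def pf (U : Un F b k d N) (m : Fin 3) (i : Ix N) : Fn F b k × Fn F b k :=
  (fr U.1.1 m i, fr U.2.1 m i)

def AU (U : Un F b k d N) (m : Fin 3) : Submodule F (Fn F b k × Fn F b k) :=
  Submodule.span F (Set.range (pf U m))

def Cod (U : Un F b k d N) (j : ℕ) : Prop :=
  ∀ m, ∃ a : Fin j → Module.Dual F (Fn F b k × Fn F b k), ∀ φ : Fn F b k × Fn F b k,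
    φ.1 ∈ Vm F b k d m → φ.2 ∈ Vm F b k d m → (∀ i, a i φ = 0) → φ ∈ AU U m

/-- Component of a pair and pure elements. -/
def cmp (φ : Fn F b k × Fn F b k) (r : Bool) : Fn F b k := if r then φ.2 else φ.1
def pur (r : Bool) (f : Fn F b k) : Fn F b k × Fn F b k := if r then (0, f) else (f, 0)

def comb (τ : Ty F b k n) (r : Bool) (c : Fin n → F) : Fn F b k := ∑ l, c l • τ.S r l
def alf (τ : Ty F b k n) (l : Fin n) : F := τ.S false l ⬝ᵥ 1

/-- The `y` label as a function of the position. -/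
def yl (U : Un F b k d N) (r : Bool) : Fn F b k := wt (vx U (!r)).2 (vx U r).1

def HasTy (ρ : Zt F b k → Fn F b k) (τ : Ty F b k n) (U : Un F b k d N) : Prop :=
  (∀ l, Th U.1.1 (τ.S false l) = Th U.2.1 (τ.S true l)) ∧
  (∀ S S', Th U.1.1 S = Th U.2.1 S' → ∃ c : Fin n → F, ∀ φ ∈ Cd F b k d,
    S ⬝ᵥ φ = comb τ false c ⬝ᵥ φ ∧ S' ⬝ᵥ φ = comb τ true c ⬝ᵥ φ) ∧
  (∀ r c v, τ.fl r c = some v → ∀ s, yl U r s + TS ρ (comb τ r c) s = v) ∧
  (∀ r c, τ.fl r c = none → ∀ v, ∃ s, yl U r s + TS ρ (comb τ r c) s ≠ v)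

def TyOK (d j : ℕ) (Sg : F → Prop) (τ : Ty F b k n) : Prop :=
  (∀ r c, LowRk d j (comb τ r c)) ∧
  (∀ r c, c ≠ 0 → ∃ φ ∈ Cd F b k d, comb τ r c ⬝ᵥ φ ≠ 0) ∧
  ∀ c v v', alf τ ⬝ᵥ c = 1 → τ.fl false c = some v → τ.fl true c = some v' → ¬ Sg (v + v')

/-- A random unit of a fixed type. -/
structure Smp (ρ : Zt F b k → Fn F b k) (j : ℕ) (τ : Ty F b k n) (Λ M : ℝ) {S : Type} [Fintype S]
    (u : S → Un F b k d N) : Prop where
  span : ∀ σ r, Span (vx (u σ) r).1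
  cod : ∀ σ, Cod (u σ) j
  ty : ∀ σ, HasTy ρ τ (u σ)
  dens : Dens u Λ
  marg : ∀ r, Dens (fun σ => vx (u σ) r) M

/-! ### Tokens -/

def ky (X : Fr F b k d N) (s : Zt F b k) : Ky F N := fun m i => fr X m (some i) s

def lab (ρ : Zt F b k → Fn F b k) (τ : Ty F b k n) (U : Un F b k d N) (r : Bool) (s : Zt F b k) :
    Lb F n :=
  (Sum.elim (fun l => TS ρ (τ.S r l) s)
    (fun t => if t then s.2 0 else wt (vx U r).2 (vx U r).1 s), yl U r s)

def Wd (x : Vx F b k d N) (z : Fin b → F) : Wt F k N :=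
  ((fun i => fr x.1 0 (some i) (z, 0), fun i => fr x.1 1 (some i) (z, 0)),
    fun i => co (fr x.1 2 (some i)) z, co (wt x.2 x.1) z)

def Yd (U : Un F b k d N) (r : Bool) (z : Fin b → F) : Co F k := co (yl U r) z

def keyW (w : Wt F k N) (u : Fin (k + 1) → F) : Ky F N :=
  ![w.1.1, w.1.2, fun i => ev (w.2.1 i) u]

/-- Affine coefficient tables of the free labels. -/
def lam (ρ : Zt F b k → Fn F b k) (τ : Ty F b k n) (r : Bool) (z : Fin b → F) (x : Co F k) :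
    Lx n → Co F k :=
  Sum.elim (fun l => co (TS ρ (τ.S r l)) z)
    (fun t => if t then Pi.single (some 0) 1 else x)

def labW (La : (Fin b → F) → Co F k → Lx n → Co F k) (s : Zt F b k) (w : Wt F k N) (y : Co F k) :
    Lb F n := (fun l => ev (La s.1 w.2.2 l) s.2, ev y s.2)

/-- Kernels. -/
def Kern {Z W Y : Type} [Fintype Y] (K : Z → W → Y → ℝ) : Prop :=
  (∀ z w y, 0 ≤ K z w y) ∧ ∀ z w, ∑ y, K z w y = 1

/-- Ideal probability of the label `θ` given position and key. -/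
noncomputable def aK (La : (Fin b → F) → Co F k → Lx n → Co F k)
    (K : (Fin b → F) → Wt F k N → Co F k → ℝ) (s : Zt F b k) (κ : Ky F N) (θ : Lb F n) : ℝ :=
  Fintype.card (Ky F N) * 𝔼 w, ∑ y, K s.1 w y * ind (keyW w s.2 = κ ∧ labW La s w y = θ)

noncomputable def abar (La : (Fin b → F) → Co F k → Lx n → Co F k)
    (K : (Fin b → F) → Wt F k N → Co F k → ℝ) (κ : Ky F N) (θ : Lb F n) : ℝ :=
  𝔼 s, aK La K s κ θ

def res (c : Lx n → F) (θ : Lb F n) : F := θ.2 + c ⬝ᵥ θ.1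

/-- Fourier coefficient of the label given the key. -/
noncomputable def fc (χ : F → ℝ) (La : (Fin b → F) → Co F k → Lx n → Co F k)
    (K : (Fin b → F) → Wt F k N → Co F k → ℝ) (ξ : Lb F n) (κ : Ky F N) : ℝ :=
  ∑ θ : Lb F n, χ (ξ.1 ⬝ᵥ θ.1 + ξ.2 * θ.2) * abar La K κ θ

/-- Restriction of a kernel. -/
noncomputable def rs {Z W Y : Type} (K : Z → W → Y → ℝ) (D : Z → W → Y → Prop) : Z → W → Y → ℝ :=
  fun z w y => K z w y * ind (D z w y)

/-- Mass of the residual value `v` on the line `c` given the key. -/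
noncomputable def gK (La : (Fin b → F) → Co F k → Lx n → Co F k)
    (K : (Fin b → F) → Wt F k N → Co F k → ℝ) (c : Lx n → F) (v : F) (κ : Ky F N) : ℝ :=
  ∑ θ : Lb F n, ind (res c θ = v) * abar La K κ θ

/-- Non degeneracy of the coefficient tables. -/
def LaOK (La : (Fin b → F) → Co F k → Lx n → Co F k) (δ : ℝ) : Prop :=
  ∀ c : Lx n → F, c ≠ 0 →
    pr (fun p : (Fin b → F) × Co F k => ∀ i, ∑ l, c l * La p.1 p.2 l (some i) = 0) ≤ δ

/-! ### Label algebra -/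

def tt (θ θ' : BB → Lb F n) (a : BB) : F :=
  (θ' a.swap).1 (Sum.inr false) + (θ a).1 (Sum.inr true) ^ 2

def Half (α : Fin n → F) (θ θ' : BB → Lb F n) (ρ' : Bool → F) : Prop :=
  (∀ r p, (θ (r, p)).2 + tt θ' θ (p, !r) = ρ' p) ∧
  ∀ p l, α l * tt θ θ' (false, p) + (θ (false, p)).1 (Sum.inl l) =
    α l * tt θ θ' (true, p) + (θ (true, p)).1 (Sum.inl l)

def Alg (Sg : F → Prop) (α : Fin n → F) (θ θ' : BB → Lb F n) (ρ ρ' : Bool → F) : Prop :=
  (∀ a, Sg (tt θ θ' a + tt θ' θ a.swap)) ∧ Half α θ θ' ρ' ∧ Half α θ' θ ρ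

def Solv (Sg : F → Prop) (α : Fin n → F) (at' : BB → (Lx n → F) × F) : Prop :=
  ∃ (θ θ' : BB → Lb F n) (ρ ρ' : Bool → F), Alg Sg α θ θ' ρ ρ' ∧
    (∀ a, res (at' a).1 (θ a) = (at' a).2) ∧ ∀ a, res (at' a).1 (θ' a) = (at' a).2

/-- Near-hole lines. -/
def NH (α : Fin n → F) (c : Lx n → F) : Prop :=
  (∀ t, c (Sum.inr t) = 0) ∧ α ⬝ᵥ (fun l => c (Sum.inl l)) = 1

def Mat (ρ : Zt F b k → Fn F b k) (s : BB → Zt F b k) (v : Bool → F) : Prop :=
  ∀ r, ρ (s (r, false)) (s (r, true)) = v r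

def CutOK (ρ : Zt F b k → Fn F b k) (lm : ℝ) : Prop :=
  ∀ (f g : Zt F b k → ℝ) (v : F), (∀ s, |f s| ≤ 1) → (∀ s, |g s| ≤ 1) →
    |𝔼 s, 𝔼 s', f s * g s' * (ind (ρ s s' = v) - 1 / Fintype.card F)| ≤ lm

/-! ### Cells, goodness, pieces -/

def kys (U : Un F b k d N) (s : BB → Zt F b k) : BB → Ky F N := fun a => ky (vx U a.1).1 (s a)

def lbs (ρ : Zt F b k → Fn F b k) (τ : Ty F b k n) (U : Un F b k d N) (s : BB → Zt F b k) :
    BB → Lb F n := fun a => lab ρ τ U a.1 (s a)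

/-- Homogenised key vector. -/
def hk (κ : Ky F N) (m : Fin 3) : Ix N → F
  | none => 1
  | some i => κ m i

/-- Line slices of a tensor at a family of keys. -/
def sl (κ : BB → Ky F N) (M : Tn F N) : Fin 3 → BB → BB → Ix N → F :=
  ![fun a a' i => tri M (Pi.single i 1) (hk (κ a) 1) (hk (κ a') 2),
    fun a a' i => tri M (hk (κ a) 0) (Pi.single i 1) (hk (κ a') 2),
    fun a a' i => tri M (hk (κ a) 0) (hk (κ a') 1) (Pi.single i 1)]

/-- Pure interpolation with room for one linear factor. -/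
def G4 (U : Un F b k d N) (s : BB → Zt F b k) : Prop :=
  ∀ m r p, ∃ f ∈ P1 F b k ^ (d - 1), f (s (r, p)) = 1 ∧ f (s (r, !p)) = 0 ∧
    ∀ g ∈ P1 F b k, pur r (g * f) ∈ AU U m

def G0 {S : Type} [Fintype S] (u : S → Un F b k d N) (s : BB → Zt F b k) (U : Un F b k d N) :
    Prop := pr (fun σ => kys (u σ) s = kys U s) ≤ 2 / (Fintype.card (Ky F N) : ℝ) ^ 4

def G2 {S : Type} [Fintype S] (u : S → Un F b k d N) (E : ℝ) (s : BB → Zt F b k)
    (U : Un F b k d N) : Prop :=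
  pr (fun σ => (u σ).1.1 = U.1.1 ∧ (u σ).2.1 = U.2.1 ∧
      sl (kys U s) (u σ).1.2 = sl (kys U s) U.1.2 ∧ sl (kys U s) (u σ).2.2 = sl (kys U s) U.2.2) ≤
    E * pr (fun σ => (u σ).1.1 = U.1.1 ∧ (u σ).2.1 = U.2.1) *
      pr (fun M : Tn F N × Tn F N =>
        sl (kys U s) M.1 = sl (kys U s) U.1.2 ∧ sl (kys U s) M.2 = sl (kys U s) U.2.2)

def G3 {S : Type} [Fintype S] (u : S → Un F b k d N) (E : ℝ) (s : BB → Zt F b k)
    (U : Un F b k d N) : Prop :=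
  ∀ r, pr (fun σ => vx (u σ) r = vx U r ∧ ∀ p, kys (u σ) s (!r, p) = kys U s (!r, p)) ≤
    E / (Fintype.card (Ky F N) : ℝ) ^ 2 * pr (fun σ => vx (u σ) r = vx U r)

def Gd' {S : Type} [Fintype S] (u : S → Un F b k d N) (E : ℝ) (s : BB → Zt F b k)
    (U : Un F b k d N) : Prop := G0 u s U ∧ G2 u E s U ∧ G3 u E s U ∧ G4 U s

/-- The good part of a cell. -/
def Cell (ρ : Zt F b k → Fn F b k) (τ : Ty F b k n) {S : Type} [Fintype S]
    (u : S → Un F b k d N) (E : ℝ) (s : BB → Zt F b k) (κ : BB → Ky F N) (θ : BB → Lb F n)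
    (σ : S) : Prop := Gd' u E s (u σ) ∧ kys (u σ) s = κ ∧ lbs ρ τ (u σ) s = θ

/-- Good: the cell is not too light. -/
def Gd (ρ : Zt F b k → Fn F b k) (τ : Ty F b k n) {S : Type} [Fintype S]
    (u : S → Un F b k d N) (E : ℝ) (s : BB → Zt F b k) (σ : S) : Prop :=
  Gd' u E s (u σ) ∧ 1 / (E * (Fintype.card (Ky F N) : ℝ) ^ 4) ≤
    pr (Cell ρ τ u E s (kys (u σ) s) (lbs ρ τ (u σ) s))

/-- A function of a unit that depends only on the frames and the line slices. -/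
def SlDep (κ : BB → Ky F N) (f : Un F b k d N → ℝ) : Prop :=
  ∀ U U' : Un F b k d N, U.1.1 = U'.1.1 → U.2.1 = U'.2.1 → sl κ U.1.2 = sl κ U'.1.2 →
    sl κ U.2.2 = sl κ U'.2.2 → f U = f U'

/-- A nice piece, seen as a probability space of its own. -/
structure Nice (ρ : Zt F b k → Fn F b k) (τ : Ty F b k n) {S : Type} [Fintype S]
    (u : S → Un F b k d N) (s : BB → Zt F b k) (κ : BB → Ky F N) (θ : BB → Lb F n)
    (B : Fin 3 → Submodule F (Fn F b k × Fn F b k)) (j1 : ℕ) (e1 e2 Lp Ls : ℝ) : Prop where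
  key : ∀ σ, kys (u σ) s = κ
  lbl : ∀ σ, lbs ρ τ (u σ) s = θ
  ty : ∀ σ, HasTy ρ τ (u σ)
  span : ∀ σ r, Span (vx (u σ) r).1
  g4 : ∀ σ, G4 (u σ) s
  diff : ∀ σ σ' m i, pf (u σ) m i - pf (u σ') m i ∈ B m
  le : ∀ σ m, B m ≤ AU (u σ) m
  van : ∀ m, ∀ φ ∈ B m, ∀ a : BB, cmp φ a.1 (s a) = 0
  cod : ∀ m, ∃ a : Fin j1 → Module.Dual F (Fn F b k × Fn F b k), ∀ φ : Fn F b k × Fn F b k,
    φ.1 ∈ Vm F b k d m → φ.2 ∈ Vm F b k d m → (∀ i, a i φ = 0) → φ ∈ B m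
  proj : ∀ m r, ∀ f ∈ Vm F b k d m, (∀ p, f (s (r, p)) = 0) → ∃ φ ∈ B m, cmp φ r = f
  ent1 : ∀ m (a : Module.Dual F (Fn F b k × Fn F b k)), (∃ φ ∈ B m, a φ ≠ 0) → ∀ v : Ix N → F,
    pr (fun σ => ∀ i, a (pf (u σ) m i) = v i) ≤ e1
  ent2 : ∀ m r (a : Module.Dual F (Fn F b k)), (∃ φ ∈ B m, a (cmp φ r) ≠ 0) → ∀ v : Ix N → F,
    pr (fun σ => ∀ i, a (cmp (pf (u σ) m i) r) = v i) ≤ e2
  dens : Dens u Lp
  sld : ∀ (f : Un F b k d N → ℝ) (c : ℝ), 0 ≤ c → (∀ U, 0 ≤ f U) → SlDep κ f →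
    (∀ X X' : Fr F b k d N, 𝔼 M : Tn F N × Tn F N, f ((X, M.1), (X', M.2)) ≤ c) →
    𝔼 σ, f (u σ) ≤ Ls * c

/-- The eight functional equations. -/
def Eqs (ρ : Zt F b k → Fn F b k) (s : BB → Zt F b k) (θ θ' : BB → Lb F n)
    (U V : Un F b k d N) : Prop :=
  ∀ a : BB, ∀ x, wt (vx V a.2).2 (vx U a.1).1 x = tt θ θ' a + ρ (s a) x

/-- The trilinear form attached to a pair of functionals. -/
def GG (S S' : Fn F b k) (φ ψ ξ : Fn F b k × Fn F b k) : F :=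
  S ⬝ᵥ (φ.1 * ψ.1 * ξ.1) + S' ⬝ᵥ (φ.2 * ψ.2 * ξ.2)

/-- Type (ii): the form vanishes when two arguments lie in `B`. -/
def Ty2 (A B : Fin 3 → Submodule F (Fn F b k × Fn F b k)) (S S' : Fn F b k) : Prop :=
  ∀ φ ∈ A 0, ∀ ψ ∈ A 1, ∀ ξ ∈ A 2,
    (ψ ∈ B 1 ∧ ξ ∈ B 2) ∨ (φ ∈ B 0 ∧ ξ ∈ B 2) ∨ (φ ∈ B 0 ∧ ψ ∈ B 1) → GG S S' φ ψ ξ = 0

/-- Type (iii): the form vanishes when one argument lies in `B`. -/
def Ty3 (A B : Fin 3 → Submodule F (Fn F b k × Fn F b k)) (S S' : Fn F b k) : Prop :=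
  ∀ φ ∈ A 0, ∀ ψ ∈ A 1, ∀ ξ ∈ A 2, φ ∈ B 0 ∨ ψ ∈ B 1 ∨ ξ ∈ B 2 → GG S S' φ ψ ξ = 0

/-- The tensor of a unit attached to a pair of functionals. -/
def ThU (U : Un F b k d N) (S S' : Fn F b k) : Tn F N := Th U.1.1 S + Th U.2.1 S'

/-- Phase of the extractor, one half. -/
def Ph (ρ : Zt F b k → Fn F b k) (s : BB → Zt F b k) (θ θ' : BB → Lb F n) (Sa : BB → Fn F b k)
    (U V : Un F b k d N) : F :=
  ∑ a : BB, Sa a ⬝ᵥ fun x => wt (vx V a.2).2 (vx U a.1).1 x + (tt θ θ' a + ρ (s a) x)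

end

/-! ### Correlation rounding (abstract) -/

/-- The conditional kernel of `Y` given the context and `W`. -/
noncomputable def cK {S O W Y : Type} [Fintype S] [Fintype Y] (c : S → O) (Wf : S → W)
    (Yf : S → Y) (o : O) (w : W) (y : Y) : ℝ :=
  if pr (fun σ => c σ = o ∧ Wf σ = w) = 0 then 1 / Fintype.card Y
  else pr (fun σ => c σ = o ∧ Wf σ = w ∧ Yf σ = y) / pr (fun σ => c σ = o ∧ Wf σ = w)

/-- One sided total variation distance between the ideal and the true law of four tokens. -/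
noncomputable def tv {S O Z W Y : Type} [Fintype S] [Fintype W] [Fintype Y] [DecidableEq W]
    [DecidableEq Y] (c : S → O)
    (Wf : Bool → Z → S → W) (Yf : Bool → Z → S → Y) (z : BB → Z) (σ : S) : ℝ :=
  ∑ x : BB → W × Y,
    max (∏ a, (cK c (Wf a.1 (z a)) (Yf a.1 (z a)) (c σ) (x a).1 (x a).2 / Fintype.card W) -
      cp c (fun σ' a => (Wf a.1 (z a) σ', Yf a.1 (z a) σ')) σ x) 0

end Vale.Agent.P060
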