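import Vale.Agent.P060.StA

/-! The energy increment lemma. -/

namespace Vale.Agent.P060

open Finset Vale.Agent.P015
open scoped BigOperators

namespace EI

variable {S T K : Type} [Fintype S] [Fintype T] [Fintype K]

/-- The mass of `v` on `E`. -/
noncomputable def ms (v : S → T → K → ℝ) (E : S → Prop) (t : T) (κ : K) : ℝ :=
  𝔼 σ, ind (E σ) * v σ t κ

/-- The energy. -/
noncomputable def en (v : S → T → K → ℝ) (E : S → Prop) : ℝ :=
  ∑ t, 𝔼 κ, (ms v E t κ / pr E) ^ 2

theorem en_nonneg (v : S → T → K → ℝ) (E : S → Prop) : 0 ≤ en v E :=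
  sum_nonneg fun _ _ => E_nonneg fun _ => sq_nonneg _

theorem en_le {v : S → T → K → ℝ} {B : ℝ} (hB : ∀ σ, ∑ t, 𝔼 κ, v σ t κ ^ 2 ≤ B) {E : S → Prop}
    (hE : 0 < pr E) : en v E ≤ B := by
  have h1 : ∀ t κ, (ms v E t κ / pr E) ^ 2 ≤ (𝔼 σ, ind (E σ) * v σ t κ ^ 2) / pr E := by
    intro t κ
    have h := expect_mul_sq_le_sq_mul_sq univ (fun σ => ind (E σ)) fun σ => ind (E σ) * v σ t κ
    have e1 : 𝔼 σ, ind (E σ) * (ind (E σ) * v σ t κ) = ms v E t κ :=
      E_congr fun σ => by rw [← mul_assoc, ind_mul_self]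
    have e2 : 𝔼 σ, ind (E σ) ^ 2 = pr E := E_congr fun σ => by rw [pow_two, ind_mul_self]
    have e3 : 𝔼 σ, (ind (E σ) * v σ t κ) ^ 2 = 𝔼 σ, ind (E σ) * v σ t κ ^ 2 :=
      E_congr fun σ => by rw [mul_pow, pow_two (ind _), ind_mul_self]
    rw [e1, e2, e3] at h
    rw [div_pow, div_le_div_iff₀ (by positivity) hE]
    nlinarith
  refine (sum_le_sum fun t _ => E_mono fun κ => h1 t κ).trans ?_
  have e : ∑ t, 𝔼 κ, (𝔼 σ, ind (E σ) * v σ t κ ^ 2) / pr E
      = (𝔼 σ, ind (E σ) * ∑ t, 𝔼 κ, v σ t κ ^ 2) / pr E := by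
    simp only [E_div, ← sum_div, mul_sum, E_sum]
    congr 1
    refine sum_congr rfl fun t _ => ?_
    rw [E_comm]
    exact E_congr fun σ => E_mul_left _ _
  rw [e, div_le_iff₀ hE, mul_comm, pr, ← E_mul_right]
  exact E_mono fun σ => mul_le_mul_of_nonneg_left (hB σ) (ind_nonneg _)

theorem log_part {a b : ℝ} (ha : 0 < a) (hb : 0 < b) :
    (a + b) * Real.log (a + b) - (a + b) ≤ a * Real.log a + b * Real.log b := by
  have h1 := Real.log_le_sub_one_of_pos (x := (a + b) / a) (by positivity)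
  have h2 := Real.log_le_sub_one_of_pos (x := (a + b) / b) (by positivity)
  rw [Real.log_div (by positivity) ha.ne'] at h1
  rw [Real.log_div (by positivity) hb.ne'] at h2
  have h3 := mul_le_mul_of_nonneg_left h1 ha.le
  have h4 := mul_le_mul_of_nonneg_left h2 hb.le
  have e1 : a * ((a + b) / a - 1) = b := by field_simp; ring
  have e2 : b * ((a + b) / b - 1) = a := by field_simp; ring
  nlinarith

theorem par {a b : ℝ} (ha : 0 < a) (hb : 0 < b) (x y : ℝ) :
    a * (x / a) ^ 2 + b * (y / b) ^ 2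
      = (a + b) * ((x + y) / (a + b)) ^ 2 + a * b / (a + b) * (x / a - y / b) ^ 2 := by
  field_simp
  ring

theorem gain {a b η G Q : ℝ} (ha : 0 < a) (hb : 0 < b) (hη : 0 < η)
    (h1 : η * (a + b) < 2 * (a * b / (a + b) * G)) (h2 : G ^ 2 ≤ Q) :
    η ^ 2 * (a + b) < a * b / (a + b) * Q := by
  set c := a * b / (a + b) with hc
  have hc0 : 0 < c := by positivity
  have h4 : 4 * c ≤ a + b := by
    rw [hc, ← mul_div_assoc, div_le_iff₀ (by positivity)]
    nlinarith [sq_nonneg (a - b)]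
  have h5 : (η * (a + b)) ^ 2 < (2 * (c * G)) ^ 2 :=
    pow_lt_pow_left₀ h1 (by positivity) two_ne_zero
  have h6 : (2 * (c * G)) ^ 2 ≤ 4 * c * (c * Q) := by
    have := mul_le_mul_of_nonneg_left h2 (sq_nonneg (2 * c))
    nlinarith
  by_contra hn
  have h7 := mul_le_mul h4 (not_lt.1 hn) (mul_nonneg hc0.le ((sq_nonneg G).trans h2))
    (by positivity)
  nlinarith

theorem split_en (v : S → T → K → ℝ) {E A B : S → Prop}
    (h : ∀ σ, ind (E σ) = ind (A σ) + ind (B σ)) (ha : 0 < pr A) (hb : 0 < pr B) (t : T) :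
    pr E * en v E + pr A * pr B / (pr A + pr B) * 𝔼 κ, (ms v A t κ / pr A - ms v B t κ / pr B) ^ 2
      ≤ pr A * en v A + pr B * en v B := by
  have e1 : pr E = pr A + pr B := by rw [pr, E_congr h, E_add]; rfl
  have e2 : ∀ t κ, ms v E t κ = ms v A t κ + ms v B t κ := fun t κ => by
    rw [ms, ms, ms, ← E_add]
    exact E_congr fun σ => by rw [h, add_mul]
  have e3 : pr A * en v A + pr B * en v B = pr E * en v E + ∑ t, pr A * pr B / (pr A + pr B) *
      𝔼 κ, (ms v A t κ / pr A - ms v B t κ / pr B) ^ 2 := by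
    simp only [en, mul_sum, ← sum_add_distrib, ← E_mul_left, ← E_add]
    refine sum_congr rfl fun t _ => E_congr fun κ => ?_
    rw [e1, e2, par ha hb]
  rw [e3]
  refine add_le_add le_rfl (single_le_sum (f := fun t => pr A * pr B / (pr A + pr B) *
    𝔼 κ, (ms v A t κ / pr A - ms v B t κ / pr B) ^ 2) (fun t _ => ?_) (mem_univ t))
  exact mul_nonneg (by positivity) (E_nonneg fun _ => sq_nonneg _)

omit [Fintype T] in
theorem mean_g (v : S → T → K → ℝ) (A : S → Prop) (t : T) (c e : K → ℝ) :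
    𝔼 σ, ind (A σ) * 𝔼 κ, (v σ t κ - c κ) * e κ = 𝔼 κ, (ms v A t κ - pr A * c κ) * e κ := by
  simp only [← E_mul_left]
  rw [E_comm]
  refine E_congr fun κ => ?_
  rw [ms, pr, ← E_mul_right, ← E_sub, ← E_mul_right]
  exact E_congr fun σ => by ring

theorem pos_of {A : S → Prop} {g : S → ℝ} (h : 𝔼 σ, ind (A σ) * g σ ≠ 0) : 0 < pr A := by
  by_contra hn
  refine h ((E_congr fun σ => ?_).trans (expect_const_zero _))
  rw [ind_neg fun hA => hn (pr_pos hA), zero_mul]

end EI

open EI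

theorem s_ei : S_EI := by
  classical
  intro S T K _ _ _ _ v E0 B η h0 h1 hE0 hB
  obtain ⟨E, ⟨hE, hP⟩, hmax⟩ := Set.exists_max_image
    {E : S → Prop | (∀ σ, E σ → E0 σ) ∧ 0 < pr E}
    (fun E => en v E + η ^ 2 * Real.log (pr E)) (Set.toFinite _)
    ⟨E0, fun _ h => h, by linarith⟩
  have hη : 0 < η ^ 2 := by positivity
  refine ⟨E, hE, ?_, fun t e he => ?_⟩
  · have a1 := hmax E0 ⟨fun _ h => h, by linarith⟩
    have a2 := en_nonneg v E0
    have a3 := en_le hB hP
    have a4 : Real.log (1 / 2) ≤ Real.log (pr E0) := Real.log_le_log (by norm_num) hE0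
    have a5 := Real.log_le_sub_one_of_pos (x := 2) two_pos
    rw [one_div, Real.log_inv] at a4
    have a6 : η ^ 2 ≤ 1 := pow_le_one₀ h0.le h1
    have a7 := mul_le_mul_of_nonneg_left (show -1 ≤ Real.log (pr E0) by linarith) hη.le
    rw [← Real.le_log_iff_exp_le hP, div_le_iff₀ hη]
    nlinarith
  · by_contra hn
    rw [not_le] at hn
    change η * pr E < 𝔼 σ, ind (E σ) * |𝔼 κ, (v σ t κ - ms v E t κ / pr E) * e κ| at hn
    set g : S → ℝ := fun σ => 𝔼 κ, (v σ t κ - ms v E t κ / pr E) * e κ with hg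
    set A : S → Prop := fun σ => E σ ∧ 0 < g σ with hA
    set C : S → Prop := fun σ => E σ ∧ ¬ 0 < g σ with hC
    have hs : ∀ σ, ind (E σ) = ind (A σ) + ind (C σ) := fun σ => by
      simp only [hA, hC, ind_and, ind_not]
      ring
    have e0 : 𝔼 σ, ind (E σ) * g σ = 0 := by
      rw [hg, mean_g]
      refine (E_congr fun κ => ?_).trans (expect_const_zero _)
      rw [mul_div_cancel₀ _ hP.ne', sub_self, zero_mul]
    have e1 : 𝔼 σ, ind (E σ) * g σ = (𝔼 σ, ind (A σ) * g σ) + 𝔼 σ, ind (C σ) * g σ := by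
      rw [← E_add]
      exact E_congr fun σ => by rw [hs, add_mul]
    have e2 : 𝔼 σ, ind (E σ) * |g σ| = (𝔼 σ, ind (A σ) * g σ) - 𝔼 σ, ind (C σ) * g σ := by
      rw [← E_sub]
      refine E_congr fun σ => ?_
      simp only [hA, hC, ind_and, ind_not]
      by_cases h : 0 < g σ
      · rw [ind_pos h, abs_of_pos h]
        ring
      · rw [ind_neg h, abs_of_nonpos (not_lt.1 h)]
        ring
    change η * pr E < 𝔼 σ, ind (E σ) * |g σ| at hn
    have hpos := mul_pos h0 hP
    have ha : 0 < pr A := pos_of (g := g) (by intro h; linarith)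
    have hb : 0 < pr C := pos_of (g := g) (by intro h; linarith)
    have eP : pr E = pr A + pr C := by rw [pr, E_congr hs, E_add]; rfl
    have em : ∀ κ, ms v E t κ = ms v A t κ + ms v C t κ := fun κ => by
      rw [ms, ms, ms, ← E_add]
      exact E_congr fun σ => by rw [hs, add_mul]
    have e3 : 𝔼 σ, ind (A σ) * g σ = pr A * pr C / (pr A + pr C) *
        𝔼 κ, (ms v A t κ / pr A - ms v C t κ / pr C) * e κ := by
      rw [hg, mean_g, ← E_mul_left]
      refine E_congr fun κ => ?_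
      rw [em, eP]
      field_simp
      ring
    have cs := expect_mul_sq_le_sq_mul_sq univ
      (fun κ => ms v A t κ / pr A - ms v C t κ / pr C) e
    have cs' := cs.trans (mul_le_of_le_one_right (E_nonneg fun _ => sq_nonneg _) he)
    have b1 := gain ha hb h0 (by rw [← e3, ← eP]; linarith) cs'
    have b2 := split_en v hs ha hb t
    have b3 := mul_le_mul_of_nonneg_left (log_part ha hb) hη.le
    have b4 := mul_le_mul_of_nonneg_left (hmax A ⟨fun σ h => hE σ h.1, ha⟩) ha.le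
    have b5 := mul_le_mul_of_nonneg_left (hmax C ⟨fun σ h => hE σ h.1, hb⟩) hb.le
    simp only [eP] at b2 b4 b5
    nlinarith

end Vale.Agent.P060
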