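import Vale.Agent.P060.StB

/-! The fourth moment estimate for restrictions to random affine subspaces. -/

namespace Vale.Agent.P060

open Finset Vale.Agent.P015
open scoped BigOperators

namespace EL

variable {F : Type} [Field F] [Fintype F] [DecidableEq F] {k N : ℕ}

omit [DecidableEq F] in
theorem sq_eq [CharP F 2] {χ : F → ℝ} (h : Chi χ) (f : (Fin (k + 1) → F) → ℝ) {l : F}
    (hl : l ≠ 0) (ζ : Fin (k + 1) → F) : (𝔼 u, f u * χ ((l • ζ) ⬝ᵥ u)) ^ 2 =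
      𝔼 v, (𝔼 u, f u * f (u + l⁻¹ • v)) * χ (ζ ⬝ᵥ v) := by
  simp only [← E_mul_right]
  rw [E_comm, sq, ← E_mul_right]
  refine E_congr fun u => ?_
  rw [← E_mul_left]
  symm
  refine Fintype.expect_equiv
    ((LinearEquiv.smulOfNeZero F (Fin (k + 1) → F) l⁻¹ (inv_ne_zero hl)).toEquiv.trans
      (Equiv.addLeft u)) _ _ fun v => ?_
  have e : ζ ⬝ᵥ v = (l • ζ) ⬝ᵥ u + (l • ζ) ⬝ᵥ (u + l⁻¹ • v) := by
    rw [dotProduct_add, ← add_assoc, CharTwo.add_self_eq_zero, zero_add, smul_dotProduct,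
      dotProduct_smul, smul_smul, mul_inv_cancel₀ hl, one_smul]
  change _ = f u * χ ((l • ζ) ⬝ᵥ u) * (f (u + l⁻¹ • v) * χ ((l • ζ) ⬝ᵥ (u + l⁻¹ • v)))
  rw [e, h.add]
  ring

theorem pars [CharP F 2] (hc : S_Chi) {χ : F → ℝ} (h : Chi χ) (A B : (Fin (k + 1) → F) → ℝ)
    (Λ : Fin (k + 1) → F) :
    ∑ ζ : Fin (k + 1) → F, (𝔼 v, A v * χ (ζ ⬝ᵥ v)) * (𝔼 w, B w * χ ((ζ + Λ) ⬝ᵥ w)) =
      𝔼 v, A v * B v * χ (Λ ⬝ᵥ v) := by
  have h1 := ((hc F).2 χ h).2.2 (Fin (k + 1))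
  have h0 : (Fintype.card (Fin (k + 1) → F) : ℝ) ≠ 0 := by positivity
  simp only [← E_mul_right]
  rw [← E_sum]
  refine E_congr fun v => ?_
  simp only [← E_mul_left _ fun w => B w * χ ((_ + Λ) ⬝ᵥ w)]
  rw [← E_sum]
  have e : ∀ w, ∑ ζ : Fin (k + 1) → F, A v * χ (ζ ⬝ᵥ v) * (B w * χ ((ζ + Λ) ⬝ᵥ w)) =
      Fintype.card (Fin (k + 1) → F) * (ind (v = w) * (A v * B w * χ (Λ ⬝ᵥ w))) := by
    intro w
    have e1 : (v = w) ↔ v + w = 0 := by
      simp only [CharTwo.add_eq_zero]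
    rw [ind_congr e1, ← h1, ← mul_assoc, Fintype.card_mul_expect, sum_mul]
    refine sum_congr rfl fun ζ _ => ?_
    rw [add_dotProduct, dotProduct_add, h.add, h.add]
    ring
  simp only [e]
  rw [E_mul_left, Fintype.card_mul_expect, sum_ind_eq (mem_univ v)]

/-- The linear part. -/
def ln (c : Co F k) (v : Fin (k + 1) → F) : F := ∑ i, c (some i) * v i

omit [Fintype F] [DecidableEq F] in
theorem ev_add (c : Co F k) (u v : Fin (k + 1) → F) : ev c (u + v) = ev c u + ln c v := by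
  simp only [ev, ln, Pi.add_apply, mul_add, sum_add_distrib, add_assoc]

omit [Fintype F] [DecidableEq F] in
theorem ln_smul (c : Co F k) (a : F) (v : Fin (k + 1) → F) : ln c (a • v) = a * ln c v := by
  simp only [ln, Pi.smul_apply, smul_eq_mul, mul_sum, mul_left_comm]

/-- The three values. -/
def LL (N : ℕ) (u v w : Fin (k + 1) → F) :
    (Fin N → Co F k) →ₗ[F] (Fin N → F) × (Fin N → F) × (Fin N → F) where
  toFun R := (fun i => ev (R i) u, fun i => ln (R i) v, fun i => ln (R i) w)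
  map_add' R R' := by
    ext i <;> simp only [ev, ln, Pi.add_apply, add_mul, sum_add_distrib, Prod.mk_add_mk]
    ring
  map_smul' a R := by
    ext i <;> simp only [ev, ln, Pi.smul_apply, smul_eq_mul, RingHom.id_apply, Prod.smul_mk,
      mul_add, mul_sum, mul_assoc]

omit [Fintype F] [DecidableEq F] in
theorem duals {v w : Fin (k + 1) → F} (hv : v ≠ 0) (hw : ∀ a : F, w ≠ a • v) :
    ∃ α β : Fin (k + 1) → F, α ⬝ᵥ v = 1 ∧ α ⬝ᵥ w = 0 ∧ β ⬝ᵥ v = 0 ∧ β ⬝ᵥ w = 1 := by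
  obtain ⟨i, hi⟩ := Function.ne_iff.1 hv
  obtain ⟨j, hj⟩ := Function.ne_iff.1 (hw (w i / v i))
  have hi' : v i ≠ 0 := hi
  have hj' : w j * v i - w i * v j ≠ 0 := fun h => hj (by
    simp only [Pi.smul_apply, smul_eq_mul]
    field_simp
    linear_combination h)
  refine ⟨(w j * v i - w i * v j)⁻¹ • (w j • Pi.single i 1 - w i • Pi.single j 1),
    (w j * v i - w i * v j)⁻¹ • (v i • Pi.single j 1 - v j • Pi.single i 1), ?_, ?_, ?_, ?_⟩ <;>
    simp only [smul_dotProduct, sub_dotProduct, single_dotProduct, smul_eq_mul, one_mul]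
  · exact inv_mul_cancel₀ hj'
  · ring
  · ring
  · rw [mul_comm (v i), mul_comm (v j)]
    exact inv_mul_cancel₀ hj'

omit [Fintype F] [DecidableEq F] in
theorem surj (u : Fin (k + 1) → F) {v w : Fin (k + 1) → F} (hv : v ≠ 0) (hw : ∀ a : F, w ≠ a • v) :
    Function.Surjective (LL N u v w) := by
  obtain ⟨α, β, h1, h2, h3, h4⟩ := duals hv hw
  rintro ⟨a, b, e⟩
  have key : ∀ (x y z : F) (t : Fin (k + 1) → F),
      ln (fun o => o.elim z (x • α + y • β)) t = x * (α ⬝ᵥ t) + y * (β ⬝ᵥ t) := by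
    intro x y z t
    change (x • α + y • β) ⬝ᵥ t = _
    simp only [add_dotProduct, smul_dotProduct, smul_eq_mul]
  refine ⟨fun i o => o.elim (a i - (b i * (α ⬝ᵥ u) + e i * (β ⬝ᵥ u))) (b i • α + e i • β), ?_⟩
  refine Prod.ext (funext fun i => ?_) (Prod.ext (funext fun i => ?_) (funext fun i => ?_))
  · exact (congrArg (a i - (b i * (α ⬝ᵥ u) + e i * (β ⬝ᵥ u)) + ·) (key _ _ 0 u)).trans
      (sub_add_cancel _ _)
  · refine (key _ _ _ v).trans ?_
    simp only [h1, h3, mul_one, mul_zero, add_zero]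
  · refine (key _ _ _ w).trans ?_
    simp only [h2, h4, mul_one, mul_zero, zero_add]

theorem E_ind_eq {V : Type} [Fintype V] (a : V) :
    𝔼 v, ind (a = v) = 1 / (Fintype.card V : ℝ) := by
  have h := sum_ind_eq (mem_univ a) fun _ => (1 : ℝ)
  simp only [mul_one] at h
  rw [E_eq, h]

theorem bad_le : 𝔼 v : Fin (k + 1) → F, 𝔼 u : Fin (k + 1) → F, 𝔼 u' : Fin (k + 1) → F,
    2 * ind (v = 0 ∨ ∃ a : F, u' - u = a • v) ≤ 3 / qq F ^ k := by
  have h1 : ∀ v u u' : Fin (k + 1) → F, ind (v = 0 ∨ ∃ a : F, u' - u = a • v) ≤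
      ind (0 = v) + ∑ a : F, ind (u + a • v = u') := by
    intro v u u'
    refine (ind_or_le _ _).trans (add_le_add (ind_mono Eq.symm)
      (le_trans (ind_mono ?_) (ind_exists_le univ _)))
    rintro ⟨a, ha⟩
    exact ⟨a, mem_univ _, by rw [← ha, add_sub_cancel]⟩
  refine (E_mono fun v => E_mono fun u => E_mono fun u' =>
    mul_le_mul_of_nonneg_left (h1 v u u') zero_le_two).trans ?_
  have h2 : (2 : ℝ) ≤ qq F := by exact_mod_cast Fintype.one_lt_card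
  simp only [E_mul_left, E_add, E_sum, E_ind_eq, E_const, sum_const, card_univ, nsmul_eq_mul,
    Fintype.card_fun, Fintype.card_fin, Nat.cast_pow]
  change 2 * (1 / qq F ^ (k + 1) + qq F * (1 / qq F ^ (k + 1))) ≤ _
  rw [pow_succ]
  have h3 : 0 < qq F ^ k := by positivity
  field_simp
  linarith

theorem abs_E_le {Ω : Type} [Fintype Ω] [Nonempty Ω] {f : Ω → ℝ} (h : ∀ ω, |f ω| ≤ 1) :
    |𝔼 ω, f ω| ≤ 1 :=
  abs_le.2 ⟨le_E fun ω => (abs_le.1 (h ω)).1, E_le fun ω => (abs_le.1 (h ω)).2⟩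

theorem abs_mul_le {x y : ℝ} (hx : |x| ≤ 1) (hy : |y| ≤ 1) : |x * y| ≤ 1 := by
  rw [abs_mul]
  exact mul_le_one₀ hx (abs_nonneg _) hy

end EL

open EL in
theorem s_el (hc : S_Chi) (hl : S_Lin) : S_EL := by
  intro F _ _ _ _ χ h k N g g' l l' Λ hg hg' h1 h2
  obtain ⟨Φ, hΦ⟩ : ∃ Φ : (Fin N → F) × (Fin N → F) × (Fin N → F) → ℝ, ∀ x, Φ x =
      g x.1 * g (x.1 + l⁻¹ • x.2.1) * (g' (x.1 + x.2.2) * g' (x.1 + x.2.2 + l'⁻¹ • x.2.1)) :=
    ⟨_, fun _ => rfl⟩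
  have hΦ1 : ∀ x, |Φ x| ≤ 1 := fun x => by
    rw [hΦ]
    exact abs_mul_le (abs_mul_le (hg _) (hg _)) (abs_mul_le (hg' _) (hg' _))
  have hχ : ∀ a, |χ a| ≤ 1 := fun a => by
    rcases ((hc F).2 χ h).1 a with e | e <;> simp [e]
  have e : 𝔼 R : Fin N → Co F k, ∑ ζ, fh χ g R (l • ζ) ^ 2 * fh χ g' R (l' • (ζ + Λ)) ^ 2 =
      𝔼 v, 𝔼 u, 𝔼 u', (𝔼 R, Φ (LL N u v (u' - u) R)) * χ (Λ ⬝ᵥ v) := by
    simp only [fh, sq_eq h _ h1, sq_eq h _ h2, pars hc h]
    rw [E_comm]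
    refine E_congr fun v => ?_
    simp only [E_mul_right]
    congr 1
    simp only [← E_mul_right]
    rw [E_comm]
    refine E_congr fun u => ?_
    simp only [← E_mul_left]
    rw [E_comm]
    refine E_congr fun u' => E_congr fun R => ?_
    have e1 : ∀ i, ev (R i) u' = ev (R i) u + ln (R i) (u' - u) := fun i => by
      rw [← ev_add, add_sub_cancel]
    simp only [hΦ, ev_add, ln_smul, e1]
    rfl
  have h3 : 0 ≤ 3 / qq F ^ k := by positivity
  rw [e]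
  by_cases hΛ : Λ = 0
  · rw [ind_pos hΛ]
    refine le_trans (E_le fun v => E_le fun u => E_le fun u' => ?_) (le_add_of_nonneg_right h3)
    exact (abs_le.1 (abs_mul_le (abs_E_le fun R => hΦ1 _) (hχ _))).2
  · have h4 : 𝔼 v : Fin (k + 1) → F, χ (Λ ⬝ᵥ v) = 0 := by
      simp only [dotProduct_comm Λ]
      rw [((hc F).2 χ h).2.2, ind_neg hΛ]
    have h5 : ∀ v u u' : Fin (k + 1) → F, (𝔼 R, Φ (LL N u v (u' - u) R)) * χ (Λ ⬝ᵥ v) ≤
        (𝔼 x, Φ x) * χ (Λ ⬝ᵥ v) + 2 * ind (v = 0 ∨ ∃ a : F, u' - u = a • v) := by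
      intro v u u'
      by_cases hb : v = 0 ∨ ∃ a : F, u' - u = a • v
      · have h6 := abs_le.1 (abs_mul_le (abs_E_le fun R => hΦ1 (LL N u v (u' - u) R))
          (hχ (Λ ⬝ᵥ v)))
        have h7 := abs_le.1 (abs_mul_le (abs_E_le hΦ1) (hχ (Λ ⬝ᵥ v)))
        rw [ind_pos hb]
        linarith
      · rw [ind_neg hb, (hl F).1 _ _ _ (surj u (fun h => hb (Or.inl h))
          fun a ha => hb (Or.inr ⟨a, ha⟩)) Φ]
        linarith
    refine (E_mono fun v => E_mono fun u => E_mono fun u' => h5 v u u').trans ?_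
    simp only [E_add, E_const]
    rw [E_mul_left, h4, ind_neg hΛ, mul_zero]
    exact add_le_add_right bad_le _

end Vale.Agent.P060
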