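import Vale.Agent.P060.StC

/-! The extractor: two nice pieces satisfy the eight equations with substantial probability. -/

namespace Vale.Agent.P060

open Finset Vale.Agent.P015
open scoped BigOperators

namespace Ext

variable {F : Type} [Field F] [Fintype F] [DecidableEq F] {b k d N n : ℕ}

theorem ind_eqs [CharP F 2] (hc : S_Chi) {χ : F → ℝ} (h : Chi χ) (ρ : Zt F b k → Fn F b k)
    (s : BB → Zt F b k) (θ θ' : BB → Lb F n) (U V : Un F b k d N) :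
    ind (Eqs ρ s θ θ' U V) = 𝔼 Sa : BB → Fn F b k, χ (Ph ρ s θ θ' Sa U V) := by
  have h1 := ((hc F).2 χ h).2.2 (BB × Zt F b k)
    fun x => wt (vx V x.1.2).2 (vx U x.1.1).1 x.2 + (tt θ θ' x.1 + ρ (s x.1) x.2)
  refine Eq.trans (ind_congr ?_) (h1.symm.trans ?_)
  · simp only [Eqs, funext_iff, Pi.zero_apply, CharTwo.add_eq_zero, Prod.forall]
  · refine Fintype.expect_equiv (Equiv.curry _ _ _) _ _ fun ξ => ?_
    simp only [Ph, dotProduct, Fintype.sum_prod_type (α₁ := BB)]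
    rfl

/-- The functional kills the code. -/
def Kill (d : ℕ) (T : Fn F b k) : Prop := ∀ φ ∈ Cd F b k d, T ⬝ᵥ φ = 0

omit [DecidableEq F] in
theorem ker_ge (hl : S_Lin) {V : Type} [AddCommGroup V] [Module F V] [Fintype V] {r : ℕ}
    (L : V →ₗ[F] Fin r → F) : 1 / qq F ^ r ≤ pr fun v => L v = 0 := by
  have : Fintype (LinearMap.range L) := Fintype.ofFinite _
  have h1 := ((hl F).1 V _ L.rangeRestrict L.surjective_rangeRestrict).pr_eq fun w => 0 = w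
  have h2 := sum_ind_eq (mem_univ (0 : LinearMap.range L)) fun _ => (1 : ℝ)
  have h3 : (Fintype.card (LinearMap.range L) : ℝ) ≤ qq F ^ r := by
    have := Fintype.card_le_of_injective _ (LinearMap.range L).injective_subtype
    rw [Fintype.card_fun, Fintype.card_fin] at this
    exact_mod_cast this
  simp only [mul_one] at h2
  refine le_trans ?_ (pr_mono (A := fun v => 0 = L.rangeRestrict v) fun v hv =>
    (congrArg Subtype.val hv).symm)
  rw [h1, pr, E_eq, h2]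
  exact one_div_le_one_div_of_le (by positivity) h3

theorem kill_ge (hd : S_Dim) (hl : S_Lin) :
    1 / qq F ^ n3 b k d ≤ pr fun T : Fn F b k => Kill d T := by
  have e := Module.finBasis F (Cd F b k d)
  have h1 := ker_ge hl (LinearMap.pi fun i => (dotProductBilin F F).flip (e i : Fn F b k))
  have h2 : (1 : ℝ) ≤ qq F := by exact_mod_cast Fintype.card_pos
  refine le_trans (one_div_le_one_div_of_le (by positivity)
    (pow_le_pow_right₀ h2 ((hd F b k).2.2.2.2 d))) (h1.trans (pr_mono fun T hT φ hφ => ?_))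
  have h3 : (dotProductBilin F F T).comp (Cd F b k d).subtype = 0 :=
    e.ext fun i => congrFun hT i
  exact LinearMap.congr_fun h3 ⟨φ, hφ⟩

theorem kill4_ge (hd : S_Dim) (hl : S_Lin) :
    (1 / qq F ^ n3 b k d) ^ 4 ≤ 𝔼 Sa : BB → Fn F b k, ∏ a, ind (Kill d (Sa a)) := by
  rw [E_pi fun _ (T : Fn F b k) => ind (Kill d T), prod_const, card_univ]
  exact pow_le_pow_left₀ (by positivity) (kill_ge hd hl) 4

theorem ph_kill (ha : S_Aff) {j : ℕ} {δ : ℝ} {ρ : Zt F b k → Fn F b k} (hρ : RhoOK d j δ ρ)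
    (s : BB → Zt F b k) (θ θ' : BB → Lb F n) {Sa : BB → Fn F b k} (h : ∀ a, Kill d (Sa a))
    (U V : Un F b k d N) : Ph ρ s θ θ' Sa U V = 0 := by
  obtain ⟨-, -, -, -, -, -, -, -, h1, -, -, h2, -⟩ := ha F b k
  refine sum_eq_zero fun a _ => h a _ ?_
  have h3 := add_mem (h2 d N (vx U a.1).1 (vx V a.2).2) (add_mem ((Cd F b k d).smul_mem
    (tt θ θ' a) ((h1 d).1 (Submodule.subset_span (Set.mem_insert _ _)))) (hρ.mem (s a)))
  convert h3 using 1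
  funext x
  simp only [Pi.add_apply, Pi.smul_apply, Pi.one_apply, smul_eq_mul, mul_one]

theorem ph_ty3 [CharP F 2] (h3 : S_XA3) (hk : S_XK) (hp : S_XPh) {j j1 : ℕ} {δ : ℝ}
    {ρ : Zt F b k → Fn F b k} {τ : Ty F b k n} {S : Type} [Fintype S] {u : S → Un F b k d N}
    {s s' : BB → Zt F b k} {κ : BB → Ky F N} {θ θ' : BB → Lb F n} {v v' : Bool → F}
    {B : Fin 3 → Submodule F (Fn F b k × Fn F b k)} {e1 e2 Lp Ls : ℝ} (hρ : RhoOK d j δ ρ)
    (hd : 1 ≤ d) (H : Nice ρ τ u s κ θ B j1 e1 e2 Lp Ls) (h1 : Half (alf τ) θ θ' v')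
    (h2 : Half (alf τ) θ' θ v) (hm : Mat ρ s v) {Sa : BB → Fn F b k} {σ0 : S}
    (hT : ∀ p, Ty3 (AU (u σ0)) B (Sa (false, p)) (Sa (true, p))) (σ : S) {V : Un F b k d N}
    (hV : kys V s' = fun a => κ a.swap) (hV' : lbs ρ τ V s' = θ') :
    Ph ρ s θ θ' Sa (u σ) V = 0 := by
  have e : AU (u σ) = AU (u σ0) :=
    funext fun m => (hk F b k d N n ρ τ S u s κ θ B j1 e1 e2 Lp Ls H σ0 m).1 σ
  have h4 := hp F b k d N j n δ ρ τ (u σ) V s s' v v' Sa hρ (H.ty σ)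
  rw [H.key, H.lbl, hV, hV'] at h4
  exact h4 (fun _ => rfl) h1 h2 hm fun p =>
    h3 F b k d N n ρ τ S u s κ θ B j1 e1 e2 Lp Ls H hd σ _ _ (e ▸ hT p)

end Ext

open Ext in
theorem s_ext (hc : S_Chi) (hd : S_Dim) (ha : S_Aff) (hl : S_Lin) (h3 : S_XA3) (hk : S_XK)
    (hp : S_XPh) (ht : S_XT) : S_Ext := by
  intro F _ _ _ _ b k d N j n δ ρ τ S S' _ _ _ _ u u' s s' κ θ θ' v v' B B' j1 m e1 e2 Lp Ls err
    hρ hd1 H H' hm he n1 n2 f1 f2 m1 m2
  obtain ⟨χ, h⟩ := (hc F).1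
  obtain ⟨σ0⟩ := ‹Nonempty S›
  obtain ⟨σ0'⟩ := ‹Nonempty S'›
  have e : pr (fun p : S × S' => Eqs ρ s θ θ' (u p.1) (u' p.2) ∧ Eqs ρ s' θ' θ (u' p.2) (u p.1)) =
      𝔼 Sa : BB → Fn F b k, 𝔼 Sa' : BB → Fn F b k, 𝔼 σ', 𝔼 σ,
        χ (Ph ρ s θ θ' Sa (u σ) (u' σ') + Ph ρ s' θ' θ Sa' (u' σ') (u σ)) := by
    simp only [pr, ind_and, ind_eqs hc h, ← E_mul_right]
    rw [E_comm]
    refine E_congr fun Sa => ?_
    simp only [← E_mul_left _ fun Sa' => χ (Ph ρ s' θ' θ Sa' _ _)]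
    rw [E_comm]
    refine E_congr fun Sa' => ?_
    rw [E_prod, E_comm]
    simp only [h.add]
  have one : ∀ Sa Sa' : BB → Fn F b k, (∀ σ σ', Ph ρ s θ θ' Sa (u σ) (u' σ') = 0 ∧
      Ph ρ s' θ' θ Sa' (u' σ') (u σ) = 0) → 𝔼 σ', 𝔼 σ,
        χ (Ph ρ s θ θ' Sa (u σ) (u' σ') + Ph ρ s' θ' θ Sa' (u' σ') (u σ)) = 1 := by
    intro Sa Sa' h0
    simp only [(h0 _ _).1, (h0 _ _).2, add_zero, h.zero, E_const]
  have low : ∀ Sa Sa' : BB → Fn F b k, -err ≤ 𝔼 σ', 𝔼 σ,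
      χ (Ph ρ s θ θ' Sa (u σ) (u' σ') + Ph ρ s' θ' θ Sa' (u' σ') (u σ)) := by
    intro Sa Sa'
    have a1 := fun p hp' => (abs_le.1 (ht F χ h b k d N n ρ τ S S' u u' s s' κ θ θ' B B' j1 m
      e1 e2 Lp Ls err Sa Sa' σ0 p H H' hm he n1 n2 hp')).1
    have a2 := fun p hp' => (abs_le.1 (ht F χ h b k d N n ρ τ S' S u' u s' s (fun a => κ a.swap)
      θ' θ B' B j1 m e1 e2 Lp Ls err Sa' Sa σ0' p H' H hm he n1 n2 hp')).1
    rw [E_comm] at a2
    simp only [add_comm (Ph ρ s' θ' θ Sa' _ _)] at a2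
    by_contra hn
    have b1 : ∀ p, Ty2 (AU (u σ0)) B (Sa (false, p)) (Sa (true, p)) := fun p =>
      by_contra fun hp' => hn (a1 p (Or.inl hp'))
    have b2 : ∀ p, Ty2 (AU (u' σ0')) B' (Sa' (false, p)) (Sa' (true, p)) := fun p =>
      by_contra fun hp' => hn (a2 p (Or.inl hp'))
    have c1 : ∀ p, Ty3 (AU (u σ0)) B (Sa (false, p)) (Sa (true, p)) := fun p =>
      by_contra fun hp' => hn (a1 p (Or.inr ⟨b1, hp'⟩))
    have c2 : ∀ p, Ty3 (AU (u' σ0')) B' (Sa' (false, p)) (Sa' (true, p)) := fun p =>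
      by_contra fun hp' => hn (a2 p (Or.inr ⟨b2, hp'⟩))
    rw [one Sa Sa' fun σ σ' => ⟨ph_ty3 h3 hk hp hρ hd1 H f1 f2 m1 c1 σ (H'.key σ') (H'.lbl σ'),
      ph_ty3 h3 hk hp hρ hd1 H' f2 f1 m2 c2 σ' (H.key σ) (H.lbl σ)⟩] at hn
    exact hn (by linarith)
  have key : ∀ Sa Sa' : BB → Fn F b k,
      (∏ a, ind (Kill d (Sa a))) * (∏ a, ind (Kill d (Sa' a))) - err ≤ 𝔼 σ', 𝔼 σ,
        χ (Ph ρ s θ θ' Sa (u σ) (u' σ') + Ph ρ s' θ' θ Sa' (u' σ') (u σ)) := by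
    intro Sa Sa'
    by_cases k1 : ∀ a, Kill d (Sa a)
    · by_cases k2 : ∀ a, Kill d (Sa' a)
      · rw [one Sa Sa' fun σ σ' => ⟨ph_kill ha hρ _ _ _ k1 _ _, ph_kill ha hρ _ _ _ k2 _ _⟩]
        simp only [ind_pos (k1 _), ind_pos (k2 _), prod_const_one]
        linarith
      · obtain ⟨a, ha'⟩ := not_forall.1 k2
        rw [prod_eq_zero (f := fun a => ind (Kill d (Sa' a))) (mem_univ a) (ind_neg ha'), mul_zero,
          zero_sub]
        exact low Sa Sa'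
    · obtain ⟨a, ha'⟩ := not_forall.1 k1
      rw [prod_eq_zero (mem_univ a) (ind_neg ha'), zero_mul, zero_sub]
      exact low Sa Sa'
  rw [e]
  refine le_trans ?_ (E_mono fun Sa => E_mono fun Sa' => key Sa Sa')
  simp only [E_sub, E_const, E_mul_left, E_mul_right]
  have h4 := kill4_ge (F := F) (b := b) (k := k) (d := d) hd hl
  refine sub_le_sub_right (le_trans (le_of_eq ?_)
    (mul_le_mul h4 h4 (by positivity) (le_trans (by positivity) h4))) _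
  rw [← pow_add, one_div_pow, ← pow_mul, mul_comm]

end Vale.Agent.P060
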