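import Vale.Agent.P060.StC

/-! From the true count to the probability of a conflict. -/

namespace Vale.Agent.P060

open Finset Vale.Agent.P015
open scoped BigOperators

namespace FinAux

theorem pr_inj {T T' : Type} [Fintype T] [Fintype T'] [Nonempty T] {ι : T → T'}
    (hι : Function.Injective ι) (A : T' → Prop) :
    (Fintype.card T : ℝ) / Fintype.card T' * pr (fun x => A (ι x)) ≤ pr A := by
  classical
  have h0 : (Fintype.card T : ℝ) ≠ 0 := Nat.cast_ne_zero.2 Fintype.card_ne_zero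
  have h1 : ∑ x, ind (A (ι x)) ≤ ∑ y, ind (A y) := by
    rw [← sum_image (s := univ) (g := ι) (f := fun y => ind (A y)) fun _ _ _ _ h => hι h]
    exact sum_le_sum_of_subset_of_nonneg (subset_univ _) fun _ _ _ => ind_nonneg _
  rw [pr, pr, E_eq, E_eq, div_mul_div_comm, mul_comm (Fintype.card T' : ℝ), mul_div_mul_left _ _ h0]
  exact div_le_div_of_nonneg_right h1 (Nat.cast_nonneg _)

theorem pr_sum {T K : Type} [Fintype T] [Fintype K] (X : T → K) (A : T → Prop) :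
    ∑ κ, pr (fun x => X x = κ ∧ A x) = pr A := by
  unfold pr
  rw [← E_sum]
  refine E_congr fun x => ?_
  simp only [ind_and]
  exact sum_ind_eq (mem_univ _) fun _ => ind (A x)

variable {F : Type} [Field F] [Fintype F] [DecidableEq F] {b k d N n : ℕ}

theorem fr_hk (X : Fr F b k d N) (m : Fin 3) (i : Ix N) (s : Zt F b k) :
    fr X m i s = hk (ky X s) m i := by
  cases i <;> rfl

theorem th_single (X : Fr F b k d N) (s : Zt F b k) (ι : Ix N × Ix N × Ix N) :
    Th X (Pi.single s 1) ι = hk (ky X s) 0 ι.1 * hk (ky X s) 1 ι.2.1 * hk (ky X s) 2 ι.2.2 := by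
  rw [Th, single_dotProduct, one_mul, Pi.mul_apply, Pi.mul_apply, fr_hk, fr_hk, fr_hk]

theorem ts_single (ρ : Zt F b k → Fn F b k) (s x : Zt F b k) :
    TS ρ (Pi.single s 1) x = ρ s x := by
  rw [TS, single_dotProduct, one_mul]

theorem hole {ρ : Zt F b k → Fn F b k} {Sg : F → Prop} {U V : Un F b k d N}
    {s s' : BB → Zt F b k} {κ : BB → Ky F N} {t t' : BB → Lb F n} (h1 : kys U s = κ)
    (h2 : kys V s' = fun a => κ a.swap) (e1 : Eqs ρ s t t' U V) (e2 : Eqs ρ s' t' t V U)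
    (hS : ∀ a, Sg (tt t t' a + tt t' t a.swap)) (r p : Bool) : Hole ρ Sg (vx U r) (vx V p) := by
  have k1 : ky (vx U r).1 (s (r, p)) = κ (r, p) := congrFun h1 (r, p)
  have k2 : ky (vx V p).1 (s' (p, r)) = κ (r, p) := congrFun h2 (p, r)
  refine ⟨Pi.single (s (r, p)) 1, Pi.single (s' (p, r)) 1, tt t t' (r, p), tt t' t (p, r),
    funext fun ι => ?_, ?_, fun x => ?_, fun x => ?_, hS (r, p)⟩
  · rw [th_single, th_single, k1, k2]
  · rw [single_dotProduct, one_mul, Pi.one_apply]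
  · rw [ts_single]
    exact e1 (r, p) x
  · rw [ts_single]
    exact e2 (p, r) x

theorem heavy {ρ : Zt F b k → Fn F b k} {τ : Ty F b k n} {S : Type} [Fintype S]
    (u : S → Un F b k d N) (E : ℝ) (s : BB → Zt F b k) (κ : BB → Ky F N) (t : BB → Lb F n) :
    pr (fun σ => Gd ρ τ u E s σ ∧ kys (u σ) s = κ ∧ lbs ρ τ (u σ) s = t) = 0 ∨
      (1 / (E * (Fintype.card (Ky F N) : ℝ) ^ 4) ≤ pr (Cell ρ τ u E s κ t) ∧
        pr (fun σ => Gd ρ τ u E s σ ∧ kys (u σ) s = κ ∧ lbs ρ τ (u σ) s = t) ≤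
          pr (Cell ρ τ u E s κ t)) := by
  by_cases h : ∃ σ, Gd ρ τ u E s σ ∧ kys (u σ) s = κ ∧ lbs ρ τ (u σ) s = t
  · obtain ⟨σ, h1, rfl, rfl⟩ := h
    exact Or.inr ⟨h1.2, pr_mono fun σ' h' => ⟨h'.1.1, h'.2⟩⟩
  · left
    unfold pr
    simp only [fun σ => ind_neg (fun h' => h ⟨σ, h'⟩), expect_const_zero]

end FinAux

open FinAux in
theorem s_fin (hp : S_PC) (he : S_Ext) : S_Fin := by
  intro F _ _ _ _ b k d N j n m δ Λ M E err ρ Sg τ S _ _ u t t' v v' hρ hd hs hE h1 h2 h3 h4 hm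
    herr h5 h6 h7 ha
  have hq : (0 : ℝ) < qq F := Nat.cast_pos.2 Fintype.card_pos
  have hD : 0 < 8 * E ^ 176 * qq F ^ (8 * n3 b k d) := by positivity
  have hE0 : 0 < 2 * E ^ 88 := by positivity
  have key : ∀ s s' : BB → Zt F b k, Mat ρ s v → Mat ρ s' v' → ∀ κ : BB → Ky F N,
      pr (fun σ => Gd ρ τ u E s σ ∧ kys (u σ) s = κ ∧ lbs ρ τ (u σ) s = t) *
        pr (fun σ => Gd ρ τ u E s' σ ∧ kys (u σ) s' = (fun a => κ a.swap) ∧
          lbs ρ τ (u σ) s' = t') ≤
      pr (fun p : S × S => kys (u p.1) s = κ ∧ Conf (Hole ρ Sg) (u p.1) (u p.2)) *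
        (8 * E ^ 176 * qq F ^ (8 * n3 b k d)) := by
    intro s s' m1 m2 κ
    have hR := mul_nonneg (pr_nonneg
      (fun p : S × S => kys (u p.1) s = κ ∧ Conf (Hole ρ Sg) (u p.1) (u p.2))) hD.le
    rcases heavy (ρ := ρ) (τ := τ) u E s κ t with z | ⟨a1, a2⟩
    · rwa [z, zero_mul]
    rcases heavy (ρ := ρ) (τ := τ) u E s' (fun a => κ a.swap) t' with z | ⟨b1, b2⟩
    · rwa [z, mul_zero]
    obtain ⟨S1, _, _, ι, B, hι, c1, n1⟩ :=
      hp F b k d N j n Λ M E ρ τ S u s κ t hs hE h1 h2 h3 h4 a1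
    obtain ⟨S2, _, _, ι', B', hι', c2, n2⟩ :=
      hp F b k d N j n Λ M E ρ τ S u s' _ t' hs hE h1 h2 h3 h4 b1
    have e1 := he F b k d N j n δ ρ τ S1 S2 _ _ s s' κ t t' v v' B B' 88 m _ _ _ _ err hρ hd n1 n2
      hm herr h5 h6 ha.2.1 ha.2.2 m1 m2
    have e2 := pr_inj (hι.prodMap hι')
      (fun p : S × S => kys (u p.1) s = κ ∧ Conf (Hole ρ Sg) (u p.1) (u p.2))
    have e3 : 1 / (2 * qq F ^ (8 * n3 b k d)) ≤ pr (fun x : S1 × S2 =>
        kys (u (Prod.map ι ι' x).1) s = κ ∧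
          Conf (Hole ρ Sg) (u (Prod.map ι ι' x).1) (u (Prod.map ι ι' x).2)) := by
      refine le_trans ?_ (e1.trans (pr_mono fun x hx => ?_))
      · rw [one_div, mul_inv, ← one_div (qq F ^ _)]
        linarith
      · have g := hole (n1.key x.1) (n2.key x.2) hx.1 hx.2 ha.1
        exact ⟨n1.key x.1, g false false, g false true, g true false, g true true⟩
    rw [Fintype.card_prod, Fintype.card_prod, Nat.cast_mul, Nat.cast_mul, ← div_mul_div_comm] at e2
    have c1' := (div_le_div_of_nonneg_right a2 hE0.le).trans c1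
    have c2' := (div_le_div_of_nonneg_right b2 hE0.le).trans c2
    have e4 := mul_le_mul (mul_le_mul c1' c2' (div_nonneg (pr_nonneg _) hE0.le) (by positivity))
      e3 (by positivity) (by positivity)
    rw [← div_le_iff₀ hD]
    refine le_trans (le_of_eq ?_) (e4.trans e2)
    field_simp
    ring
  rw [div_le_iff₀ hD]
  have hR := mul_nonneg (pr_nonneg fun p : S × S => Conf (Hole ρ Sg) (u p.1) (u p.2)) hD.le
  refine E_le fun s => E_le fun s' => ?_
  by_cases m1 : Mat ρ s v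
  · by_cases m2 : Mat ρ s' v'
    · rw [ind_pos m1, ind_pos m2, one_mul, one_mul,
        ← pr_sum (fun p : S × S => kys (u p.1) s), sum_mul]
      exact sum_le_sum fun κ _ => key s s' m1 m2 κ
    · rwa [ind_neg m2, mul_zero, zero_mul]
  · rwa [ind_neg m1, zero_mul, zero_mul]

end Vale.Agent.P060
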