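import Vale.Agent.P060.StB

namespace Vale.Agent.P060

open Finset Vale.Agent.P015
open scoped BigOperators

namespace Four

variable {F : Type} [Field F] [Fintype F] [DecidableEq F] {b k : ℕ} {lm : ℝ}
  {ρ : Zt F b k → Fn F b k}

theorem lm_nonneg (h : CutOK ρ lm) : 0 ≤ lm :=
  (abs_nonneg _).trans (h (fun _ => 0) (fun _ => 0) 0 (fun _ => by simp) fun _ => by simp)

theorem q_one : (1 : ℝ) ≤ qq F := by exact_mod_cast Fintype.card_pos

theorem one (h : CutOK ρ lm) (f g : Zt F b k → ℝ) (v : F) (hf : ∀ s, 0 ≤ f s ∧ f s ≤ 1)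
    (hg : ∀ s, 0 ≤ g s ∧ g s ≤ 1) :
    (𝔼 s, f s) * (𝔼 s, g s) / qq F - lm ≤ 𝔼 s, 𝔼 s', ind (ρ s s' = v) * (f s * g s') := by
  have h1 := (abs_le.1 (h f g v (fun s => abs_le.2 ⟨by linarith [(hf s).1], (hf s).2⟩)
    fun s => abs_le.2 ⟨by linarith [(hg s).1], (hg s).2⟩)).1
  have h2 : 𝔼 s, 𝔼 s', f s * g s' * (ind (ρ s s' = v) - 1 / Fintype.card F) =
      (𝔼 s, 𝔼 s', ind (ρ s s' = v) * (f s * g s')) - (𝔼 s, f s) * (𝔼 s, g s) / qq F := by
    rw [mul_div_assoc, ← E_mul_right, ← E_sub]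
    refine E_congr fun s => ?_
    rw [← E_div, ← E_mul_left, ← E_sub]
    exact E_congr fun s' => by ring
  linarith

theorem two (h : CutOK ρ lm) (c : BB → Zt F b k → ℝ) (v : Bool → F)
    (hc : ∀ a s, 0 ≤ c a s ∧ c a s ≤ 1) : (∏ a, 𝔼 s, c a s) / qq F ^ 2 - 2 * lm ≤
      𝔼 s : BB → Zt F b k, ind (Mat ρ s v) * ∏ a, c a (s a) := by
  have hq := q_one (F := F)
  have hl := lm_nonneg h
  have e1 : 𝔼 s : BB → Zt F b k, ind (Mat ρ s v) * ∏ a, c a (s a) =
      ∏ r : Bool, 𝔼 s, 𝔼 s', ind (ρ s s' = v r) * (c (r, false) s * c (r, true) s') := by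
    have e2 : ∀ r : Bool, 𝔼 s, 𝔼 s', ind (ρ s s' = v r) * (c (r, false) s * c (r, true) s') =
        𝔼 t : Bool → Zt F b k,
          ind (ρ (t false) (t true) = v r) * (c (r, false) (t false) * c (r, true) (t true)) := by
      intro r
      rw [← E_prod (fun x : Zt F b k × Zt F b k =>
        ind (ρ x.1 x.2 = v r) * (c (r, false) x.1 * c (r, true) x.2))]
      exact (Fintype.expect_equiv (Equiv.boolArrowEquivProd _) _ _ fun _ => rfl).symm
    simp only [e2]
    rw [← E_pi]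
    refine Fintype.expect_equiv (Equiv.curry Bool Bool _) _ _ fun s => ?_
    have e3 : ind (Mat ρ s v) = ind (ρ (s (true, false)) (s (true, true)) = v true) *
        ind (ρ (s (false, false)) (s (false, true)) = v false) := by
      rw [← ind_and]
      exact ind_congr (by simp only [Mat, Bool.forall_bool]; exact and_comm)
    simp only [e3, Fintype.prod_prod_type, Fintype.prod_bool, Equiv.curry_apply, Function.curry]
    ring
  have m0 : ∀ a, 0 ≤ 𝔼 s, c a s := fun a => E_nonneg fun s => (hc a s).1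
  have m1 : ∀ a, 𝔼 s, c a s ≤ 1 := fun a => E_le fun s => (hc a s).2
  have a1 := one h _ _ (v true) (hc (true, false)) (hc (true, true))
  have a2 := one h _ _ (v false) (hc (false, false)) (hc (false, true))
  have a3 : 𝔼 s, 𝔼 s', ind (ρ s s' = v false) * (c (false, false) s * c (false, true) s') ≤ 1 :=
    E_le fun s => E_le fun s' => mul_le_one₀ (ind_le_one _)
      (mul_nonneg (hc _ _).1 (hc _ _).1) (mul_le_one₀ (hc _ _).2 (hc _ _).1 (hc _ _).2)
  have a4 : 0 ≤ 𝔼 s, 𝔼 s', ind (ρ s s' = v false) * (c (false, false) s * c (false, true) s') :=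
    E_nonneg fun s => E_nonneg fun s' => mul_nonneg (ind_nonneg _)
      (mul_nonneg (hc _ _).1 (hc _ _).1)
  have a5 : (𝔼 s, c (true, false) s) * (𝔼 s, c (true, true) s) / qq F ≤ 1 :=
    div_le_one_of_le₀ ((mul_le_one₀ (m1 _) (m0 _) (m1 _)).trans hq) (by linarith)
  have a6 : 0 ≤ (𝔼 s, c (true, false) s) * (𝔼 s, c (true, true) s) / qq F :=
    div_nonneg (mul_nonneg (m0 _) (m0 _)) (by linarith)
  have e4 : (∏ a, 𝔼 s, c a s) / qq F ^ 2 =
      ((𝔼 s, c (true, false) s) * (𝔼 s, c (true, true) s) / qq F) *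
        ((𝔼 s, c (false, false) s) * (𝔼 s, c (false, true) s) / qq F) := by
    simp only [Fintype.prod_prod_type, Fintype.prod_bool]
    ring
  rw [e1, e4, Fintype.prod_bool]
  nlinarith [mul_le_mul_of_nonneg_left a2 a6, mul_le_mul_of_nonneg_right a1 a4]

end Four

open Four in
theorem s_four : S_Four := by
  intro F _ _ _ b k lm ρ C v v' h hC
  have hq := q_one (F := F)
  have hl := lm_nonneg h
  have hq2 : (1 : ℝ) ≤ qq F ^ 2 := one_le_pow₀ hq
  have h1 : ∀ s : BB → Zt F b k,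
      ind (Mat ρ s v) * (∏ a, 𝔼 s', C a (s a) s') / qq F ^ 2 - 2 * lm ≤
        𝔼 s' : BB → Zt F b k, ind (Mat ρ s v) * ind (Mat ρ s' v') *
          ∏ a, C a (s a) (s' a.swap) := by
    intro s
    have h2 := two h (fun a y => C a.swap (s a.swap) y) v' fun a y => hC _ _ _
    have e1 : ∏ a : BB, 𝔼 y, C a.swap (s a.swap) y = ∏ a, 𝔼 s', C a (s a) s' :=
      Fintype.prod_equiv (Equiv.prodComm _ _) _ _ fun _ => rfl
    have e2 : 𝔼 s' : BB → Zt F b k, ind (Mat ρ s v) * ind (Mat ρ s' v') *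
        ∏ a, C a (s a) (s' a.swap) = ind (Mat ρ s v) * 𝔼 s' : BB → Zt F b k,
          ind (Mat ρ s' v') * ∏ a : BB, C a.swap (s a.swap) (s' a) := by
      rw [← E_mul_left]
      refine E_congr fun s' => ?_
      rw [mul_assoc]
      congr 2
      exact Fintype.prod_equiv (Equiv.prodComm _ _) _ _ fun _ => rfl
    rw [e1] at h2
    rw [e2, mul_div_assoc]
    nlinarith [mul_le_mul_of_nonneg_left h2 (ind_nonneg (Mat ρ s v)), ind_le_one (Mat ρ s v)]
  refine le_trans ?_ (E_mono h1)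
  rw [E_sub, E_const, E_div]
  have h3 := two h (fun a x => 𝔼 s', C a x s') v fun a x =>
    ⟨E_nonneg fun y => (hC a x y).1, E_le fun y => (hC a x y).2⟩
  have h4 := div_le_div_of_nonneg_right h3 (by linarith : (0 : ℝ) ≤ qq F ^ 2)
  have h5 : 2 * lm / qq F ^ 2 ≤ 2 * lm := div_le_self (by linarith) hq2
  rw [sub_div, div_div, ← pow_add] at h4
  linarith

end Vale.Agent.P060
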