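import Vale.Agent.P060.StC

/-! Goodness: slices of the tensors are not over represented. -/

namespace Vale.Agent.P060

open Finset Vale.Agent.P015
open scoped BigOperators

namespace G2

theorem pr_exists_le {Ω ι : Type} [Fintype Ω] [Fintype ι] (A : ι → Ω → Prop) :
    pr (fun ω => ∃ i, A i ω) ≤ ∑ i, pr (A i) := by
  unfold pr
  rw [← E_sum]
  refine E_mono fun ω => ?_
  simpa using ind_exists_le univ fun i => A i ω

theorem bad_le {S V W : Type} [Fintype S] [Fintype V] (P : S → Prop) (g : S → W) (L : V → W)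
    {E : ℝ} (hE : 0 < E) :
    pr (fun v => ¬ pr (fun σ => P σ ∧ g σ = L v) ≤ E * pr P * pr fun v' => L v' = L v) ≤
      1 / E := by
  rcases (pr_nonneg P).eq_or_lt with h0 | h0
  · refine le_trans (le_of_eq ?_) (one_div_pos.2 hE).le
    refine (E_congr fun v => ind_neg ?_).trans (expect_const_zero _)
    rw [not_not, ← h0, mul_zero, zero_mul, h0]
    exact pr_mono fun σ h => h.1
  have h1 : ∀ x : W, 𝔼 v, ind (x = L v) / pr (fun v' => L v' = L v) ≤ 1 := by
    intro x
    have : ∀ v, ind (x = L v) / pr (fun v' => L v' = L v) =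
        ind (L v = x) / pr fun v' => L v' = x := by
      intro v
      by_cases h : x = L v
      · rw [h]
      · rw [ind_neg h, ind_neg (Ne.symm h), zero_div, zero_div]
    rw [E_congr this, E_div]
    exact div_self_le_one _
  have h2 : 𝔼 v, pr (fun σ => P σ ∧ g σ = L v) / pr (fun v' => L v' = L v) ≤ pr P := by
    have : ∀ v, pr (fun σ => P σ ∧ g σ = L v) / pr (fun v' => L v' = L v) =
        𝔼 σ, ind (P σ) * (ind (g σ = L v) / pr fun v' => L v' = L v) := by
      intro v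
      rw [pr, ← E_div]
      exact E_congr fun σ => by rw [ind_and, mul_div_assoc]
    rw [E_congr this, E_comm]
    refine E_mono fun σ => ?_
    rw [E_mul_left]
    exact mul_le_of_le_one_right (ind_nonneg _) (h1 _)
  have h3 : ∀ v, ind (¬ pr (fun σ => P σ ∧ g σ = L v) ≤ E * pr P * pr fun v' => L v' = L v) ≤
      pr (fun σ => P σ ∧ g σ = L v) / pr (fun v' => L v' = L v) / (E * pr P) := by
    intro v
    have hp := pr_fib_pos L v
    by_cases h : pr (fun σ => P σ ∧ g σ = L v) ≤ E * pr P * pr fun v' => L v' = L v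
    · rw [ind_neg (not_not.2 h)]
      exact div_nonneg (div_nonneg (pr_nonneg _) hp.le) (mul_pos hE h0).le
    · rw [ind_pos h, le_div_iff₀ (mul_pos hE h0), le_div_iff₀ hp, one_mul]
      exact (not_le.1 h).le
  refine (E_mono h3).trans ?_
  rw [E_div, div_le_div_iff₀ (mul_pos hE h0) hE, one_mul, mul_comm]
  exact mul_le_mul_of_nonneg_left h2 hE.le

variable {F : Type} [Field F] {b k d N : ℕ}

theorem tri_add (M M' : Tn F N) (p q r : Ix N → F) :
    tri (M + M') p q r = tri M p q r + tri M' p q r := by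
  simp only [tri, Pi.add_apply, add_mul, sum_add_distrib]

theorem tri_smul (c : F) (M : Tn F N) (p q r : Ix N → F) :
    tri (c • M) p q r = c * tri M p q r := by
  simp only [tri, Pi.smul_apply, smul_eq_mul, mul_sum, mul_assoc]

theorem tri_mat (M : Tn F N) (A B C : Matrix (Ix N) (Ix N) F) :
    ∃ M' : Tn F N, ∀ p q r, tri M' p q r = tri M (A.mulVec p) (B.mulVec q) (C.mulVec r) := by
  refine ⟨fun ι => ∑ ι', M ι' * (A ι'.1 ι.1 * B ι'.2.1 ι.2.1 * C ι'.2.2 ι.2.2), fun p q r => ?_⟩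
  have : ∀ i j l, A.mulVec p i * B.mulVec q j * C.mulVec r l =
      ∑ ι : Ix N × Ix N × Ix N,
        A i ι.1 * B j ι.2.1 * C l ι.2.2 * (p ι.1 * q ι.2.1 * r ι.2.2) := by
    intro i j l
    simp only [Matrix.mulVec, dotProduct, Fintype.sum_prod_type]
    rw [sum_mul_sum, sum_mul]
    refine sum_congr rfl fun x _ => ?_
    rw [sum_mul_sum]
    exact sum_congr rfl fun y _ => sum_congr rfl fun z _ => by ring
  simp only [tri, this, sum_mul, mul_sum]
  rw [sum_comm]
  exact sum_congr rfl fun x _ => sum_congr rfl fun y _ => by ring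

/-- The slice map is linear. -/
def slL (κ : BB → Ky F N) : Tn F N →ₗ[F] (Fin 3 → BB → BB → Ix N → F) where
  toFun := sl κ
  map_add' M M' := by
    funext m a a' i
    fin_cases m <;> exact tri_add _ _ _ _ _
  map_smul' c M := by
    funext m a a' i
    fin_cases m <;> exact tri_smul _ _ _ _ _

theorem indep [CharP F 2] {ι : Type} (κ : ι → BB → Ky F N) (l : ι)
    (e : Fin 3 → BB → Ix N → F) (h1 : ∀ m a, e m a ⬝ᵥ hk (κ l a) m = 1)
    (h2 : ∀ m a a', a' ≠ a → e m a ⬝ᵥ hk (κ l a') m = 0)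
    (h3 : ∀ m a l' a', l' ≠ l → e m a ⬝ᵥ hk (κ l' a') m = 0) (M : Tn F N) :
    ∃ M', sl (κ l) M' = sl (κ l) M ∧ ∀ l', l' ≠ l → sl (κ l') M' = 0 := by
  let A : Fin 3 → Matrix (Ix N) (Ix N) F := fun m i i' => ∑ a, hk (κ l a) m i * e m a i'
  have hA : ∀ m p i, (A m).mulVec p i = ∑ a, hk (κ l a) m i * (e m a ⬝ᵥ p) := by
    intro m p i
    simp only [A, Matrix.mulVec, dotProduct, sum_mul, mul_sum, mul_assoc]
    exact sum_comm
  have fx : ∀ m a, (A m).mulVec (hk (κ l a) m) = hk (κ l a) m := by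
    intro m a
    funext i
    rw [hA, sum_eq_single a, h1, mul_one]
    · intro a' _ h
      rw [h2 m a' a h.symm, mul_zero]
    · simp
  have kl : ∀ m l' a, l' ≠ l → (A m).mulVec (hk (κ l' a) m) = 0 := by
    intro m l' a h
    funext i
    rw [hA]
    exact sum_eq_zero fun a' _ => by rw [h3 m a' l' a h, mul_zero]
  obtain ⟨M1, e1⟩ := tri_mat M (A 0) (A 1) 1
  obtain ⟨M2, e2⟩ := tri_mat M (A 0) 1 (A 2)
  obtain ⟨M3, e3⟩ := tri_mat M 1 (A 1) (A 2)
  have z1 : ∀ q r, tri M 0 q r = 0 := fun q r => by simp [tri]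
  have z2 : ∀ p r, tri M p 0 r = 0 := fun p r => by simp [tri]
  have z3 : ∀ p q, tri M p q 0 = 0 := fun p q => by simp [tri]
  refine ⟨M1 + M2 + M3, ?_, fun l' h => ?_⟩
  · funext m a a' i
    fin_cases m
    · change tri _ _ _ _ = tri _ _ _ _
      rw [tri_add, tri_add, e1, e2, e3]
      simp only [Matrix.one_mulVec, fx]
      rw [CharTwo.add_self_eq_zero, zero_add]
    · change tri _ _ _ _ = tri _ _ _ _
      rw [tri_add, tri_add, e1, e2, e3]
      simp only [Matrix.one_mulVec, fx]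
      rw [add_right_comm, CharTwo.add_self_eq_zero, zero_add]
    · change tri _ _ _ _ = tri _ _ _ _
      rw [tri_add, tri_add, e1, e2, e3]
      simp only [Matrix.one_mulVec, fx]
      rw [add_assoc, CharTwo.add_self_eq_zero, add_zero]
  · funext m a a' i
    fin_cases m <;>
    · change tri _ _ _ _ = 0
      rw [tri_add, tri_add, e1, e2, e3]
      simp only [kl _ _ _ h, z1, z2, z3, add_zero]

variable [Fintype F] [DecidableEq F]

/-- General position. -/
def gp {L : ℕ} (ζ : Fin L → BB → Zt F b k) (U : Un F b k d N) : Prop :=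
  ∀ m r, Sep (fun f => f ∈ P1 F b k ^ (d - 1) ∧ pur r f ∈ AU U m)
    fun lp : Fin L × Bool => (ζ lp.1 (r, lp.2)).1

theorem dual (ha : S_Aff) {L : ℕ} (ζ : Fin L → BB → Zt F b k) (U : Un F b k d N) (h : gp ζ U)
    (l : Fin L) (m : Fin 3) (a : BB) : ∃ e : Ix N → F, e ⬝ᵥ hk (kys U (ζ l) a) m = 1 ∧
      ∀ l' a', (l', a') ≠ (l, a) → e ⬝ᵥ hk (kys U (ζ l') a') m = 0 := by
  obtain ⟨r, p⟩ := a
  obtain ⟨f, ⟨hf, hU⟩, f1, f0⟩ := h m r (l, p)
  obtain ⟨e, he⟩ := (Submodule.mem_span_range_iff_exists_fun F).1 hU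
  have key : ∀ (s : BB → Zt F b k) (a' : BB),
      e ⬝ᵥ hk (kys U s a') m = cmp (pur r f) a'.1 (s a') := by
    intro s a'
    have : ∀ i, hk (kys U s a') m i = cmp (pf U m i) a'.1 (s a') := by
      intro i
      obtain ⟨r', p'⟩ := a'
      cases i <;> cases r' <;> rfl
    rw [← he]
    simp only [dotProduct, this]
    cases a'.1 <;> simp [cmp, Prod.fst_sum, Prod.snd_sum, Finset.sum_apply]
  have fz := (ha F b k).1 _ f hf
  refine ⟨e, ?_, fun l' a' hne => ?_⟩
  · rw [key, ← f1, ← fz]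
    cases r <;> rfl
  · obtain ⟨r', p'⟩ := a'
    rw [key]
    by_cases hr : r' = r
    · subst hr
      rw [← f0 (l', p') fun h => hne (by rw [(Prod.mk.inj h).1, (Prod.mk.inj h).2]), ← fz]
      cases r' <;> rfl
    · cases r <;> cases r' <;> first | rfl | exact absurd rfl hr

theorem gp_le (ha : S_Aff) (hl : S_Lin) (hg : S_GP) {j Lm L : ℕ} {δ1 : ℝ}
    (hT : TGp F b k (d - 1) Lm δ1) (U : Un F b k d N) (hU : Cod U j) (hj : j + 2 * L ≤ Lm) :
    pr (fun ζ : Fin L → BB → Zt F b k => ¬ gp ζ U) ≤ 12 * L * δ1 := by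
  choose a hA using hU
  let pL : Bool → Fn F b k →ₗ[F] Fn F b k × Fn F b k :=
    fun r => if r then LinearMap.inr F _ _ else LinearMap.inl F _ _
  have hp : ∀ r f, pL r f = pur r f := fun r f => by cases r <;> rfl
  let Z : Bool → (Fin L → BB → Zt F b k) →ₗ[F] (Fin L × Bool → Fin b → F) := fun r =>
    { toFun := fun ζ lp => (ζ lp.1 (r, lp.2)).1
      map_add' := fun _ _ => rfl
      map_smul' := fun _ _ => rfl }
  have hZ : ∀ r, Function.Surjective (Z r) := fun r w => ⟨fun l x => (w (l, x.2), 0), rfl⟩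
  refine le_trans (pr_mono (B := fun ζ => ∃ mr : Fin 3 × Bool,
    ¬ Sep (fun f => f ∈ P1 F b k ^ (d - 1) ∧ ∀ i, ((a mr.1 i).comp (pL mr.2)) f = 0)
      (Z mr.2 ζ)) fun ζ h => ?_) ((pr_exists_le _).trans ?_)
  · by_contra hn
    refine h fun m r lp => ?_
    obtain ⟨f, ⟨hf, hf'⟩, h'⟩ := not_not.1 (fun h'' => hn ⟨(m, r), h''⟩) lp
    have hV : f ∈ Vm F b k d m :=
      (ha F b k).2.2.2.2.1 d m ((ha F b k).2.2.1 _ _ (Nat.sub_le d 1) hf)
    refine ⟨f, ⟨hf, hA m _ ?_ ?_ fun i => ?_⟩, h'⟩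
    · cases r
      · exact hV
      · exact Submodule.zero_mem _
    · cases r
      · exact Submodule.zero_mem _
      · exact hV
    · rw [← hp]
      exact hf' i
  · refine (sum_le_sum (g := fun _ => 2 * L * δ1) fun mr _ => ?_).trans (le_of_eq ?_)
    · refine (((hl F).1 _ _ (Z mr.2) (hZ mr.2)).pr_eq fun w =>
        ¬ Sep (fun f => f ∈ P1 F b k ^ (d - 1) ∧ ∀ i, ((a mr.1 i).comp (pL mr.2)) f = 0)
          w).trans_le ((hg F b k _ _ _ hT (Fin L × Bool) (Fin j) _ ?_).trans (le_of_eq ?_))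
      · simp only [Fintype.card_prod, Fintype.card_fin, Fintype.card_bool]
        omega
      · simp only [Fintype.card_prod, Fintype.card_fin, Fintype.card_bool]
        push_cast
        ring
    · simp only [sum_const, card_univ, Fintype.card_prod, Fintype.card_fin, Fintype.card_bool,
        nsmul_eq_mul]
      push_cast
      ring

omit [DecidableEq F] in
theorem lin2 (hl : S_Lin) {V W ι : Type} [AddCommGroup V] [Module F V] [Fintype V] [Fintype ι]
    [DecidableEq ι] [AddCommGroup W] [Module F W] (L : ι → V →ₗ[F] W)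
    (h : ∀ i v, ∃ v', L i v' = L i v ∧ ∀ i', i' ≠ i → L i' v' = 0) (A : ι → W → Prop)
    (J : Finset ι) : pr (fun v => ∀ i ∈ J, A i (L i v)) = ∏ i ∈ J, pr fun v => A i (L i v) :=
  (hl F).2.1 V ι (fun _ => W) L h A J

theorem fibre [CharP F 2] (ha : S_Aff) (hl : S_Lin) {S : Type} [Fintype S]
    (u : S → Un F b k d N) {E : ℝ} (hE : 0 < E) {L : ℕ} (ζ : Fin L → BB → Zt F b k)
    (J : Finset (Fin L)) (X X' : Fr F b k d N) :
    pr (fun M : Tn F N × Tn F N => gp ζ ((X, M.1), (X', M.2)) ∧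
      ∀ l ∈ J, ¬ G2 u E (ζ l) ((X, M.1), (X', M.2))) ≤ (1 / E) ^ J.card := by
  by_cases h : gp ζ (((X, 0), (X', 0)) : Un F b k d N)
  swap
  · refine le_trans (le_of_eq ?_) (pow_pos (one_div_pos.2 hE) _).le
    exact (E_congr fun M => ind_neg fun h' => h h'.1).trans (expect_const_zero _)
  let κ : Fin L → BB → Ky F N := fun l => kys (((X, 0), (X', 0)) : Un F b k d N) (ζ l)
  choose e e1 e0 using dual ha ζ _ h
  have hi := fun l => indep κ l (e l) (e1 l)
    (fun m a a' h' => e0 l m a l a' fun h'' => h' (Prod.mk.inj h'').2)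
    fun m a l' a' h' => e0 l m a l' a' fun h'' => h' (Prod.mk.inj h'').1
  have := lin2 hl (fun l => (slL (κ l)).prodMap (slL (κ l))) (fun l v => by
      obtain ⟨M1, a1, b1⟩ := hi l v.1
      obtain ⟨M2, a2, b2⟩ := hi l v.2
      exact ⟨(M1, M2), Prod.ext a1 a2, fun l' h' => Prod.ext (b1 l' h') (b2 l' h')⟩)
    (fun l w => ¬ pr (fun σ => ((u σ).1.1 = X ∧ (u σ).2.1 = X') ∧
        (sl (κ l) (u σ).1.2, sl (κ l) (u σ).2.2) = w) ≤
      E * pr (fun σ => (u σ).1.1 = X ∧ (u σ).2.1 = X') *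
        pr fun M : Tn F N × Tn F N => (slL (κ l)).prodMap (slL (κ l)) M = w) J
  have hκ : ∀ (M : Tn F N × Tn F N) l, kys ((X, M.1), (X', M.2)) (ζ l) = κ l := by
    intro M l
    funext a
    obtain ⟨r, p⟩ := a
    cases r <;> rfl
  refine le_trans (pr_mono fun M hM l hlJ hle => hM.2 l hlJ ?_) (this.trans_le ?_)
  · unfold Vale.Agent.P060.G2
    rw [hκ]
    refine le_trans (pr_mono fun σ hσ => ?_) (hle.trans (le_of_eq ?_))
    · exact ⟨⟨hσ.1, hσ.2.1⟩, Prod.ext hσ.2.2.1 hσ.2.2.2⟩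
    · congr 1
      exact pr_congr fun M' => Prod.ext_iff
  · rw [← prod_const]
    exact prod_le_prod (fun _ _ => pr_nonneg _) fun l _ => bad_le _ _ _ hE

end G2

theorem s_g2 (ha : S_Aff) (hl : S_Lin) (hr : S_Rare) (hg : S_GP) : S_G2 := by
  intro F _ _ _ _ b k d N j Lm L n' δ1 Λ E S _ _ u hT hC hD hE hL hj
  have hΛ : 0 ≤ Λ := by
    have h1 := hD fun _ => True
    have h2 : pr (fun _ : Un F b k d N => True) = 1 := (E_congr fun _ => ind_true).trans (E_const 1)
    rw [h2, mul_one] at h1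
    exact (pr_nonneg _).trans h1
  refine hr S _ (BB → Zt F b k) u Λ (1 / E) _ L n' (fun s U => ¬ G2 u E s U) G2.gp hL hΛ
    (one_div_pos.2 hE).le hD ?_ fun ζ J => ?_
  · unfold pr
    rw [E_comm]
    exact E_le fun σ => G2.gp_le ha hl hg hT (u σ) (hC σ) hj
  · refine le_trans (le_of_eq ((law_equiv (Equiv.prodProdProdComm _ _ _ _) id).pr_eq
      fun U : Un F b k d N => G2.gp ζ U ∧ ∀ l ∈ J, ¬ G2 u E (ζ l) U).symm) ?_
    rw [pr, E_prod]
    exact E_le fun X => G2.fibre ha hl u hE ζ J X.1 X.2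

end Vale.Agent.P060
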