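import Vale.Agent.P060.StC

/-! Goodness conditions `G3` and `G4` hold with high probability. -/

namespace Vale.Agent.P060

open Finset Vale.Agent.P015
open scoped BigOperators

namespace G34

lemma law_hom {V W : Type} [AddCommGroup V] [AddCommGroup W] [Fintype V] [Fintype W]
    (L : V → W) (hadd : ∀ v v', L (v + v') = L v + L v') (hs : Function.Surjective L) :
    Law L (fun w : W => w) := by
  intro f
  obtain ⟨s, hs⟩ := hs.hasRightInverse
  have h1 : ∀ w, 𝔼 v, f (L v) = 𝔼 v, f (L v + w) := by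
    intro w
    rw [← law_equiv (Equiv.addRight (s w)) L f]
    refine E_congr fun v => ?_
    simp only [Equiv.coe_addRight, hadd, hs w]
  have h2 : ∀ v, 𝔼 w, f (L v + w) = 𝔼 w, f w := fun v =>
    law_equiv (Equiv.addLeft (L v)) (fun w : W => w) f
  calc 𝔼 v, f (L v) = 𝔼 _w : W, 𝔼 v, f (L v) := (E_const _).symm
    _ = 𝔼 w : W, 𝔼 v, f (L v + w) := E_congr h1
    _ = 𝔼 v, 𝔼 w : W, f (L v + w) := E_comm _
    _ = 𝔼 _v : V, 𝔼 w, f w := E_congr h2
    _ = 𝔼 w, f w := E_const _

lemma pr_or_le {Ω : Type} [Fintype Ω] (A B : Ω → Prop) :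
    pr (fun ω => A ω ∨ B ω) ≤ pr A + pr B := by
  unfold pr
  rw [← E_add]
  exact E_mono fun ω => ind_or_le _ _

lemma pr_ex_le {Ω ι : Type} [Fintype Ω] [Fintype ι] (A : ι → Ω → Prop) :
    pr (fun ω => ∃ i, A i ω) ≤ ∑ i, pr (A i) := by
  unfold pr
  rw [← E_sum]
  refine E_mono fun ω => ?_
  refine le_trans (ind_mono ?_) (ind_exists_le univ fun i => A i ω)
  rintro ⟨i, hi⟩
  exact ⟨i, mem_univ _, hi⟩

/-- Markov inequality for the fibres of a random variable. -/
lemma heavy {S K : Type} [Fintype S] [Fintype K] [Nonempty K] (A : S → Prop) (X : S → K)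
    (E : ℝ) (hE : 0 < E) :
    pr (fun κ : K => ¬ pr (fun σ => A σ ∧ X σ = κ) ≤ E / Fintype.card K * pr A) ≤ 1 / E := by
  have hC : (0 : ℝ) < Fintype.card K := by positivity
  have hsum : ∑ κ : K, pr (fun σ => A σ ∧ X σ = κ) = pr A := by
    unfold pr
    rw [← E_sum]
    refine E_congr fun σ => ?_
    rw [← sum_ind_eq (mem_univ (X σ)) fun _ => ind (A σ)]
    refine sum_congr rfl fun κ _ => ?_
    rw [ind_and, mul_comm]
  rcases (pr_nonneg A).eq_or_lt with h0 | hP
  · refine le_trans (le_of_eq ?_) (by positivity : (0 : ℝ) ≤ 1 / E)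
    unfold pr
    refine (E_congr fun κ => ind_neg ?_).trans (E_const _)
    rw [not_not]
    have h1 : pr (fun σ => A σ ∧ X σ = κ) ≤ pr A := pr_mono fun σ h => h.1
    have h2 : pr A = 0 := h0.symm
    unfold pr at h1 h2
    rw [h2] at h1 ⊢
    simpa using h1
  · have h1 : ∀ κ : K, ind (¬ pr (fun σ => A σ ∧ X σ = κ) ≤ E / Fintype.card K * pr A) ≤
        pr (fun σ => A σ ∧ X σ = κ) * (Fintype.card K / (E * pr A)) := by
      intro κ
      by_cases h : pr (fun σ => A σ ∧ X σ = κ) ≤ E / Fintype.card K * pr A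
      · rw [ind_neg (not_not.2 h)]
        exact mul_nonneg (pr_nonneg _) (by positivity)
      · rw [ind_pos h]
        push Not at h
        calc (1 : ℝ) = E / Fintype.card K * pr A * (Fintype.card K / (E * pr A)) := by
              field_simp
          _ ≤ _ := mul_le_mul_of_nonneg_right h.le (by positivity)
    refine le_trans (E_mono h1) (le_of_eq ?_)
    rw [E_mul_right, E_eq, hsum]
    field_simp

lemma pr_all_le {ι K : Type} [Fintype ι] [DecidableEq ι] [Fintype K] [Nonempty K]
    (B : ι → K → Prop) (p : ℝ) (hB : ∀ l, pr (B l) ≤ p) (J : Finset ι) :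
    pr (fun κ : ι → K => ∀ l ∈ J, B l (κ l)) ≤ p ^ J.card := by
  have h1 : ∀ κ : ι → K, ind (∀ l ∈ J, B l (κ l)) = ∏ l, ind (l ∈ J → B l (κ l)) := by
    intro κ
    by_cases h : ∀ l ∈ J, B l (κ l)
    · rw [ind_pos h, prod_eq_one fun l _ => ind_pos (h l)]
    · rw [ind_neg h]
      push Not at h
      obtain ⟨l, hl, hb⟩ := h
      exact (prod_eq_zero (mem_univ l) (ind_neg fun h' => hb (h' hl))).symm
  unfold pr
  rw [E_congr h1, E_pi fun l κ => ind (l ∈ J → B l κ)]
  calc ∏ l, 𝔼 κ, ind (l ∈ J → B l κ) ≤ ∏ l, if l ∈ J then p else 1 := by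
        refine prod_le_prod (fun l _ => E_nonneg fun _ => ind_nonneg _) fun l _ => ?_
        split_ifs with hl
        · exact le_trans (E_mono fun κ => ind_mono fun h => h hl) (hB l)
        · exact E_le fun _ => ind_le_one _
    _ = p ^ J.card := by
        rw [prod_ite_mem, univ_inter, prod_const]

variable {F : Type} [Field F] [Fintype F] [DecidableEq F] {b k d N : ℕ}

lemma law_vx (r : Bool) :
    Law (fun U : Un F b k d N => (vx U r, vx U (!r))) (fun U : Un F b k d N => U) := by
  cases r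
  · exact Law.refl _
  · exact law_equiv (Equiv.prodComm _ _) (fun U : Un F b k d N => U)

omit [DecidableEq F] in
lemma law_proj (L : ℕ) (r : Bool) :
    Law (fun ζ : Fin L → BB → Zt F b k => fun lp : Fin L × Bool => (ζ lp.1 (r, lp.2)).1)
      (fun z : Fin L × Bool → Fin b → F => z) :=
  law_hom _ (fun _ _ => rfl) fun z => ⟨fun l a => (z (l, a.2), 0), rfl⟩

omit [DecidableEq F] in
lemma law_proj1 (r : Bool) :
    Law (fun s : BB → Zt F b k => fun p : Bool => (s (r, p)).1)
      (fun z : Bool → Fin b → F => z) :=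
  law_hom _ (fun _ _ => rfl) fun z => ⟨fun a => (z a.2, 0), rfl⟩

/-- The failure event for one side. -/
def Bd {S : Type} [Fintype S] (u : S → Un F b k d N) (E : ℝ) (r : Bool) (x : Vx F b k d N)
    (s : BB → Zt F b k) (κ : Bool → Ky F N) : Prop :=
  ¬ pr (fun σ => vx (u σ) r = x ∧ (fun p => kys (u σ) s (!r, p)) = κ) ≤
    E / Fintype.card (Bool → Ky F N) * pr (fun σ => vx (u σ) r = x)

omit [DecidableEq F] in
lemma g3_of {S : Type} [Fintype S] (u : S → Un F b k d N) (E : ℝ) (s : BB → Zt F b k)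
    (U : Un F b k d N) (h : ¬ G3 u E s U) :
    Bd u E false (vx U false) s (fun p => kys U s (!false, p)) ∨
      Bd u E true (vx U true) s (fun p => kys U s (!true, p)) := by
  have h1 : ∀ r, ¬ Bd u E r (vx U r) s (fun p => kys U s (!r, p)) →
      pr (fun σ => vx (u σ) r = vx U r ∧ ∀ p, kys (u σ) s (!r, p) = kys U s (!r, p)) ≤
        E / (Fintype.card (Ky F N) : ℝ) ^ 2 * pr (fun σ => vx (u σ) r = vx U r) := by
    intro r hr
    unfold Bd at hr
    rw [not_not, Fintype.card_fun, Fintype.card_bool, Nat.cast_pow] at hr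
    refine le_trans (le_of_eq (pr_congr fun σ => ?_)) hr
    rw [funext_iff]
  by_contra hc
  rw [not_or] at hc
  refine h fun r => ?_
  cases r
  · exact h1 false hc.1
  · exact h1 true hc.2

lemma side (ha : S_Aff) (hr : S_Rare) (hg : S_GP) (hw : S_WU) (Lm L n' : ℕ) (δ1 Λ E : ℝ)
    (S : Type) [Fintype S] [Nonempty S] (u : S → Un F b k d N) (ht : TGp F b k (d - 1) Lm δ1)
    (hd : Dens u Λ) (hE : 0 < E) (hL : 0 < L) (hLm : 2 * L ≤ Lm) (r : Bool) :
    𝔼 s : BB → Zt F b k, pr (fun σ => Bd u E r (vx (u σ) r) s (fun p => kys (u σ) s (!r, p))) ≤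
      n' / L + Λ * 2 ^ L * (1 / E) ^ n' + 2 * L * δ1 := by
  have hΛ : 0 ≤ Λ := by
    have h1 := hd fun _ => True
    have h2 : pr (fun _ : S => True) = 1 := (E_congr fun _ => ind_true).trans (E_const _)
    have h3 : pr (fun _ : Un F b k d N => True) = 1 :=
      (E_congr fun _ => ind_true).trans (E_const _)
    rw [h2, h3] at h1
    linarith
  refine hr S (Un F b k d N) (BB → Zt F b k) u Λ (1 / E) (2 * L * δ1) L n'
    (fun s U => Bd u E r (vx U r) s (fun p => kys U s (!r, p)))
    (fun ζ _ => Sep (fun f : Fn F b k => f ∈ P1 F b k ^ d)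
      (fun lp : Fin L × Bool => (ζ lp.1 (!r, lp.2)).1)) hL hΛ (by positivity) hd ?_ ?_
  · have h1 := hg F b k (d - 1) Lm δ1 ht (Fin L × Bool) Empty (fun i => i.elim)
      (by simp; omega)
    rw [← (law_proj (k := k) L (!r)).pr_eq fun ζ => ¬ Sep (fun f : Fn F b k =>
      f ∈ P1 F b k ^ (d - 1) ∧ ∀ i : Empty, (i.elim : Module.Dual F (Fn F b k)) f = 0) ζ] at h1
    refine le_trans ?_ (h1.trans (le_of_eq ?_))
    · refine E_mono fun ζ => E_le fun σ => ind_mono fun h h' => h fun l => ?_
      obtain ⟨f, hf, h2⟩ := h' l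
      exact ⟨f, (ha F b k).2.2.1 _ _ (Nat.sub_le d 1) hf.1, h2⟩
    · simp only [Fintype.card_prod, Fintype.card_fin, Fintype.card_bool]
      push_cast
      ring
  · intro ζ J
    by_cases hs : Sep (fun f : Fn F b k => f ∈ P1 F b k ^ d)
      (fun lp : Fin L × Bool => (ζ lp.1 (!r, lp.2)).1)
    · have h1 := (hw F b k d N (Fin L × Bool)).2 (fun lp => ζ lp.1 (!r, lp.2)) hs
      refine le_trans (pr_mono fun U h => h.2) ?_
      have h2 := (law_vx (F := F) (b := b) (k := k) (d := d) (N := N) r).pr_eq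
        fun U => ∀ l ∈ J, Bd u E r U.1 (ζ l) (fun p => ky U.2.1 (ζ l (!r, p)))
      refine le_trans (le_of_eq h2) ?_
      unfold pr
      rw [E_prod]
      refine E_le fun x => ?_
      have h3 := h1.pr_eq fun κ => ∀ l ∈ J, Bd u E r x (ζ l) (fun p => κ (l, p))
      refine le_trans (le_of_eq h3) ?_
      have h4 := (law_equiv (Equiv.curry (Fin L) Bool (Ky F N))
        (fun κ : Fin L → Bool → Ky F N => κ)).pr_eq fun κ => ∀ l ∈ J, Bd u E r x (ζ l) (κ l)
      refine le_trans (le_of_eq h4) ?_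
      exact pr_all_le (fun l κ => Bd u E r x (ζ l) κ) (1 / E)
        (fun l => heavy (fun σ => vx (u σ) r = x) (fun σ p => kys (u σ) (ζ l) (!r, p)) E hE) J
    · refine le_trans (le_of_eq ?_) (by positivity : (0 : ℝ) ≤ (1 / E) ^ J.card)
      unfold pr
      exact (E_congr fun U => ind_neg fun h => hs h.1).trans (E_const _)

/-- The generators of `P1`. -/
def gen (F : Type) [Field F] (b k : ℕ) : Option (Fin b) → Fn F b k
  | none => 1
  | some i => fun s => s.1 i

/-- `pur` as a linear map. -/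
def purL (F : Type) [Field F] (b k : ℕ) (r : Bool) : Fn F b k →ₗ[F] Fn F b k × Fn F b k :=
  if r then LinearMap.inr F _ _ else LinearMap.inl F _ _

omit [Fintype F] [DecidableEq F] in
lemma purL_eq (r : Bool) (f : Fn F b k) : purL F b k r f = pur r f := by
  cases r <;> rfl

omit [Fintype F] [DecidableEq F] in
lemma gen_mem (t : Option (Fin b)) : gen F b k t ∈ P1 F b k := by
  refine Submodule.subset_span ?_
  cases t with
  | none => exact Set.mem_insert _ _
  | some i => exact Set.mem_insert_of_mem _ ⟨i, rfl⟩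

end G34

open G34

theorem s_g3 (ha : S_Aff) (hr : S_Rare) (hg : S_GP) (hw : S_WU) : S_G3 := by
  intro F _ _ _ b k d N Lm L n' δ1 Λ E S _ _ u ht hd hE hL hLm
  have h0 := side ha hr hg hw Lm L n' δ1 Λ E S u ht hd hE hL hLm false
  have h1 := side ha hr hg hw Lm L n' δ1 Λ E S u ht hd hE hL hLm true
  refine le_trans (E_mono fun s => (pr_mono fun σ => g3_of u E s (u σ)).trans (pr_or_le _ _)) ?_
  rw [E_add]
  linarith

theorem s_g4 (ha : S_Aff) (hg : S_GP) : S_G4 := by
  intro F _ _ _ b k d N j Lm δ1 U ht hc hd hLm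
  choose a haa using hc
  let a' : Fin 3 × Bool → Fin j × Option (Fin b) → Module.Dual F (Fn F b k) := fun mr it =>
    (a mr.1 it.1).comp ((purL F b k mr.2).comp (LinearMap.mulLeft F (gen F b k it.2)))
  have h1 : ∀ mr : Fin 3 × Bool, pr (fun s : BB → Zt F b k => ¬ Sep (fun f : Fn F b k =>
      f ∈ P1 F b k ^ (d - 1) ∧ ∀ i, a' mr i f = 0) (fun p : Bool => (s (mr.2, p)).1)) ≤
        2 * δ1 := by
    intro mr
    have h2 := hg F b k (d - 1) Lm δ1 ht Bool (Fin j × Option (Fin b)) (a' mr) (by simpa using hLm)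
    rw [← (law_proj1 (k := k) mr.2).pr_eq fun ζ => ¬ Sep (fun f : Fn F b k =>
      f ∈ P1 F b k ^ (d - 1) ∧ ∀ i, a' mr i f = 0) ζ] at h2
    simpa using h2
  refine le_trans (pr_mono fun s hs => ?_) ((pr_ex_le _).trans
    ((sum_le_sum fun mr _ => h1 mr).trans (le_of_eq ?_)))
  · by_contra hn
    push Not at hn
    refine hs fun m r p => ?_
    obtain ⟨f, ⟨hf, hfa⟩, hf1, hf0⟩ := hn (m, r) p
    have hfs := (ha F b k).1 _ f hf
    refine ⟨f, hf, (hfs _).trans hf1, (hfs _).trans (hf0 (!p) (by cases p <;> simp)), ?_⟩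
    have hgen : ∀ t, pur r (gen F b k t * f) ∈ AU U m := by
      intro t
      have hm : gen F b k t * f ∈ Vm F b k d m := by
        refine (ha F b k).2.2.2.2.1 d m ?_
        have : P1 F b k ^ d = P1 F b k * P1 F b k ^ (d - 1) := by
          rw [← pow_succ']; congr 1; omega
        rw [this]
        exact Submodule.mul_mem_mul (gen_mem t) hf
      refine haa m _ ?_ ?_ fun i => ?_
      · cases r
        · exact hm
        · exact Submodule.zero_mem _
      · cases r
        · exact Submodule.zero_mem _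
        · exact hm
      · rw [← purL_eq]
        exact hfa (i, t)
    intro g hgm
    induction hgm using Submodule.span_induction with
    | mem x hx =>
      rcases hx with rfl | ⟨i, rfl⟩
      · exact hgen none
      · exact hgen (some i)
    | zero => rw [zero_mul, ← purL_eq, map_zero]; exact Submodule.zero_mem _
    | add x y _ _ hx hy =>
      rw [add_mul, ← purL_eq, map_add, purL_eq, purL_eq]; exact Submodule.add_mem _ hx hy
    | smul c x _ hx =>
      rw [smul_mul_assoc, ← purL_eq, map_smul, purL_eq]; exact Submodule.smul_mem _ c hx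
  · simp only [sum_const, card_univ, Fintype.card_prod, Fintype.card_fin, Fintype.card_bool,
      nsmul_eq_mul]
    push_cast
    ring

end Vale.Agent.P060
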