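import Vale.Agent.P060.StB

namespace Vale.Agent.P060

open Finset Vale.Agent.P015
open scoped BigOperators

namespace GP

variable {F : Type} [Field F] {b k : ℕ}

def Pl (e : ℕ) (f : Fn F b k) : Prop := ∃ p : MvPolynomial (Fin (b + (k + 1))) F,
  p.totalDegree ≤ e ∧ ∀ s : Zt F b k, f s = MvPolynomial.eval (Fin.append s.1 s.2) p

theorem Pl.add {e : ℕ} {f g : Fn F b k} (hf : Pl e f) (hg : Pl e g) : Pl e (f + g) := by
  obtain ⟨p, h1, h2⟩ := hf
  obtain ⟨p', h3, h4⟩ := hg
  exact ⟨p + p', (MvPolynomial.totalDegree_add _ _).trans (max_le h1 h3),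
    fun s => by simp [h2, h4]⟩

theorem Pl.mul {e e' : ℕ} {f g : Fn F b k} (hf : Pl e f) (hg : Pl e' g) : Pl (e + e') (f * g) := by
  obtain ⟨p, h1, h2⟩ := hf
  obtain ⟨p', h3, h4⟩ := hg
  exact ⟨p * p', (MvPolynomial.totalDegree_mul _ _).trans (add_le_add h1 h3),
    fun s => by simp [h2, h4]⟩

theorem Pl.const (e : ℕ) (a : F) : Pl e (fun _ : Zt F b k => a) :=
  ⟨MvPolynomial.C a, by simp, fun s => by simp⟩

theorem Pl.span {T : Set (Fn F b k)} (hT : ∀ f ∈ T, Pl 1 f) {f : Fn F b k}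
    (hf : f ∈ Submodule.span F (insert 1 T)) : Pl 1 f := by
  induction hf using Submodule.span_induction with
  | mem x hx =>
    rcases hx with rfl | hx
    · exact Pl.const 1 1
    · exact hT x hx
  | zero => exact Pl.const 1 0
  | add x y _ _ hx hy => exact hx.add hy
  | smul a x _ hx => exact (Pl.const 0 a).mul hx

theorem pl_P {f : Fn F b k} (hf : f ∈ P1 F b k) : Pl 1 f := by
  refine Pl.span ?_ hf
  rintro _ ⟨i, rfl⟩
  exact ⟨MvPolynomial.X (Fin.castAdd _ i), by simp, fun s => by simp⟩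

theorem pl_U {f : Fn F b k} (hf : f ∈ U1 F b k) : Pl 1 f := by
  refine Pl.span ?_ hf
  rintro _ ⟨i, rfl⟩
  exact ⟨MvPolynomial.X (Fin.natAdd _ i), by simp, fun s => by simp⟩

theorem pl_pow (e : ℕ) : ∀ f ∈ P1 F b k ^ e, Pl e f := by
  induction e with
  | zero =>
    intro f hf
    rw [pow_zero, Submodule.mem_one] at hf
    obtain ⟨a, rfl⟩ := hf
    exact Pl.const 0 a
  | succ e ih =>
    intro f hf
    rw [pow_succ] at hf
    exact Submodule.mul_induction_on hf (fun m hm x hx => (ih m hm).mul (pl_P hx))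
      fun x y hx hy => hx.add hy

theorem pl_Cd {d : ℕ} {f : Fn F b k} (hf : f ∈ Cd F b k d) : Pl (3 * d + 2) f :=
  Submodule.mul_induction_on hf (fun m hm _ hx => (pl_pow _ m hm).mul (pl_U hx))
    fun _ _ hx hy => hx.add hy

end GP

open GP in
theorem s_sz : S_SZ := by
  intro F _ _ _ b k d f hf v ⟨s0, hs0⟩
  obtain ⟨p, h1, h2⟩ := pl_Cd hf
  have hp : p - MvPolynomial.C v ≠ 0 := fun h => hs0 (by
    rw [h2, sub_eq_zero.1 h, MvPolynomial.eval_C])
  have hd : (p - MvPolynomial.C v).totalDegree ≤ 3 * d + 2 :=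
    (MvPolynomial.totalDegree_sub _ _).trans (max_le h1 (by simp))
  have h3 := MvPolynomial.schwartz_zippel_totalDegree hp (univ : Finset F)
  have h4 : pr (fun s => f s = v) = pr fun x : Fin (b + (k + 1)) → F =>
      MvPolynomial.eval x (p - MvPolynomial.C v) = 0 := by
    refine Eq.trans (pr_congr fun s => ?_)
      ((law_equiv (Fin.appendEquiv b (k + 1)) fun x => x).pr_eq
        fun x => MvPolynomial.eval x (p - MvPolynomial.C v) = 0)
    rw [h2, map_sub, MvPolynomial.eval_C, sub_eq_zero]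
    rfl
  rw [h4, pr_eq_card]
  have h5 := NNRat.cast_le (K := ℝ) |>.2 h3
  push_cast at h5
  rw [Fintype.piFinset_univ, card_univ] at h5
  rw [Fintype.card_fun, Fintype.card_fin]
  push_cast
  refine h5.trans (div_le_div_of_nonneg_right ?_ (Nat.cast_nonneg _))
  exact_mod_cast hd

theorem s_gp : S_GP := by
  intro F _ _ _ b k e Lm δ hT ι κ _ _ _ a hc
  have key : ∀ l : ι, pr (fun ζ : ι → Fin b → F => ¬ ∃ f : Fn F b k,
      (f ∈ P1 F b k ^ e ∧ ∀ i, a i f = 0) ∧ f (ζ l, 0) = 1 ∧ ∀ l', l' ≠ l → f (ζ l', 0) = 0)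
        ≤ δ := by
    intro l
    rw [← (law_equiv (Equiv.funSplitAt l (Fin b → F)).symm fun x => x).pr_eq, pr, E_prod, E_comm]
    refine E_le fun η => ?_
    have hcard : Fintype.card (κ ⊕ {j // j ≠ l}) < Lm := by
      have h1 : Fintype.card {j // j ≠ l} < Fintype.card ι :=
        Fintype.card_subtype_lt (x := l) (by simp)
      rw [Fintype.card_sum]
      omega
    refine le_trans ?_ (hT (κ ⊕ {j // j ≠ l})
      (Sum.elim a fun j => LinearMap.proj ((η j, 0) : Zt F b k)) hcard)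
    refine pr_mono fun t h f hf hz => ?_
    by_contra h0
    refine h ⟨(f (t, 0))⁻¹ • f, ⟨Submodule.smul_mem _ _ hf, fun i => ?_⟩, ?_, fun l' hl' => ?_⟩
    · have : a i f = 0 := hz (Sum.inl i)
      rw [map_smul, this, smul_zero]
    · simp [inv_mul_cancel₀ h0]
    · have : f (η ⟨l', hl'⟩, 0) = 0 := hz (Sum.inr ⟨l', hl'⟩)
      simp [hl', this]
  refine le_trans (E_mono fun ζ => ?_) ((E_sum univ _).trans_le
    ((sum_le_card_nsmul _ _ δ fun l _ => key l).trans_eq (by rw [card_univ, nsmul_eq_mul])))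
  refine le_trans (ind_mono fun h => ?_) (ind_exists_le univ _)
  obtain ⟨l, hl⟩ := not_forall.1 h
  exact ⟨l, mem_univ _, hl⟩

end Vale.Agent.P060
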