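import Vale.Agent.P060.Push

/-! Most units are good. -/

namespace Vale.Agent.P060

open Finset Vale.Agent.P015
open scoped BigOperators

namespace Good

theorem avg {S O : Type} [Fintype S] (c : S → O) (g : S → ℝ) :
    𝔼 σ, (𝔼 σ', ind (c σ' = c σ) * g σ') / pr (fun σ' => c σ' = c σ) = 𝔼 σ, g σ := by
  simp only [← E_div]
  rw [E_comm]
  refine E_congr fun σ' => ?_
  have e : ∀ σ, ind (c σ' = c σ) * g σ' / pr (fun σ'' => c σ'' = c σ) =
      ind (c σ = c σ') * (g σ' / pr fun σ'' => c σ'' = c σ') := fun σ => by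
    by_cases h : c σ = c σ'
    · rw [h, mul_div_assoc]
    · rw [ind_neg h, ind_neg (Ne.symm h), zero_mul, zero_div, zero_mul]
  simp only [e, E_mul_right]
  exact mul_div_cancel₀ _ (pr_fib_pos c σ').ne'

theorem heavy {S K : Type} [Fintype S] [Nonempty S] [Fintype K] [Nonempty K] (f : S → K) {T : ℝ}
    (h : 𝔼 κ, ind (pr (fun σ => f σ = κ) ≤ 2 / Fintype.card K) ≤
      (𝔼 σ, ind (pr (fun σ' => f σ' = f σ) ≤ 2 / Fintype.card K)) + T) :
    pr (fun σ => ¬ pr (fun σ' => f σ' = f σ) ≤ 2 / Fintype.card K) ≤ 2 * T := by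
  have h1 := Push.sum_pr (fun _ => True) f fun κ => ind (¬ pr (fun σ => f σ = κ) ≤ 2 / Fintype.card K)
  simp only [true_and, ind_true, one_mul] at h1
  have h2 : 2 * 𝔼 κ, ind (¬ pr (fun σ => f σ = κ) ≤ 2 / Fintype.card K) ≤
      pr (fun σ => ¬ pr (fun σ' => f σ' = f σ) ≤ 2 / Fintype.card K) := by
    rw [pr, ← h1, E_eq, Finset.sum_div, Finset.mul_sum]
    refine Finset.sum_le_sum fun κ _ => ?_
    by_cases h : pr (fun σ => f σ = κ) ≤ 2 / Fintype.card K
    · rw [ind_neg (not_not.2 h), zero_div, mul_zero, mul_zero]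
    · rw [ind_pos h, mul_one_div, mul_one]
      exact (not_le.1 h).le
  rw [pr] at h2 ⊢
  simp only [ind_not, E_sub, E_const] at h2 ⊢
  linarith

theorem light {S Y : Type} [Fintype S] [Fintype Y] (A : S → Prop) (f : S → Y) {t : ℝ} (ht : 0 ≤ t) :
    pr (fun σ => A σ ∧ ¬ t ≤ pr fun σ' => A σ' ∧ f σ' = f σ) ≤ Fintype.card Y * t := by
  have h1 := Push.sum_pr A f fun y => ind (¬ t ≤ pr fun σ' => A σ' ∧ f σ' = y)
  simp only [← ind_and] at h1
  rw [pr, ← h1, ← nsmul_eq_mul, ← Finset.card_univ, ← Finset.sum_const]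
  refine Finset.sum_le_sum fun y _ => ?_
  by_cases h : t ≤ pr fun σ' => A σ' ∧ f σ' = y
  · rwa [ind_neg (not_not.2 h), mul_zero]
  · rw [ind_pos h, mul_one]
    exact (not_le.1 h).le

theorem split (a b c d e : Prop) : ind (¬ ((a ∧ b ∧ c ∧ d) ∧ e)) ≤
    ind (¬ a) + ind (¬ b) + ind (¬ c) + ind (¬ d) + ind ((a ∧ b ∧ c ∧ d) ∧ ¬ e) := by
  by_cases ha : a <;> by_cases hb : b <;> by_cases hc : c <;> by_cases hd : d <;>
    by_cases he : e <;> simp [ha, hb, hc, hd, he] <;> norm_num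

end Good

open Good in
theorem s_good (hk : S_AK) (hp : S_Push) (h2 : S_G2) (h3 : S_G3) (h4 : S_G4) : S_Good := by
  intro F _ _ _ _ b k d N j n Lm L n' δ δ1 Λ E η ρ τ S O _ _ u c hρ hT hc hD hE hL l1 hd l2 hη
  obtain ⟨hK, hP⟩ := hp F b k d N j n δ ρ τ S O u c hρ
  have cK : (Fintype.card (BB → Ky F N) : ℝ) = (Fintype.card (Ky F N) : ℝ) ^ 4 := by
    rw [Fintype.card_fun]
    simp
  have cL : (Fintype.card (BB → Lb F n) : ℝ) = qq F ^ (4 * (n + 3)) := by
    rw [Fintype.card_fun]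
    simp only [Fintype.card_prod, Fintype.card_fun, Fintype.card_sum, Fintype.card_fin,
      Fintype.card_bool]
    push_cast
    ring
  have g0 : ∀ s : BB → Zt F b k, pr (fun σ => ¬ G0 u s (u σ)) ≤ 2 * 𝔼 σ, tvs u c s σ := by
    intro s
    simp only [G0, ← cK]
    refine heavy (fun σ => kys (u σ) s) ?_
    rw [← avg c, ← E_add]
    refine le_E fun σ => le_trans (le_of_eq (E_congr fun κ => ?_)) (hP σ s
      (fun κ _ => ind (pr (fun σ => kys (u σ) s = κ) ≤ 2 / Fintype.card (BB → Ky F N)))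
      fun _ _ => ⟨ind_nonneg _, ind_le_one _⟩)
    simp only [idl]
    rw [← Finset.sum_mul, ← Fintype.prod_sum fun (a : BB) (θ : Lb F n) =>
      aK (lam ρ τ a.1) (Kc u c (c σ) a.1) (s a) (κ a) θ]
    simp only [fun r => (hk F b k N n (lam ρ τ r) (Kc u c (c σ) r)).2.2.2 (hK (c σ) r).2,
      Finset.prod_const_one, one_mul]
  have g5 : ∀ s : BB → Zt F b k, pr (fun σ => Gd' u E s (u σ) ∧
      ¬ 1 / (E * (Fintype.card (Ky F N) : ℝ) ^ 4) ≤
        pr (Cell ρ τ u E s (kys (u σ) s) (lbs ρ τ (u σ) s))) ≤ qq F ^ (4 * (n + 3)) / E := by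
    intro s
    have h := light (fun σ => Gd' u E s (u σ)) (fun σ => (kys (u σ) s, lbs ρ τ (u σ) s))
      (t := 1 / (E * (Fintype.card (Ky F N) : ℝ) ^ 4)) (by positivity)
    simp only [Prod.mk.injEq] at h
    refine le_trans h (le_of_eq ?_)
    rw [Fintype.card_prod, Nat.cast_mul, cK, cL]
    field_simp
  have g2 := h2 F b k d N j Lm L n' δ1 Λ E S u hT hc hD hE hL l1
  have g3 := h3 F b k d N Lm L n' δ1 Λ E S u hT hD hE hL (by omega)
  have g4 : 𝔼 s : BB → Zt F b k, pr (fun σ => ¬ G4 (u σ) s) ≤ 12 * δ1 := by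
    simp only [pr]
    rw [E_comm]
    exact E_le fun σ => h4 F b k d N j Lm δ1 (u σ) hT (hc σ) hd l2
  have g6 : 𝔼 s : BB → Zt F b k, pr (fun σ => ¬ Gd ρ τ u E s σ) ≤ 𝔼 s : BB → Zt F b k,
      ((2 * 𝔼 σ, tvs u c s σ) + pr (fun σ => ¬ G2 u E s (u σ)) + pr (fun σ => ¬ G3 u E s (u σ)) +
        pr (fun σ => ¬ G4 (u σ) s) + qq F ^ (4 * (n + 3)) / E) := by
    refine E_mono fun s => le_trans (E_mono fun σ => split _ _ _ _ _) ?_
    simp only [E_add]
    exact add_le_add (add_le_add (add_le_add (add_le_add (g0 s) le_rfl) le_rfl) le_rfl) (g5 s)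
  simp only [E_add, E_const, E_mul_left] at g6
  linarith

end Vale.Agent.P060
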