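import Vale.Agent.P060.StA

/-! The Hoelder step of the extractor. -/

namespace Vale.Agent.P060

open Finset Vale.Agent.P015
open scoped BigOperators

namespace Hol

theorem jensen {S : Type} [Fintype S] [Nonempty S] (f : S → ℝ) (m : ℕ) :
    (𝔼 s, f s) ^ (2 * m) ≤ 𝔼 s, f s ^ (2 * m) := by
  have h0 : (0 : ℝ) < Fintype.card S := Nat.cast_pos.2 Fintype.card_pos
  have := Real.pow_arith_mean_le_arith_mean_pow_of_even univ (fun _ => (Fintype.card S : ℝ)⁻¹) f
    (fun _ _ => by positivity) (by simp) (even_two_mul m)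
  rw [← mul_sum, ← mul_sum] at this
  rwa [E_eq, E_eq, div_eq_inv_mul, div_eq_inv_mul]

theorem expand {S Ω : Type} [Fintype S] [Fintype Ω] (v : S → Ω) (f : Ω → ℝ) :
    𝔼 s, f (v s) = ∑ w, pr (fun s => v s = w) * f w := by
  simp only [pr, ← E_mul_right]
  rw [← E_sum]
  exact E_congr fun s => (sum_ind_eq (mem_univ _) f).symm

theorem dens {S Ω : Type} [Fintype S] [Fintype Ω] {v : S → Ω} {Λ : ℝ} (h : Dens v Λ) (f : Ω → ℝ)
    (hf : ∀ w, 0 ≤ f w) : 𝔼 s, f (v s) ≤ Λ * 𝔼 w, f w := by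
  rw [expand v f, expand (fun w => w) f, mul_sum]
  exact sum_le_sum fun w _ => by
    rw [← mul_assoc]
    exact mul_le_mul_of_nonneg_right (h fun x => x = w) (hf w)

theorem chi_sum {F ι : Type} [Field F] {χ : F → ℝ} (h : Chi χ) (s : Finset ι) (a : ι → F) :
    χ (∑ i ∈ s, a i) = ∏ i ∈ s, χ (a i) := by
  classical
  induction s using Finset.induction_on with
  | empty => simpa using h.zero
  | insert i s hi ih => rw [sum_insert hi, prod_insert hi, h.add, ih]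

end Hol

open Hol in
theorem s_hol (hc : S_Chi) : S_Hol := by
  intro F _ _ _ _ χ hχ S S' Ω ι _ _ _ _ _ _ _ v Λ M upd Θ h m _ hΛ hv hu hM hh h1
  have : Nonempty Ω := ⟨v (Classical.arbitrary _)⟩
  refine (jensen _ m).trans ((dens hv (fun w => (𝔼 σ, h σ w * χ (M w ⬝ᵥ Θ σ)) ^ (2 * m))
    fun w => (even_two_mul m).pow_nonneg _).trans (mul_le_mul_of_nonneg_left ?_ hΛ))
  have e : ∀ w, (𝔼 σ, h σ w * χ (M w ⬝ᵥ Θ σ)) ^ (2 * m) =
      𝔼 σ : Fin (2 * m) → S, (∏ l, h (σ l) w) * χ (M w ⬝ᵥ ∑ l, Θ (σ l)) := fun w => by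
    rw [← Fin.prod_const, ← E_pi fun _ σ => h σ w * χ (M w ⬝ᵥ Θ σ)]
    exact E_congr fun σ => by rw [prod_mul_distrib, dotProduct_sum, chi_sum hχ]
  rw [E_congr e, hu]
  refine E_le fun w => ?_
  rw [E_comm]
  refine E_mono fun σ => ?_
  simp only [hM, hh]
  rw [E_mul_left, ((hc F).2 χ hχ).2.2]
  refine mul_le_of_le_one_left (ind_nonneg _) ((le_abs_self _).trans ?_)
  rw [abs_prod]
  exact prod_le_one (fun _ _ => abs_nonneg _) fun _ _ => h1 _ _

end Vale.Agent.P060
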