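import Vale.Agent.P060.StB

/-! Fourier inversion on labels. -/

namespace Vale.Agent.P060

open Finset Vale.Agent.P015
open scoped BigOperators

namespace Inv

variable {F : Type} [Field F] [Fintype F] [DecidableEq F] [CharP F 2] {χ : F → ℝ} {n : ℕ}

theorem orth (hc : S_Chi) (h : Chi χ) (θ θ' : Lb F n) :
    𝔼 ξ : Lb F n, χ (ξ.1 ⬝ᵥ θ.1 + ξ.2 * θ.2) * χ (ξ.1 ⬝ᵥ θ'.1 + ξ.2 * θ'.2) = ind (θ = θ') := by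
  obtain ⟨-, h2, h3⟩ := (hc F).2 χ h
  have e : ∀ ξ : Lb F n, χ (ξ.1 ⬝ᵥ θ.1 + ξ.2 * θ.2) * χ (ξ.1 ⬝ᵥ θ'.1 + ξ.2 * θ'.2) =
      χ (ξ.1 ⬝ᵥ (θ.1 + θ'.1)) * χ ((θ.2 + θ'.2) * ξ.2) := by
    intro ξ
    rw [← h.add, ← h.add, dotProduct_add]
    congr 1
    ring
  rw [E_congr e, E_prod]
  simp only [E_mul_left, E_mul_right, h2, h3]
  rw [← ind_and]
  refine ind_congr ?_
  simp only [Prod.ext_iff, funext_iff, CharTwo.add_eq_zero]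

theorem line (hc : S_Chi) (h : Chi χ) (c : Lx n → F) (θ θ' : Lb F n) :
    𝔼 ξ : Lb F n, ind (ξ.2 • c = ξ.1) *
      (χ (ξ.1 ⬝ᵥ θ.1 + ξ.2 * θ.2) * χ (ξ.1 ⬝ᵥ θ'.1 + ξ.2 * θ'.2)) =
      ind (res c θ' = res c θ) / qq F ^ (n + 2) := by
  obtain ⟨-, h2, -⟩ := (hc F).2 χ h
  rw [E_prod, E_comm]
  have e : ∀ l : F, 𝔼 x : Lx n → F, ind (l • c = x) *
      (χ (x ⬝ᵥ θ.1 + l * θ.2) * χ (x ⬝ᵥ θ'.1 + l * θ'.2)) =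
      χ ((res c θ' + res c θ) * l) / qq F ^ (n + 2) := by
    intro l
    rw [E_eq, sum_ind_eq (mem_univ _), ← h.add]
    congr 1
    · congr 1
      simp only [res, smul_dotProduct, smul_eq_mul]
      ring
    · simp [qq]
  simp only [e]
  rw [E_div, h2, CharTwo.add_eq_zero]

theorem diff (hc : S_Chi) (h : Chi χ) (c : Lx n → F) (a : Lb F n → ℝ) (θ : Lb F n) :
    a θ - (∑ θ', ind (res c θ' = res c θ) * a θ') / qq F ^ (n + 2) =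
      𝔼 ξ : Lb F n, χ (ξ.1 ⬝ᵥ θ.1 + ξ.2 * θ.2) *
        (ind (ξ.1 ≠ ξ.2 • c) * ∑ θ', χ (ξ.1 ⬝ᵥ θ'.1 + ξ.2 * θ'.2) * a θ') := by
  have e : ∀ ξ : Lb F n, χ (ξ.1 ⬝ᵥ θ.1 + ξ.2 * θ.2) *
      (ind (ξ.1 ≠ ξ.2 • c) * ∑ θ', χ (ξ.1 ⬝ᵥ θ'.1 + ξ.2 * θ'.2) * a θ') =
      ∑ θ', (χ (ξ.1 ⬝ᵥ θ.1 + ξ.2 * θ.2) * χ (ξ.1 ⬝ᵥ θ'.1 + ξ.2 * θ'.2) -
        ind (ξ.2 • c = ξ.1) *
          (χ (ξ.1 ⬝ᵥ θ.1 + ξ.2 * θ.2) * χ (ξ.1 ⬝ᵥ θ'.1 + ξ.2 * θ'.2))) * a θ' := by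
    intro ξ
    rw [ind_not, ind_congr (eq_comm (a := ξ.1)), mul_sum, mul_sum]
    exact sum_congr rfl fun θ' _ => by ring
  rw [E_congr e, E_sum]
  simp only [E_mul_right, E_sub, orth hc h, line hc h]
  rw [← sum_ind_eq (mem_univ θ) a, sum_div, ← sum_sub_distrib]
  exact sum_congr rfl fun θ' _ => by ring

end Inv

theorem s_inv (hc : S_Chi) : S_Inv := by
  intro F _ _ _ _ χ h b k N n La K η c hη θ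
  have h1 := ((hc F).2 χ h).1
  have e : ∀ κ, (abar La K κ θ - gK La K c (res c θ) κ / qq F ^ (n + 2)) ^ 2 ≤
      𝔼 ξ : Lb F n, ind (ξ.1 ≠ ξ.2 • c) * fc χ La K ξ κ ^ 2 := by
    intro κ
    rw [gK, Inv.diff hc h c (abar La K κ) θ]
    refine (expect_mul_sq_le_sq_mul_sq _ _ _).trans (le_of_eq ?_)
    have e1 : ∀ ξ : Lb F n, χ (ξ.1 ⬝ᵥ θ.1 + ξ.2 * θ.2) ^ 2 = 1 := fun ξ => by
      rcases h1 (ξ.1 ⬝ᵥ θ.1 + ξ.2 * θ.2) with e | e <;> rw [e] <;> norm_num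
    rw [E_congr e1, E_const, one_mul]
    refine E_congr fun ξ => ?_
    rw [mul_pow, sq, ind_mul_self, fc]
  refine (E_mono e).trans ?_
  rw [E_comm]
  refine E_le fun ξ => ?_
  rw [E_mul_left]
  by_cases hξ : ξ.1 ≠ ξ.2 • c
  · rw [ind_pos hξ, one_mul]
    exact hη ξ hξ
  · rw [ind_neg hξ, zero_mul]
    positivity

end Vale.Agent.P060
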