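import Vale.Agent.P060.StB

/-! Label algebra: two easy cases. -/

namespace Vale.Agent.P060

open Finset Vale.Agent.P015

namespace LA13

variable {F : Type} [Field F] {n : ℕ}

theorem dot_elim (c : Lx n → F) (T : Fin n → F) (X : Bool → F) :
    c ⬝ᵥ Sum.elim T X = (fun l => c (Sum.inl l)) ⬝ᵥ T +
      (c (Sum.inr true) * X true + c (Sum.inr false) * X false) := by
  simp [dotProduct, Fintype.sum_sum_type]

theorem solve (at' : BB → (Lx n → F) × F)
    (h : ∀ p, ∃ l, (at' (false, p)).1 (Sum.inl l) ≠ (at' (true, p)).1 (Sum.inl l)) (x : F) :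
    ∃ (T : Bool → Fin n → F) (Y : Bool → F), ∀ a : BB,
      res (at' a).1 (Sum.elim (T a.2) (fun t => if t then 0 else x), Y a.2) = (at' a).2 := by
  have h1 : ∀ p, ∃ (T : Fin n → F) (Y : F), ∀ r,
      res (at' (r, p)).1 (Sum.elim T (fun t => if t then 0 else x), Y) = (at' (r, p)).2 := by
    intro p
    obtain ⟨l, hl⟩ := h p
    have h2 := sub_ne_zero.2 hl
    obtain ⟨lam, h3⟩ : ∃ lam : F,
        ((at' (false, p)).1 (Sum.inl l) - (at' (true, p)).1 (Sum.inl l)) * lam =
          (at' (false, p)).2 - (at' (true, p)).2 -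
            ((at' (false, p)).1 (Sum.inr false) - (at' (true, p)).1 (Sum.inr false)) * x :=
      ⟨_, mul_div_cancel₀ _ h2⟩
    refine ⟨Pi.single l lam, (at' (false, p)).2 - (at' (false, p)).1 (Sum.inl l) * lam -
      (at' (false, p)).1 (Sum.inr false) * x, fun r => ?_⟩
    unfold res
    rw [dot_elim, dotProduct_single]
    cases r
    · simp
    · simp only [↓reduceIte, mul_zero, Bool.false_eq_true]
      linear_combination -h3
  choose T Y hT using h1
  exact ⟨T, Y, fun a => hT a.2 a.1⟩

end LA13

theorem s_la1 : S_LA1 := by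
  rintro F _ _ n Sg α at' ⟨σ, hσ⟩ h
  obtain ⟨T, Y, h1⟩ := LA13.solve at' h 0
  obtain ⟨T', Y', h2⟩ := LA13.solve at' h σ
  refine ⟨fun a => (Sum.elim (T a.2) (fun t => if t then 0 else 0), Y a.2),
    fun a => (Sum.elim (T' a.2) (fun t => if t then 0 else σ), Y' a.2), fun p => Y' p + σ, Y,
    ⟨fun a => ?_, ⟨fun r p => ?_, fun p l => ?_⟩, fun r p => ?_, fun p l => ?_⟩, h1, h2⟩
  · simpa [tt] using hσ
  · simp [tt]
  · simp [tt]
  · simp [tt]
  · simp [tt]

theorem s_la3 : S_LA3 := by
  rintro F _ _ n Sg α c v σ ⟨hc, hα⟩ h1 h2 h3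
  have h0 : (2 : F) = 0 := CharTwo.two_eq_zero
  let sg : BB → F := fun a =>
    if a.1 = a.2 then v (false, a.2) + v (true, a.2) + σ else σ
  refine ⟨fun a => (Sum.elim
      (fun l => if a.1 then α l * (v (false, a.2) + v (true, a.2)) else 0) (fun _ => 0),
      v (false, a.2)),
    fun a => (Sum.elim 0 (fun t => if t then 0 else sg a.swap), v a), fun p => v (p, p) + σ,
    fun p => v (false, p),
    ⟨fun a => ?_, ⟨fun r p => ?_, fun p l => ?_⟩, fun r p => ?_, fun p l => ?_⟩,
    fun a => ?_, fun a => ?_⟩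
  · obtain ⟨r, p⟩ := a
    cases r <;> cases p <;> simpa [tt, sg]
  · simp [tt]
  · cases p
    · simp [tt, sg]
      ring
    · simp [tt, sg]
      linear_combination (-α l * (v (false, true) + v (true, true))) * h0
  · cases r <;> cases p <;> simp [tt, sg]
    · linear_combination (v (false, true)) * h0
    · linear_combination (v (true, false)) * h0
  · simp [tt]
  · obtain ⟨r, p⟩ := a
    unfold res
    rw [LA13.dot_elim]
    cases r
    · simp [dotProduct]
    · have h4 : (fun l => c (Sum.inl l)) ⬝ᵥ (fun l => α l * (v (false, p) + v (true, p))) =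
          v (false, p) + v (true, p) := by
        refine Eq.trans ?_ (one_mul _)
        rw [← hα]
        simp only [dotProduct, Finset.sum_mul]
        exact Finset.sum_congr rfl fun l _ => by ring
      simp only [↓reduceIte, h4, mul_zero]
      linear_combination (v (false, p)) * h0
  · unfold res
    rw [LA13.dot_elim]
    simp [hc]

end Vale.Agent.P060
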