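import Vale.Agent.P060.StB

/-! P060: label algebra, the case of equal free parts. -/

namespace Vale.Agent.P060

open Finset Vale.Agent.P015
open scoped BigOperators

namespace LA2

variable {F : Type} [Field F]

theorem lin {e K K' P1 P2 P3 P4 : F} (hK : K ≠ 0 ∨ K' ≠ 0)
    (h : K * (P1 - P3) + K' * (P2 - P4) = 0) :
    ∃ a b c d : F, e + K * a + K' * b + P1 = 0 ∧ e + K * c + K' * d + P2 = 0 ∧
      e + K * a + K' * c + P3 = 0 ∧ e + K * b + K' * d + P4 = 0 := by
  have ex : ∀ {k : F}, k ≠ 0 → ∀ y : F, ∃ x, k * x = y := fun hk y =>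
    ⟨_, mul_inv_cancel_left₀ hk y⟩
  rcases hK with hK | hK
  · obtain ⟨c, hc⟩ := ex hK (-(e + P2))
    obtain ⟨b, hb⟩ := ex hK (-(e + P4))
    obtain ⟨a, ha⟩ := ex hK (-(e + K' * b + P1))
    refine ⟨a, b, c, 0, by linear_combination ha, by linear_combination hc,
      mul_left_cancel₀ hK ?_, by linear_combination hb⟩
    linear_combination K * ha + K' * hc - K' * hb - h
  · obtain ⟨b, hb⟩ := ex hK (-(e + P1))
    obtain ⟨c, hc⟩ := ex hK (-(e + P3))
    obtain ⟨d, hd⟩ := ex hK (-(e + K * b + P4))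
    refine ⟨0, b, c, d, by linear_combination hb, mul_left_cancel₀ hK ?_,
      by linear_combination hc, by linear_combination hd⟩
    linear_combination K' * hd + K * hc - K * hb + h

/-- The four equations. -/
def Eq4 (e K K' A A' B B' σ a b c d b13 b14 b23 b24 b31 b32 b41 b42 : F) : Prop :=
  e + K * a + K' * b + (A * b13 ^ 2 + A' * b14 ^ 2 + B * b31 + B' * b41) = 0 ∧
  e + K * c + K' * d + (A * b23 ^ 2 + A' * b24 ^ 2 + B * b32 + B' * b42) = 0 ∧
  e + K * a + K' * c + ((A + A') * σ + A * b31 ^ 2 + A' * b32 ^ 2 + B * b13 + B' * b23) = 0 ∧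
  e + K * b + K' * d + ((A + A') * σ + A * b41 ^ 2 + A' * b42 ^ 2 + B * b14 + B' * b24) = 0

section
variable [Fintype F] [CharP F 2] {Sg : F → Prop} {θ : ℝ}

omit [CharP F 2] in
theorem nonempty (h : SigOK Sg θ) : ∃ σ, Sg σ := by
  by_cases h0 : Sg 0
  · exact ⟨0, h0⟩
  · exact (h.2.1 0 h0).imp fun _ h => h.1

theorem dens (h : SigOK Sg θ) : pr Sg ≤ θ := by
  refine le_trans (le_of_eq ?_) ((pr_mono (A := fun p : F × F => Sg p.1) ?_).trans h.2.2)
  · unfold pr
    rw [E_prod]
    exact E_congr fun c => (E_const (Ω := F) _).symm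
  · rintro p hp ⟨σ, h1, h2, -⟩
    exact h.1 _ _ _ hp h1 h2 (CharTwo.add_self_eq_zero _)

theorem quad (h : SigOK Sg θ) (hθ : θ < 1 / 2) {u a : F} (hu : u ≠ 0) (ha : a ≠ 0) (b : F) :
    ∃ σ x, Sg σ ∧ u * σ = a * x ^ 2 + b * x := by
  classical
  let f : F →+ F :=
    { toFun := fun x => u⁻¹ * (a * x ^ 2 + b * x)
      map_zero' := by simp
      map_add' := fun x y => by rw [CharTwo.add_sq]; ring }
  by_contra hcon
  have hmiss : ∀ σ, Sg σ → σ ∉ f.range := by
    rintro σ hσ ⟨x, hx⟩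
    exact hcon ⟨σ, x, hσ, by rw [← hx]; exact mul_inv_cancel_left₀ hu _⟩
  obtain ⟨σ0, h0⟩ := nonempty h
  have hker : Nat.card f.ker ≤ 2 := by
    have : (f.ker : Set F) ⊆ {0, -(b / a)} := fun x hx => by
      have h1 : u⁻¹ * (a * x ^ 2 + b * x) = 0 := hx
      have h2 : x * (a * x + b) = 0 := by
        linear_combination (mul_eq_zero.1 h1).resolve_left (inv_ne_zero hu)
      rcases mul_eq_zero.1 h2 with h3 | h3
      · exact Or.inl h3
      · refine Or.inr (mul_left_cancel₀ ha ?_)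
        rw [mul_neg, mul_div_cancel₀ _ ha]
        linear_combination h3
    exact (Set.ncard_le_ncard this).trans (Set.ncard_insert_le _ _ |>.trans (by simp))
  have hidx : f.range.index = 2 := by
    have h1 : f.range.index = Nat.card f.ker := AddSubgroup.index_range
    have h2 : f.range.index ≠ 0 := AddSubgroup.index_ne_zero_of_finite
    have h3 : f.range.index ≠ 1 := fun h3 =>
      hmiss σ0 h0 (by rw [AddSubgroup.index_eq_one.1 h3]; trivial)
    omega
  have hc : ∀ c, ¬ Sg c → c ∈ f.range := fun c hc => by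
    obtain ⟨σ, h1, h2⟩ := h.2.1 c hc
    have := (AddSubgroup.add_mem_iff_of_index_two hidx).2
      (iff_of_false (hmiss _ h2) (hmiss _ h1))
    rwa [add_assoc, CharTwo.add_self_eq_zero, add_zero] at this
  have h1 : pr (fun c => ¬ Sg c) ≤ pr fun c => Sg (σ0 + c) := pr_mono fun c h1 => by
    by_contra h2
    exact hmiss σ0 h0 ((AddSubgroup.add_mem_cancel_right _ (hc c h1)).1 (hc _ h2))
  have h2 : (pr fun c => Sg (σ0 + c)) = pr Sg :=
    Fintype.expect_equiv (Equiv.addLeft σ0) _ _ fun _ => rfl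
  have h3 : pr (fun c => ¬ Sg c) = 1 - pr Sg := by
    unfold pr
    rw [E_congr fun c => ind_not (Sg c), E_sub, E_const]
  linarith [dens h]

theorem alg (h : SigOK Sg θ) (hθ : θ < 1 / 2) (e γ A A' B B' : F)
    (hn : ¬ (A = 0 ∧ A' = 0 ∧ B = 0 ∧ B' = 0 ∧ γ = 1)) :
    ∃ σ a b c d b13 b14 b23 b24 b31 b32 b41 b42, Sg σ ∧
      Eq4 e (A + 1 + γ) (A' + 1 + γ) A A' B B' σ a b c d b13 b14 b23 b24 b31 b32 b41 b42 := by
  have h2 : (2 : F) = 0 := CharTwo.two_eq_zero
  obtain ⟨σ0, h0⟩ := nonempty h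
  have hKK : A + 1 + γ + (A' + 1 + γ) = A + A' := by linear_combination (1 + γ) * h2
  by_cases hK : A + 1 + γ ≠ 0 ∨ A' + 1 + γ ≠ 0
  · suffices ∃ σ b13 b14 b23 b24 : F, Sg σ ∧ (A + 1 + γ) * ((A * b13 ^ 2 + A' * b14 ^ 2 + B * 0 +
        B' * 0) - ((A + A') * σ + A * 0 ^ 2 + A' * 0 ^ 2 + B * b13 + B' * b23)) +
        (A' + 1 + γ) * ((A * b23 ^ 2 + A' * b24 ^ 2 + B * 0 + B' * 0) -
        ((A + A') * σ + A * 0 ^ 2 + A' * 0 ^ 2 + B * b14 + B' * b24)) = 0 by
      obtain ⟨σ, b13, b14, b23, b24, h1, h3⟩ := this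
      obtain ⟨a, b, c, d, h4⟩ := lin (e := e) hK h3
      exact ⟨σ, a, b, c, d, b13, b14, b23, b24, 0, 0, 0, 0, h1, h4⟩
    generalize A + 1 + γ = K at hK hKK ⊢
    generalize A' + 1 + γ = K' at hK hKK ⊢
    by_cases hA : A + A' = 0
    · exact ⟨σ0, 0, 0, 0, 0, h0, by linear_combination (-(K + K') * σ0) * hA⟩
    have hu : (A + A') ^ 2 ≠ 0 := pow_ne_zero 2 hA
    have hA' : A ≠ 0 ∨ A' ≠ 0 := by
      by_contra hc
      push Not at hc
      exact hA (by rw [hc.1, hc.2, add_zero])
    rcases hK with hK | hK <;> rcases hA' with hA' | hA'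
    · obtain ⟨σ, x, h1, h3⟩ := quad h hθ hu (mul_ne_zero hK hA') (-(K * B))
      exact ⟨σ, x, 0, 0, 0, h1, by linear_combination -h3 - (A + A') * σ * hKK⟩
    · obtain ⟨σ, x, h1, h3⟩ := quad h hθ hu (mul_ne_zero hK hA') (-(K' * B))
      exact ⟨σ, 0, x, 0, 0, h1, by linear_combination -h3 - (A + A') * σ * hKK⟩
    · obtain ⟨σ, x, h1, h3⟩ := quad h hθ hu (mul_ne_zero hK hA') (-(K * B'))
      exact ⟨σ, 0, 0, x, 0, h1, by linear_combination -h3 - (A + A') * σ * hKK⟩
    · obtain ⟨σ, x, h1, h3⟩ := quad h hθ hu (mul_ne_zero hK hA') (-(K' * B'))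
      exact ⟨σ, 0, 0, 0, x, h1, by linear_combination -h3 - (A + A') * σ * hKK⟩
  · push Not at hK
    obtain rfl : A = A' := by linear_combination hK.1 - hK.2
    by_cases hB' : B' = 0
    · by_cases hB : B = 0
      · have hA : A ≠ 0 := fun hA => hn ⟨hA, hA, hB, hB', by linear_combination hK.1 - hA - h2⟩
        obtain ⟨x, hx⟩ := FiniteField.isSquare_of_char_two (ringChar.eq F 2) (e / A)
        have hx' : A * x ^ 2 = e := by rw [sq, ← hx, mul_div_cancel₀ _ hA]
        refine ⟨σ0, 0, 0, 0, 0, 0, x, x, 0, 0, x, x, 0, h0, ?_, ?_, ?_, ?_⟩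
        · linear_combination hx' + e * h2 + x * hB'
        · linear_combination hx' + e * h2 + x * hB
        · linear_combination hx' + (e + A * σ0) * h2 + x * hB'
        · linear_combination hx' + (e + A * σ0) * h2 + x * hB
      · have hx : B * (e / B) = e := mul_div_cancel₀ _ hB
        generalize e / B = x at hx
        refine ⟨σ0, 0, 0, 0, 0, x, x, 0, 0, x, x, 0, 0, h0, ?_, ?_, ?_, ?_⟩
        · linear_combination hx + (e + A * x ^ 2) * h2
        · linear_combination hx + e * h2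
        · linear_combination hx + (e + A * x ^ 2 + A * σ0) * h2
        · linear_combination hx + (e + A * σ0) * h2
    · have hx : B' * (e / B') = e := mul_div_cancel₀ _ hB'
      generalize e / B' = x at hx
      refine ⟨σ0, 0, 0, 0, 0, 0, 0, x, x, 0, 0, x, x, h0, ?_, ?_, ?_, ?_⟩
      · linear_combination hx + e * h2
      · linear_combination hx + (e + A * x ^ 2) * h2
      · linear_combination hx + (e + A * σ0) * h2
      · linear_combination hx + (e + A * x ^ 2 + A * σ0) * h2

end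

/-- Labels with prescribed coordinates on the line `c`. -/
def mk {n : ℕ} (c : (Lx n → F) × F) (T : Fin n → F) (x β : F) : Lb F n :=
  (Sum.elim T fun t => if t then β else x,
    c.2 + c.1 ⬝ᵥ Sum.elim T fun t => if t then β else x)

theorem res_mk [CharP F 2] {n : ℕ} (c : (Lx n → F) × F) (T : Fin n → F) (x β : F) :
    res c.1 (mk c T x β) = c.2 := by
  unfold res mk
  rw [add_assoc, CharTwo.add_self_eq_zero, add_zero]

theorem mk_snd {n : ℕ} (c : (Lx n → F) × F) (α : Fin n → F) (s x β : F) :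
    (mk c (fun l => α l * s) x β).2 = c.2 + (α ⬝ᵥ fun l => c.1 (Sum.inl l)) * s +
      c.1 (Sum.inr false) * x + c.1 (Sum.inr true) * β := by
  simp only [mk, dotProduct, Fintype.sum_sum_type, Sum.elim_inl, Sum.elim_inr, Fintype.sum_bool,
    if_true, Bool.false_eq_true, if_false, sum_mul]
  rw [sum_congr rfl fun l _ => (by ring : c.1 (Sum.inl l) * (α l * s) = α l * c.1 (Sum.inl l) * s)]
  ring

theorem reduce [CharP F 2] {n : ℕ} {Sg : F → Prop} {α : Fin n → F} {bt : Bool → (Lx n → F) × F}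
    {γ σ : F} (hγ : ∀ r, (α ⬝ᵥ fun l => (bt r).1 (Sum.inl l)) = γ) (hσ : Sg σ) (t β β' : BB → F)
    (h : Eq4 ((bt false).2 + (bt true).2) ((bt false).1 (Sum.inr false) + 1 + γ)
      ((bt true).1 (Sum.inr false) + 1 + γ) ((bt false).1 (Sum.inr false))
      ((bt true).1 (Sum.inr false)) ((bt false).1 (Sum.inr true)) ((bt true).1 (Sum.inr true)) σ
      (t (false, false)) (t (false, true)) (t (true, false)) (t (true, true))
      (β (false, false)) (β (false, true)) (β (true, false)) (β (true, true))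
      (β' (false, false)) (β' (false, true)) (β' (true, false)) (β' (true, true))) :
    Solv Sg α fun a => bt a.1 := by
  have h2 : (2 : F) = 0 := CharTwo.two_eq_zero
  obtain ⟨e1, e2, e3, e4⟩ := h
  let θ : BB → Lb F n := fun a => mk (bt a.1)
    (fun l => α l * if a.1 then t (false, a.2) + t (true, a.2) else 0)
    (t a + σ + β' a.swap ^ 2) (β a)
  let θ' : BB → Lb F n := fun a => mk (bt a.1)
    (fun l => α l * if a.1 then t (a.2, false) + t (a.2, true) else 0)
    (t a.swap + β a.swap ^ 2) (β' a)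
  have t1 : ∀ a, tt θ θ' a = t a := fun a => by
    show t a + β a ^ 2 + β a ^ 2 = t a
    rw [add_assoc, CharTwo.add_self_eq_zero, add_zero]
  have t2 : ∀ a, tt θ' θ a = t a.swap + σ := fun a => by
    show t a.swap + σ + β' a ^ 2 + β' a ^ 2 = _
    rw [add_assoc, CharTwo.add_self_eq_zero, add_zero]
  refine ⟨θ, θ', fun p => (θ' (false, p)).2 + tt θ θ' (p, true),
    fun p => (θ (false, p)).2 + tt θ' θ (p, true), ⟨fun a => ?_, ⟨fun r p => ?_, fun p l => ?_⟩,
      fun r p => ?_, fun p l => ?_⟩, fun a => res_mk _ _ _ _, fun a => res_mk _ _ _ _⟩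
  · rw [t1, t2, Prod.swap_swap, ← add_assoc, CharTwo.add_self_eq_zero, zero_add]
    exact hσ
  · cases r
    · rfl
    · refine CharTwo.add_eq_zero.1 ?_
      simp only [t2, θ, mk_snd, hγ, Prod.swap_prod_mk, Bool.not_true, if_true, Bool.false_eq_true,
        if_false]
      cases p
      · linear_combination e3 + σ * h2
      · linear_combination e4 + σ * h2
  · rw [t1, t1]
    show α l * t (false, p) + α l * 0 = α l * t (true, p) + α l * (t (false, p) + t (true, p))
    linear_combination -(α l * t (true, p)) * h2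
  · cases r
    · rfl
    · refine CharTwo.add_eq_zero.1 ?_
      simp only [t1, θ', mk_snd, hγ, Prod.swap_prod_mk, Bool.not_true, if_true, Bool.false_eq_true,
        if_false]
      cases p
      · linear_combination e1
      · linear_combination e2
  · rw [t2, t2]
    show α l * (t (p, false) + σ) + α l * 0 =
      α l * (t (p, true) + σ) + α l * (t (p, false) + t (p, true))
    linear_combination -(α l * t (p, true)) * h2

end LA2

open LA2

theorem s_la2 : S_LA2 := by
  intro F _ _ _ n Sg θ α bt h hθ hT hn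
  have hγ : ∀ r, (α ⬝ᵥ fun l => (bt r).1 (Sum.inl l)) = α ⬝ᵥ fun l => (bt false).1 (Sum.inl l) := by
    intro r
    cases r
    · rfl
    · simp only [hT]
  obtain ⟨σ, a, b, c, d, b13, b14, b23, b24, b31, b32, b41, b42, hσ, he⟩ :=
    alg h hθ ((bt false).2 + (bt true).2) (α ⬝ᵥ fun l => (bt false).1 (Sum.inl l))
      ((bt false).1 (Sum.inr false)) ((bt true).1 (Sum.inr false)) ((bt false).1 (Sum.inr true))
      ((bt true).1 (Sum.inr true)) (fun ⟨h1, h2, h3, h4, h5⟩ => hn
        ⟨⟨fun t => by cases t <;> assumption, h5⟩,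
          fun t => by cases t <;> assumption, (hγ true).trans h5⟩)
  exact reduce hγ hσ (fun x => if x.1 then (if x.2 then d else c) else if x.2 then b else a)
    (fun x => if x.1 then (if x.2 then b24 else b23) else if x.2 then b14 else b13)
    (fun x => if x.1 then (if x.2 then b42 else b41) else if x.2 then b32 else b31) he

end Vale.Agent.P060
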