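import Vale.Agent.P060.StB

/-! Counting low rank functionals on the code. -/

namespace Vale.Agent.P060

open Finset Vale.Agent.P015

namespace LR

/-- a complement of the kernel inside a subspace -/
theorem exists_compl {F V T : Type} [Field F] [AddCommGroup V] [Module F V] [AddCommGroup T]
    [Module F T] [Module.Finite F T] (W : Submodule F V) (f : V →ₗ[F] T) :
    ∃ E : Submodule F V, E ≤ W ∧ Module.finrank F E ≤ Module.finrank F T ∧
      W ≤ (W ⊓ LinearMap.ker f) ⊔ E := by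
  obtain ⟨g, hg⟩ := (f.domRestrict W).rangeRestrict.exists_rightInverse_of_surjective
    (LinearMap.range_rangeRestrict _)
  refine ⟨LinearMap.range (W.subtype ∘ₗ g), ?_, ?_, fun w hw => ?_⟩
  · rintro _ ⟨x, rfl⟩
    exact (g x).2
  · exact (LinearMap.finrank_range_le _).trans (Submodule.finrank_le _)
  · set x := (f.domRestrict W).rangeRestrict ⟨w, hw⟩ with hx
    have h1 : f (g x : V) = f w := congrArg Subtype.val (LinearMap.congr_fun hg x)
    have e : w = (w - (g x : V)) + (g x : V) := by abel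
    rw [e]
    refine Submodule.add_mem_sup ⟨W.sub_mem hw (g x).2, ?_⟩ ⟨x, rfl⟩
    show f (w - (g x : V)) = 0
    rw [map_sub, h1, sub_self]

theorem pow_le {F A : Type} [Field F] [CommRing A] [Algebra F A] {Q I E : Submodule F A}
    (h : Q ≤ I ⊔ E) (hE : E ≤ Q) (e : ℕ) : Q ^ (e + 1) ≤ I * Q ^ e ⊔ E ^ (e + 1) := by
  induction e with
  | zero => simpa using h
  | succ e ih =>
    calc Q ^ (e + 1 + 1) = Q ^ (e + 1) * Q := pow_succ _ _
      _ ≤ (I * Q ^ e ⊔ E ^ (e + 1)) * Q := mul_le_mul' ih le_rfl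
      _ = I * Q ^ (e + 1) ⊔ E ^ (e + 1) * Q := by rw [Submodule.sup_mul, mul_assoc, ← pow_succ]
      _ ≤ I * Q ^ (e + 1) ⊔ E ^ (e + 1) * (I ⊔ E) := sup_le_sup_left (mul_le_mul' le_rfl h) _
      _ ≤ I * Q ^ (e + 1) ⊔ E ^ (e + 1 + 1) := by
        rw [Submodule.mul_sup, ← pow_succ]
        refine sup_le le_sup_left (sup_le (le_sup_of_le_left ?_) le_sup_right)
        rw [mul_comm]
        exact mul_le_mul' le_rfl (pow_le_pow_left' hE _)

/-- representatives indexed by keys -/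
theorem reps {ι X : Type} [Zero X] (T : Finset ι) (R : ι → X → Prop) :
    ∃ Rep : Finset X, Rep.card ≤ T.card ∧ ∀ i ∈ T, ∀ S, R i S → ∃ S0 ∈ Rep, R i S0 := by
  classical
  refine ⟨T.image fun i => if h : ∃ S, R i S then h.choose else 0, card_image_le,
    fun i hi S hS => ⟨_, mem_image_of_mem _ hi, ?_⟩⟩
  have h : ∃ S, R i S := ⟨S, hS⟩
  rw [dif_pos h]
  exact h.choose_spec

/-- a subspace of small dimension is spanned by a tuple -/
theorem exists_tuple {F V : Type} [Field F] [AddCommGroup V] [Module F V] [Module.Finite F V]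
    (L P : Submodule F V) (hLP : L ≤ P) (n : ℕ) (h : Module.finrank F L ≤ n) :
    ∃ t : Fin n → P, Submodule.span F (Set.range fun i => (t i : V)) = L := by
  classical
  let bs := Module.finBasis F L
  refine ⟨fun i => if h : (i : ℕ) < Module.finrank F L then ⟨bs ⟨i, h⟩, hLP (bs ⟨i, h⟩).2⟩ else 0,
    le_antisymm ?_ fun x hx => ?_⟩
  · rw [Submodule.span_le]
    rintro _ ⟨i, rfl⟩
    by_cases hi : (i : ℕ) < Module.finrank F L
    · simp only [dif_pos hi]
      exact (bs ⟨i, hi⟩).2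
    · simp only [dif_neg hi]
      exact L.zero_mem
  · have e : x = ∑ i, bs.repr ⟨x, hx⟩ i • (bs i : V) := by
      have := congrArg L.subtype (bs.sum_repr ⟨x, hx⟩)
      rw [map_sum] at this
      exact this.symm
    rw [e]
    refine Submodule.sum_mem _ fun i _ => Submodule.smul_mem _ _ (Submodule.subset_span ?_)
    refine ⟨⟨i, lt_of_lt_of_le i.2 h⟩, ?_⟩
    simp only [dif_pos i.2]

variable {F : Type} [Field F] [Fintype F] [DecidableEq F] {b k : ℕ}

/-- the functional given by a formal combination -/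
def sg (S : Fn F b k) : Module.Dual F (Fn F b k) where
  toFun φ := S ⬝ᵥ φ
  map_add' := dotProduct_add S
  map_smul' c φ := dotProduct_smul c S φ

/-- a low rank functional is killed by a subspace of small codimension -/
theorem low (hd : S_Dim) {d j : ℕ} {S : Fn F b k} (hS : LowRk d j S) :
    ∃ L E : Submodule F (Fn F b k), L ≤ P1 F b k ∧ E ≤ P1 F b k ∧
      Module.finrank F E ≤ (k + 2) * j ^ 3 ∧ P1 F b k ≤ L ⊔ E ∧
      L * (P1 F b k ^ (3 * d) * U1 F b k) ≤ LinearMap.ker (sg S) := by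
  obtain ⟨-, d2, -, d4, -⟩ := hd F b k
  obtain ⟨a, ha⟩ := hS
  set P := P1 F b k
  set U := U1 F b k
  obtain ⟨E, hE, hEj, hQ⟩ := exists_compl (P ^ d) (LinearMap.pi a)
  rw [Module.finrank_fin_fun] at hEj
  set I := P ^ d ⊓ LinearMap.ker (LinearMap.pi a)
  have hI : I * (P ^ (2 * d + 1) * U) ≤ LinearMap.ker (sg S) :=
    Submodule.mul_le.2 fun φ hφ ψ hψ => ha φ hφ.1 (fun i => congrFun hφ.2 i) ψ hψ
  have hc : Module.finrank F (E ^ 3 * U : Submodule F (Fn F b k)) ≤ (k + 2) * j ^ 3 := by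
    have h1 : Module.finrank F (E ^ 3 : Submodule F (Fn F b k)) ≤ j ^ 3 := by
      rw [pow_three, pow_three]
      exact (d2 _ _).trans (Nat.mul_le_mul hEj ((d2 _ _).trans (Nat.mul_le_mul hEj hEj)))
    rw [mul_comm (k + 2)]
    exact (d2 _ _).trans (Nat.mul_le_mul h1 d4)
  let f : Fn F b k →ₗ[F] Module.Dual F (E ^ 3 * U : Submodule F (Fn F b k)) :=
    ((LinearMap.mul F (Fn F b k)).compr₂ (sg S)).compl₂ (E ^ 3 * U).subtype
  obtain ⟨E', hE', hE'c, hP⟩ := exists_compl P f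
  rw [Subspace.dual_finrank_eq] at hE'c
  refine ⟨P ⊓ LinearMap.ker f, E', inf_le_left, hE', hE'c.trans hc, hP, ?_⟩
  have h3 : P ^ (3 * d) ≤ I * P ^ (2 * d) ⊔ E ^ 3 := by
    have := pow_le hQ hE 2
    rwa [← pow_mul, ← pow_mul, mul_comm d, mul_comm d] at this
  refine (mul_le_mul' le_rfl (mul_le_mul' h3 le_rfl)).trans ?_
  rw [Submodule.sup_mul, Submodule.mul_sup]
  refine sup_le ((mul_le_mul' inf_le_left le_rfl).trans (le_of_eq_of_le ?_ hI)) ?_
  · rw [pow_succ]; ring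
  · exact Submodule.mul_le.2 fun l hl ψ hψ => LinearMap.congr_fun hl.2 ⟨ψ, hψ⟩

end LR

theorem s_lr (hd : S_Dim) (ha : S_Aff) (hl : S_Lin) : S_LR := by
  intro F _ _ _ b k d j
  classical
  have _ := ha
  obtain ⟨d1, d2, d3, d4, -⟩ := hd F b k
  obtain ⟨-, -, l3⟩ := hl F
  set P := P1 F b k with hP
  set U := U1 F b k with hU
  let sp (t : Fin (b + 1) → P) : Submodule F (Fn F b k) :=
    Submodule.span F (Set.range fun i => (t i : Fn F b k))
  have h1 (t : Fin (b + 1) → P) : ∃ E : Submodule F (Fn F b k), E ≤ P ∧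
      Module.finrank F E ≤ (k + 2) * j ^ 3 ∧
      ((∃ E' : Submodule F (Fn F b k), E' ≤ P ∧ Module.finrank F E' ≤ (k + 2) * j ^ 3 ∧
        P ≤ sp t ⊔ E') → P ≤ sp t ⊔ E) := by
    by_cases h : ∃ E' : Submodule F (Fn F b k), E' ≤ P ∧
        Module.finrank F E' ≤ (k + 2) * j ^ 3 ∧ P ≤ sp t ⊔ E'
    · obtain ⟨E, e1, e2, e3⟩ := h
      exact ⟨E, e1, e2, fun _ => e3⟩
    · exact ⟨⊥, bot_le, by simp, fun h' => absurd h' h⟩
  choose E hEP hEc hE using h1
  have h2 (t : Fin (b + 1) → P) := l3 (Fn F b k) (E t ^ (3 * d + 1) * U)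
    ((k + 2) * (3 * d + 2) ^ ((k + 2) * j ^ 3)) (by
      rw [mul_comm (k + 2)]
      exact (d2 _ _).trans (Nat.mul_le_mul (d1 _ _ _ (hEc t)) d4))
  choose D hDc hD using h2
  obtain ⟨Rep, hRc, hR⟩ := LR.reps ((univ : Finset (Fin (b + 1) → P)).sigma D)
    fun i (S : Fn F b k) => sp i.1 * (P ^ (3 * d) * U) ≤ LinearMap.ker (LR.sg S) ∧
      ∀ v ∈ E i.1 ^ (3 * d + 1) * U, LR.sg S v = i.2 v
  refine ⟨Rep, hRc.trans ?_, fun S hS => ?_⟩
  · rw [card_sigma]
    refine (sum_le_card_nsmul _ _ _ fun t _ => hDc t).trans ?_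
    rw [smul_eq_mul, lrE, pow_add, card_univ, Fintype.card_fun, Fintype.card_fin,
      Module.card_eq_pow_finrank (K := F), ← pow_mul]
    refine Nat.mul_le_mul_right _ (Nat.pow_le_pow_right Fintype.card_pos ?_)
    rw [pow_two]
    exact Nat.mul_le_mul_right _ d3
  · obtain ⟨L, E', hL, hE'P, hE'c, hPL, hK⟩ := LR.low hd hS
    obtain ⟨t, ht⟩ := LR.exists_tuple L P hL (b + 1) ((Submodule.finrank_mono hL).trans d3)
    have ht' : sp t = L := ht
    obtain ⟨a', ha', hSa⟩ := hD t (LR.sg S)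
    obtain ⟨S0, hS0, k1, k2⟩ := hR ⟨t, a'⟩ (mem_sigma.2 ⟨mem_univ _, ha'⟩) S
      ⟨by rw [ht']; exact hK, hSa⟩
    refine ⟨S0, hS0, fun φ hφ => ?_⟩
    have h3 : Cd F b k d ≤ sp t * (P ^ (3 * d) * U) ⊔ E t ^ (3 * d + 1) * U := by
      have := mul_le_mul' (LR.pow_le (hE t ⟨E', hE'P, hE'c, by rw [ht']; exact hPL⟩) (hEP t)
        (3 * d)) (le_refl U)
      rwa [Submodule.sup_mul, mul_assoc] at this
    obtain ⟨x, hx, y, hy, rfl⟩ := Submodule.mem_sup.1 (h3 hφ)
    have e1 : LR.sg S x = 0 := hK (ht' ▸ hx)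
    have e2 : LR.sg S0 x = 0 := k1 hx
    show LR.sg S (x + y) = LR.sg S0 (x + y)
    rw [map_add, map_add, e1, e2, hSa y hy, k2 y hy]

end Vale.Agent.P060
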