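import Vale.Agent.P060.StB

/-! The label selection step. -/

namespace Vale.Agent.P060

open Finset Vale.Agent.P015
open scoped BigOperators

namespace Lab

lemma prod_close {K : Type} [Fintype K] [Nonempty K] (a1 a2 g1 g2 : K → ℝ) (η : ℝ) (hη : 0 < η)
    (ha : ∀ κ, 0 ≤ a2 κ ∧ a2 κ ≤ 1) (hg : ∀ κ, 0 ≤ g1 κ ∧ g1 κ ≤ 1)
    (h1 : 𝔼 κ, (a1 κ - g1 κ) ^ 2 ≤ η ^ 2) (h2 : 𝔼 κ, (a2 κ - g2 κ) ^ 2 ≤ η ^ 2) :
    (𝔼 κ, g1 κ * g2 κ) - 2 * η ≤ 𝔼 κ, a1 κ * a2 κ := by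
  have key : ∀ x y : ℝ, 0 ≤ y → y ≤ 1 → -(x ^ 2 / (2 * η) + η / 2) ≤ x * y := by
    intro x y hy0 hy1
    have e : x ^ 2 / (2 * η) + η / 2 + x * y = ((x + η * y) ^ 2 + η ^ 2 * (1 - y ^ 2)) / (2 * η) := by
      field_simp
      ring
    have h0 : 0 ≤ 1 - y ^ 2 := by nlinarith
    have : 0 ≤ ((x + η * y) ^ 2 + η ^ 2 * (1 - y ^ 2)) / (2 * η) := by positivity
    linarith
  have pt : ∀ κ, g1 κ * g2 κ - ((a1 κ - g1 κ) ^ 2 / (2 * η) + (a2 κ - g2 κ) ^ 2 / (2 * η) + η) ≤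
      a1 κ * a2 κ := by
    intro κ
    have k1 := key (a1 κ - g1 κ) (a2 κ) (ha κ).1 (ha κ).2
    have k2 := key (a2 κ - g2 κ) (g1 κ) (hg κ).1 (hg κ).2
    nlinarith
  have hE := E_mono pt
  rw [E_sub, E_add, E_add, E_div, E_div, E_const] at hE
  have b1 : (𝔼 κ, (a1 κ - g1 κ) ^ 2) / (2 * η) ≤ η / 2 := by
    rw [div_le_iff₀ (by positivity)]; nlinarith
  have b2 : (𝔼 κ, (a2 κ - g2 κ) ^ 2) / (2 * η) ≤ η / 2 := by
    rw [div_le_iff₀ (by positivity)]; nlinarith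
  linarith

lemma num1 (q : ℝ) (hq : 100 ≤ q) (n : ℕ) :
    1 / q ^ (96 * n + 485) ≤ (1 / q ^ (6 * n + 30)) ^ 16 / 2 ^ 30 := by
  have h0 : 0 < q := by linarith
  have h5 : (2 : ℝ) ^ 30 ≤ q ^ 5 := by
    calc (2 : ℝ) ^ 30 ≤ 100 ^ 5 := by norm_num
      _ ≤ q ^ 5 := pow_le_pow_left₀ (by norm_num) hq 5
  rw [div_pow, one_pow, ← pow_mul, div_div]
  apply one_div_le_one_div_of_le (by positivity)
  have e : q ^ (96 * n + 485) = q ^ ((6 * n + 30) * 16) * q ^ 5 := by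
    rw [← pow_add]; congr 1; ring
  rw [e]
  exact mul_le_mul_of_nonneg_left h5 (by positivity)

lemma num2 (q : ℝ) (hq : 100 ≤ q) (n : ℕ) :
    1 / q ^ (6 * n + 19) ≤
      (1 / (100 * q ^ (2 * (n + 3)))) ^ 2 / (q ^ (n + 2) * q ^ (n + 2)) - 2 * (1 / q ^ (6 * n + 30)) := by
  have h0 : 0 < q := by linarith
  set x := q ^ n with hx
  have hx0 : 0 < x := by positivity
  have e1 : q ^ (6 * n + 19) = x ^ 6 * q ^ 19 := by rw [hx, ← pow_mul, ← pow_add]; congr 1; ring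
  have e2 : q ^ (2 * (n + 3)) = x ^ 2 * q ^ 6 := by rw [hx, ← pow_mul, ← pow_add]; congr 1; ring
  have e3 : q ^ (n + 2) = x * q ^ 2 := by rw [hx, ← pow_add]
  have e4 : q ^ (6 * n + 30) = x ^ 6 * q ^ 30 := by rw [hx, ← pow_mul, ← pow_add]; congr 1; ring
  rw [e1, e2, e3, e4]
  have e5 : (1 / (100 * (x ^ 2 * q ^ 6))) ^ 2 / (x * q ^ 2 * (x * q ^ 2)) - 2 * (1 / (x ^ 6 * q ^ 30)) -
      1 / (x ^ 6 * q ^ 19) = (q ^ 14 / 10000 - 2 - q ^ 11) / (x ^ 6 * q ^ 30) := by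
    field_simp
    ring
  have h3 : (1000000 : ℝ) ≤ q ^ 3 := by
    calc (1000000 : ℝ) = 100 ^ 3 := by norm_num
      _ ≤ q ^ 3 := pow_le_pow_left₀ (by norm_num) hq 3
  have h11 : (1 : ℝ) ≤ q ^ 11 := one_le_pow₀ (by linarith)
  have h14 : q ^ 14 = q ^ 3 * q ^ 11 := by ring
  have h6 : 0 ≤ q ^ 14 / 10000 - 2 - q ^ 11 := by
    rw [h14]; nlinarith
  have : 0 ≤ (q ^ 14 / 10000 - 2 - q ^ 11) / (x ^ 6 * q ^ 30) := by positivity
  linarith

section
variable {F : Type} [Field F] [Fintype F] [DecidableEq F] {b k N n : ℕ}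

lemma rs_le {Z W Y : Type} (K : Z → W → Y → ℝ) (D : Z → W → Y → Prop) (h : ∀ z w y, 0 ≤ K z w y)
    (z : Z) (w : W) (y : Y) : 0 ≤ rs K D z w y ∧ rs K D z w y ≤ K z w y :=
  ⟨mul_nonneg (h z w y) (ind_nonneg _), mul_le_of_le_one_right (h z w y) (ind_le_one _)⟩

lemma abar_mono (La : (Fin b → F) → Co F k → Lx n → Co F k)
    (K K' : (Fin b → F) → Wt F k N → Co F k → ℝ) (h : ∀ z w y, K z w y ≤ K' z w y)
    (κ : Ky F N) (θ : Lb F n) : abar La K κ θ ≤ abar La K' κ θ := by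
  unfold abar aK
  refine E_mono fun s => mul_le_mul_of_nonneg_left (E_mono fun w => sum_le_sum fun y _ =>
    mul_le_mul_of_nonneg_right (h _ _ _) (ind_nonneg _)) (Nat.cast_nonneg _)

lemma abar_nonneg (La : (Fin b → F) → Co F k → Lx n → Co F k)
    (K : (Fin b → F) → Wt F k N → Co F k → ℝ) (h : ∀ z w y, 0 ≤ K z w y)
    (κ : Ky F N) (θ : Lb F n) : 0 ≤ abar La K κ θ := by
  unfold abar aK
  exact E_nonneg fun s => mul_nonneg (Nat.cast_nonneg _) (E_nonneg fun w => sum_nonneg fun y _ =>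
    mul_nonneg (h _ _ _) (ind_nonneg _))

lemma abar_sum (La : (Fin b → F) → Co F k → Lx n → Co F k)
    (K : (Fin b → F) → Wt F k N → Co F k → ℝ)
    (part : (Fin b → F) → Wt F k N → Co F k → Lx n → F) (κ : Ky F N) (θ : Lb F n) :
    ∑ c, abar La (rs K fun z w y => part z w y = c) κ θ = abar La K κ θ := by
  unfold abar aK
  rw [← E_sum]
  refine E_congr fun s => ?_
  rw [← mul_sum, ← E_sum]
  congr 1
  refine E_congr fun w => ?_
  rw [sum_comm]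
  refine sum_congr rfl fun y _ => ?_
  rw [← sum_mul]
  congr 1
  unfold rs
  rw [← mul_sum]
  have : ∑ c, ind (part s.1 w y = c) = 1 := by
    rw [sum_eq_single (part s.1 w y)]
    · exact ind_pos rfl
    · intro c _ hc
      exact ind_neg fun h => hc h.symm
    · intro h; exact absurd (mem_univ _) h
  rw [this, mul_one]

lemma sum_abar (hk : S_AK) (La : (Fin b → F) → Co F k → Lx n → Co F k)
    (K : (Fin b → F) → Wt F k N → Co F k → ℝ) (h : Kern K) (κ : Ky F N) :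
    ∑ θ, abar La K κ θ = 1 := by
  unfold abar
  rw [← E_sum, E_congr fun s => (hk F b k N n La K).2.2.2 h.2 s κ, E_const]

lemma sum_gK (La : (Fin b → F) → Co F k → Lx n → Co F k)
    (K : (Fin b → F) → Wt F k N → Co F k → ℝ) (c : Lx n → F) (κ : Ky F N) :
    ∑ v, gK La K c v κ = ∑ θ, abar La K κ θ := by
  unfold gK
  rw [sum_comm]
  refine sum_congr rfl fun θ _ => ?_
  rw [← sum_mul]
  have : ∑ v, ind (res c θ = v) = 1 := by
    rw [sum_eq_single (res c θ)]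
    · exact ind_pos rfl
    · intro v _ hv
      exact ind_neg fun h => hv h.symm
    · intro h; exact absurd (mem_univ _) h
  rw [this, one_mul]

lemma gK_nonneg (La : (Fin b → F) → Co F k → Lx n → Co F k)
    (K : (Fin b → F) → Wt F k N → Co F k → ℝ) (h : ∀ z w y, 0 ≤ K z w y) (c : Lx n → F) (v : F)
    (κ : Ky F N) : 0 ≤ gK La K c v κ :=
  sum_nonneg fun θ _ => mul_nonneg (ind_nonneg _) (abar_nonneg La K h κ θ)

lemma E_abar (hk : S_AK) (La : (Fin b → F) → Co F k → Lx n → Co F k)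
    (K : (Fin b → F) → Wt F k N → Co F k → ℝ) (h : Lb F n → ℝ) :
    𝔼 κ, ∑ θ, h θ * abar La K κ θ =
      𝔼 s : Zt F b k, 𝔼 w, ∑ y, K s.1 w y * h (labW La s w y) := by
  have e : ∀ κ : Ky F N, ∑ θ, h θ * abar La K κ θ = 𝔼 s, ∑ θ, aK La K s κ θ * h θ := by
    intro κ
    rw [E_sum]
    refine sum_congr rfl fun θ _ => ?_
    rw [E_mul_right, mul_comm]
    rfl
  rw [E_congr e, E_comm]
  exact E_congr fun s => (hk F b k N n La K).1 s (fun _ θ => h θ)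

lemma E_gK_le (hk : S_AK) (La : (Fin b → F) → Co F k → Lx n → Co F k)
    (K K' : (Fin b → F) → Wt F k N → Co F k → ℝ) (h : ∀ z w y, K z w y ≤ K' z w y)
    (c : Lx n → F) (v : F) :
    𝔼 κ, gK La K c v κ ≤
      𝔼 s : Zt F b k, 𝔼 w, ∑ y, K' s.1 w y * ind (res c (labW La s w y) = v) := by
  unfold gK
  rw [E_abar hk La K fun θ => ind (res c θ = v)]
  exact E_mono fun s => E_mono fun w => sum_le_sum fun y _ =>
    mul_le_mul_of_nonneg_right (h _ _ _) (ind_nonneg _)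

lemma E_gK_ne (hk : S_AK) (La : (Fin b → F) → Co F k → Lx n → Co F k)
    (K K' : (Fin b → F) → Wt F k N → Co F k → ℝ) (h : ∀ z w y, K z w y ≤ K' z w y)
    (c : Lx n → F) (v : F) :
    ∑ v', ind (v' ≠ v) * 𝔼 κ, gK La K c v' κ ≤
      𝔼 s : Zt F b k, 𝔼 w, ∑ y, K' s.1 w y * ind (res c (labW La s w y) ≠ v) := by
  have e : ∑ v', ind (v' ≠ v) * 𝔼 κ, gK La K c v' κ =
      𝔼 κ, ∑ θ, ind (res c θ ≠ v) * abar La K κ θ := by
    rw [sum_congr rfl fun v' _ => (E_mul_left (ind (v' ≠ v)) fun κ => gK La K c v' κ).symm, ← E_sum]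
    refine E_congr fun κ => ?_
    unfold gK
    simp only [mul_sum]
    rw [sum_comm]
    refine sum_congr rfl fun θ _ => ?_
    rw [sum_eq_single (res c θ)]
    · rw [ind_pos (rfl : res c θ = res c θ), one_mul]
    · intro v' _ hv
      rw [ind_neg (p := res c θ = v') fun h => hv h.symm, zero_mul, mul_zero]
    · intro h; exact absurd (mem_univ _) h
  rw [e, E_abar hk La K fun θ => ind (res c θ ≠ v)]
  exact E_mono fun s => E_mono fun w => sum_le_sum fun y _ =>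
    mul_le_mul_of_nonneg_right (h _ _ _) (ind_nonneg _)

lemma abar_le_one (hk : S_AK) (La : (Fin b → F) → Co F k → Lx n → Co F k)
    (K : (Fin b → F) → Wt F k N → Co F k → ℝ) (h : Kern K) (κ : Ky F N) (θ : Lb F n) :
    abar La K κ θ ≤ 1 := by
  rw [← sum_abar hk La K h κ]
  exact single_le_sum (fun θ' _ => abar_nonneg La K h.1 κ θ') (mem_univ θ)

lemma gK_le_one (hk : S_AK) (La : (Fin b → F) → Co F k → Lx n → Co F k)
    (K K' : (Fin b → F) → Wt F k N → Co F k → ℝ) (h' : Kern K') (h0 : ∀ z w y, 0 ≤ K z w y)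
    (h : ∀ z w y, K z w y ≤ K' z w y) (c : Lx n → F) (v : F) (κ : Ky F N) :
    gK La K c v κ ≤ 1 := by
  rw [← sum_abar hk La K' h' κ]
  exact sum_le_sum fun θ _ =>
    (mul_le_of_le_one_left (abar_nonneg La K h0 κ θ) (ind_le_one _)).trans (abar_mono La K K' h κ θ)

end

end Lab

open Lab in
theorem s_lab (hc : S_Chi) (hk : S_AK) (hp : S_Part) (hi : S_Inv) (hs : S_Sel) : S_Lab := by
  intro F _ _ _ _ b k N n Sg θ R δ α fl La K hq hSg hR hθ hK hLa hδ hfl h1 h2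
  obtain ⟨χ, hχ⟩ := (hc F).1
  have hq0 : 0 < qq F := by linarith
  have hq1 : 1 ≤ qq F := by linarith
  set η : ℝ := 1 / qq F ^ (6 * n + 30) with hη
  have hη0 : 0 < η := by positivity
  have hη1 : η ≤ 1 := by
    rw [hη, div_le_one (by positivity)]; exact one_le_pow₀ hq1
  choose part hpart using fun r => hp F χ hχ b k N n (La r) (K r) δ η (hK r) (hLa r) hη0 hη1
    (hδ.trans (num1 _ hq n))
  set Kc : Bool → (Lx n → F) → (Fin b → F) → Wt F k N → Co F k → ℝ :=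
    fun r c => rs (K r) fun z w y => part r z w y = c with hKc
  have hKc0 : ∀ r c z w y, 0 ≤ Kc r c z w y := fun r c z w y => (rs_le _ _ (hK r).1 z w y).1
  have hKc1 : ∀ r c z w y, Kc r c z w y ≤ K r z w y := fun r c z w y => (rs_le _ _ (hK r).1 z w y).2
  obtain ⟨at', ⟨t, t', ρ, ρ', hAlg, ht, ht'⟩, hat⟩ := hs F n (Ky F N) Sg θ R α fl
    (fun r c v κ => gK (La r) (Kc r c) c v κ) hSg hR hθ
    (fun r c v κ => gK_nonneg _ _ (hKc0 r c) c v κ)
    (fun r κ => by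
      rw [sum_congr rfl fun c _ => sum_gK (La r) (Kc r c) c κ, sum_comm,
        sum_congr rfl fun θ _ => abar_sum (La r) (K r) (part r) κ θ]
      exact sum_abar hk _ _ (hK r) κ)
    hfl
    (fun r c v hNH hf => (E_gK_ne hk (La r) _ (K r) (hKc1 r c) c v).trans (h1 r c v hNH hf))
    (fun r c hNH hf v => (E_gK_le hk (La r) _ (K r) (hKc1 r c) c v).trans (h2 r c hNH hf v))
  refine ⟨t, t', ρ, ρ', hAlg, fun a => ?_⟩
  have i1 := hi F χ hχ b k N n (La a.1) (Kc a.1 (at' a).1) η (at' a).1 (hpart a.1 (at' a).1) (t a)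
  have i2 := hi F χ hχ b k N n (La a.2) (Kc a.2 (at' a.swap).1) η (at' a.swap).1
    (hpart a.2 (at' a.swap).1) (t' a.swap)
  rw [ht a] at i1
  rw [ht' a.swap] at i2
  have hQ : 1 ≤ qq F ^ (n + 2) := one_le_pow₀ hq1
  have pc := prod_close _ _ _ _ η hη0
    (fun κ => ⟨abar_nonneg (La a.2) _ (hKc0 a.2 (at' a.swap).1) κ (t' a.swap),
      (abar_mono (La a.2) _ _ (hKc1 a.2 (at' a.swap).1) κ (t' a.swap)).trans
        (abar_le_one hk _ _ (hK a.2) κ _)⟩)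
    (fun κ => ⟨div_nonneg (gK_nonneg (La a.1) _ (hKc0 a.1 (at' a).1) (at' a).1 (at' a).2 κ)
        (by positivity),
      (div_le_self (gK_nonneg (La a.1) _ (hKc0 a.1 (at' a).1) (at' a).1 (at' a).2 κ) hQ).trans
        (gK_le_one hk _ _ _ (hK a.1) (hKc0 a.1 (at' a).1) (hKc1 a.1 (at' a).1) _ _ κ)⟩) i1 i2
  have ha := hat a
  have e : (𝔼 κ, gK (La a.1) (Kc a.1 (at' a).1) (at' a).1 (at' a).2 κ / qq F ^ (n + 2) *
      (gK (La a.2) (Kc a.2 (at' a.swap).1) (at' a.swap).1 (at' a.swap).2 κ / qq F ^ (n + 2))) =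
      (𝔼 κ, gK (La a.1) (Kc a.1 (at' a).1) (at' a).1 (at' a).2 κ *
        gK (La a.2) (Kc a.2 (at' a.swap).1) (at' a.swap).1 (at' a.swap).2 κ) /
        (qq F ^ (n + 2) * qq F ^ (n + 2)) := by
    rw [← E_div]
    exact E_congr fun κ => div_mul_div_comm _ _ _ _
  rw [e] at pc
  have hd := div_le_div_of_nonneg_right ha
    (show 0 ≤ qq F ^ (n + 2) * qq F ^ (n + 2) by positivity)
  have hm : (𝔼 κ, abar (La a.1) (Kc a.1 (at' a).1) κ (t a) *
      abar (La a.2) (Kc a.2 (at' a.swap).1) κ (t' a.swap)) ≤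
      𝔼 κ, abar (La a.1) (K a.1) κ (t a) * abar (La a.2) (K a.2) κ (t' a.swap) :=
    E_mono fun κ => mul_le_mul (abar_mono _ _ _ (hKc1 _ _) κ _) (abar_mono _ _ _ (hKc1 _ _) κ _)
      (abar_nonneg _ _ (hKc0 _ _) κ _) (abar_nonneg _ _ (hK _).1 κ _)
  have hn := num2 _ hq n
  linarith

end Vale.Agent.P060
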