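import Vale.Agent.P060.StA

/-! Linear maps and uniform measures. -/

namespace Vale.Agent.P060

open Finset Vale.Agent.P015
open scoped BigOperators

namespace Lin

theorem shift {V : Type} [AddCommGroup V] [Fintype V] (f : V → ℝ) (c : V) :
    𝔼 v, f (v + c) = 𝔼 v, f v := law_equiv (Equiv.addRight c) (fun v => v) f

theorem shift' {V : Type} [AddCommGroup V] [Fintype V] (f : V → ℝ) (c : V) :
    𝔼 v, f (c + v) = 𝔼 v, f v := law_equiv (Equiv.addLeft c) (fun v => v) f

end Lin

open Lin in
theorem s_lin : S_Lin := by
  intro F _ _
  refine ⟨fun V W _ _ _ _ _ _ L hL f => ?_, fun V _ _ _ ι _ _ W _ _ L h A J => ?_,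
    fun V _ _ _ A n hn => ?_⟩
  · choose s hs using hL
    have h1 : ∀ w, 𝔼 v, f (L v) = 𝔼 v, f (L v + w) := fun w => by
      rw [← shift (fun v => f (L v)) (s w)]
      simp only [map_add, hs]
    rw [← E_const (Ω := W) (𝔼 v, f (L v)), E_congr h1, E_comm]
    simp only [shift' f, E_const]
  · induction J using Finset.induction_on with
    | empty =>
      rw [prod_empty, pr, E_congr fun _ => ind_pos fun i hi => absurd hi (notMem_empty i),
        E_const]
    | insert i J hi ih =>
      choose g hg1 hg2 using h i
      have h1 : ∀ w, pr (fun v => ∀ j ∈ insert i J, A j (L j v))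
          = 𝔼 v, ind (A i (L i (v + w))) * ind (∀ j ∈ J, A j (L j v)) := fun w => by
        rw [pr, ← shift (fun v => ind (∀ j ∈ insert i J, A j (L j v))) (g w)]
        refine E_congr fun v => ?_
        rw [← ind_and]
        refine ind_congr ?_
        rw [forall_mem_insert, map_add, map_add, hg1]
        refine and_congr_right fun _ => forall₂_congr fun j hj => ?_
        rw [map_add, hg2 w j (ne_of_mem_of_not_mem hj hi), add_zero]
      rw [prod_insert hi, ← ih, ← E_const (Ω := V) (pr fun v => ∀ j ∈ insert i J, A j (L j v)),
        E_congr h1, E_comm]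
      simp only [E_mul_right, shift' fun v => ind (A i (L i v)), E_mul_left]
      rfl
  · classical
    have : Finite (Module.Dual F A) := Module.finite_of_finite F
    have := Fintype.ofFinite (Module.Dual F A)
    choose ex hex using fun a : Module.Dual F A => LinearMap.exists_extend a
    refine ⟨univ.image ex, card_image_le.trans ?_, fun a => ⟨ex (a.comp A.subtype),
      mem_image_of_mem _ (mem_univ _), fun v hv => ?_⟩⟩
    · rw [card_univ, Module.card_eq_pow_finrank (K := F), Subspace.dual_finrank_eq]
      exact Nat.pow_le_pow_right Fintype.card_pos hn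
    · exact (LinearMap.congr_fun (hex (a.comp A.subtype)) ⟨v, hv⟩).symm

end Vale.Agent.P060
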