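import Vale.Agent.P060.StB

namespace Vale.Agent.P060

open Finset Vale.Agent.P015
open scoped BigOperators

namespace ND

variable {F : Type} [Field F] [Fintype F] [DecidableEq F] {b k : ℕ}

theorem pr_and_ge {Ω : Type} [Fintype Ω] (A B : Ω → Prop) :
    pr A - pr B ≤ pr fun ω => A ω ∧ ¬ B ω := by
  unfold pr
  rw [← E_sub]
  refine E_mono fun ω => ?_
  by_cases h : A ω <;> by_cases h' : B ω <;> simp [ind, h, h']

theorem sep_cons {e m : ℕ} {z : Fin b → F} {ζ : Fin m → Fin b → F}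
    (h : Sep (fun f => f ∈ P1 F b k ^ e) ζ)
    (hz : ¬ ∀ f ∈ P1 F b k ^ e, (∀ l, f (ζ l, 0) = 0) → f (z, 0) = 0) :
    Sep (fun f => f ∈ P1 F b k ^ e) (Fin.cons z ζ : Fin (m + 1) → Fin b → F) := by
  push Not at hz
  obtain ⟨f, hf, h0, h1⟩ := hz
  intro l
  refine Fin.cases ?_ (fun l => ?_) l
  · refine ⟨(f (z, 0))⁻¹ • f, Submodule.smul_mem _ _ hf, by simp [h1], fun l' hl' => ?_⟩
    obtain ⟨l'', rfl⟩ := Fin.exists_succ_eq.2 hl'
    simp [h0]
  · obtain ⟨g, hg, g1, g0⟩ := h l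
    refine ⟨g - (g (z, 0) * (f (z, 0))⁻¹) • f, Submodule.sub_mem _ hg (Submodule.smul_mem _ _ hf),
      by simp [g1, h0], fun l' hl' => ?_⟩
    refine Fin.cases (fun _ => ?_) (fun l'' hl'' => ?_) l' hl'
    · simp [h1]
    · simp [h0, g0 l'' fun e => hl'' (by rw [e])]

theorem sep_pr {e Lm : ℕ} {δ1 γ : ℝ} (hT : TGp F b k e Lm δ1) (hγ : 0 ≤ γ)
    (A : (Fin b → F) → Prop) (hA : δ1 + γ ≤ pr A) : ∀ m, m ≤ Lm →
    γ ^ m ≤ pr fun ζ : Fin m → Fin b → F => Sep (fun f => f ∈ P1 F b k ^ e) ζ ∧ ∀ l, A (ζ l)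
  | 0, _ => by
    rw [pow_zero]
    exact le_E fun ζ => (ind_pos ⟨fun l => l.elim0, fun l => l.elim0⟩).ge
  | m + 1, hm => by
    have ih := sep_pr hT hγ A hA m (by omega)
    rw [← (law_equiv (Fin.consEquiv fun _ : Fin (m + 1) => Fin b → F) fun ζ => ζ).pr_eq
      (fun ζ => Sep (fun f => f ∈ P1 F b k ^ e) ζ ∧ ∀ l, A (ζ l)), pr, E_prod, E_comm, pow_succ]
    refine (mul_le_mul_of_nonneg_right ih hγ).trans ?_
    rw [pr, ← E_mul_right]
    refine E_mono fun ζ => ?_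
    by_cases h : Sep (fun f => f ∈ P1 F b k ^ e) ζ ∧ ∀ l, A (ζ l)
    · rw [ind_pos h, one_mul]
      have h1 := hT (Fin m) (fun l => LinearMap.proj (ζ l, 0)) (by simpa using hm)
      have h2 := pr_and_ge A fun z : Fin b → F => ∀ f ∈ P1 F b k ^ e,
        (∀ l, (LinearMap.proj (ζ l, 0) : Module.Dual F (Fn F b k)) f = 0) → f (z, 0) = 0
      refine le_trans (by linarith) (h2.trans (pr_mono fun z hz => ?_))
      exact ⟨sep_cons h.1 hz.2, fun l => Fin.cases hz.1 h.2 l⟩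
    · rw [ind_neg h, zero_mul]
      exact E_nonneg fun _ => ind_nonneg _

/-- linear coefficients at the chosen points -/
def evL {m : ℕ} (ζ : Fin m → Fin b → F) : Fn F b k →ₗ[F] (Fin m × Fin (k + 1) → F) :=
  LinearMap.pi fun p => (LinearMap.proj (ζ p.1, Pi.single p.2 1) : Fn F b k →ₗ[F] F) -
    (LinearMap.proj (ζ p.1, 0) : Fn F b k →ₗ[F] F)

omit [Fintype F] [DecidableEq F] in
theorem evL_apply {m : ℕ} (ζ : Fin m → Fin b → F) (f : Fn F b k) (p : Fin m × Fin (k + 1)) :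
    evL ζ f p = co f (ζ p.1) (some p.2) := rfl

omit [Fintype F] [DecidableEq F] in
theorem u_mem (i : Fin (k + 1)) : (fun s : Zt F b k => s.2 i) ∈ U1 F b k :=
  Submodule.subset_span (Set.mem_insert_of_mem _ ⟨i, rfl⟩)

theorem evL_onto (ha : S_Aff) {d m : ℕ} {ζ : Fin m → Fin b → F}
    (h : Sep (fun f => f ∈ P1 F b k ^ (d - 1)) ζ) (w : Fin m × Fin (k + 1) → F) :
    ∃ f ∈ Cd F b k d, evL ζ f = w := by
  obtain ⟨a1, -, a3, -⟩ := ha F b k
  choose f hf f1 f0 using h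
  refine ⟨∑ p, w p • (f p.1 * fun s : Zt F b k => s.2 p.2), Submodule.sum_mem _ fun p _ =>
    Submodule.smul_mem _ _ (Submodule.mul_mem_mul (a3 _ _ (by omega) (hf p.1)) (u_mem p.2)), ?_⟩
  funext p
  rw [map_sum, Finset.sum_apply, Finset.sum_eq_single p]
  · simp [evL_apply, co, a1 _ _ (hf p.1) (ζ p.1, Pi.single p.2 1), f1]
  · intro p' _ hp
    by_cases h1 : p.1 = p'.1
    · have h2 : p'.2 ≠ p.2 := fun h2 => hp (Prod.ext h1.symm h2)
      simp [evL_apply, co, h2]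
    · simp [evL_apply, co, a1 _ _ (hf p'.1) (ζ p.1, Pi.single p.2 1), f0 _ _ h1]
  · simp

variable {ι : Type} [Fintype ι]

/-- the random symmetric form -/
def rho (φ : ι → Fn F b k) (G : ι × ι → F) (s : Zt F b k) : Fn F b k :=
  s.2 0 • (fun s' : Zt F b k => s'.2 0) + ∑ p, G p • (φ p.1 s • φ p.2 + φ p.2 s • φ p.1)

/-- the part that depends on the coefficients -/
noncomputable def hG (φ : ι → Fn F b k) (S : Fn F b k) : (ι × ι → F) →ₗ[F] Fn F b k :=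
  Fintype.linearCombination F fun p => (S ⬝ᵥ φ p.1) • φ p.2 + (S ⬝ᵥ φ p.2) • φ p.1

omit [Fintype F] [DecidableEq F] in
theorem rho_symm (φ : ι → Fn F b k) (G : ι × ι → F) (s s' : Zt F b k) :
    rho φ G s s' = rho φ G s' s := by
  simp only [rho, Pi.add_apply, Pi.smul_apply, Finset.sum_apply, smul_eq_mul]
  rw [mul_comm]
  exact congrArg _ (sum_congr rfl fun p _ => by ring)

theorem TS_eq (φ : ι → Fn F b k) (G : ι × ι → F) (S : Fn F b k) (s : Zt F b k) :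
    TS (rho φ G) S s = S ⬝ᵥ rho φ G s := congrArg _ (funext fun s' => rho_symm φ G s' s)

theorem TS_rho (φ : ι → Fn F b k) (G : ι × ι → F) (S : Fn F b k) (s : Zt F b k) :
    TS (rho φ G) S s = (S ⬝ᵥ fun s' : Zt F b k => s'.2 0) * s.2 0 + hG φ S G s := by
  rw [TS_eq, rho, dotProduct_add, dotProduct_smul, dotProduct_sum]
  simp only [hG, Fintype.linearCombination_apply, Finset.sum_apply, Pi.smul_apply, Pi.add_apply,
    smul_eq_mul, dotProduct_smul, dotProduct_add]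
  rw [mul_comm]
  exact congrArg _ (sum_congr rfl fun p _ => by ring)

theorem pr_ev (ha : S_Aff) (hl : S_Lin) [DecidableEq ι] {d m : ℕ} {φ : ι → Fn F b k}
    (hφ : ∀ f ∈ Cd F b k d, ∃ μ, φ μ = f) {S : Fn F b k} (hS : ∃ f ∈ Cd F b k d, S ⬝ᵥ f ≠ 0)
    {ζ : Fin m → Fin b → F} (h : Sep (fun f => f ∈ P1 F b k ^ (d - 1)) ζ)
    (w : Fin m × Fin (k + 1) → F) :
    pr (fun G : ι × ι → F => evL ζ (hG φ S G) = w) ≤ qq F / qq F ^ (m * (k + 1)) := by
  obtain ⟨f0, hf0, h0⟩ := hS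
  obtain ⟨μ1, h1⟩ := hφ _ (Submodule.smul_mem _ (S ⬝ᵥ f0)⁻¹ hf0)
  have h2 : S ⬝ᵥ φ μ1 = 1 := by rw [h1, dotProduct_smul, smul_eq_mul, inv_mul_cancel₀ h0]
  let L : ((ι × ι → F) × F) →ₗ[F] (Fin m × Fin (k + 1) → F) :=
    evL ζ ∘ₗ (hG φ S).coprod (LinearMap.toSpanSingleton F _ (φ μ1))
  have hL : Function.Surjective L := fun w => by
    obtain ⟨f, hf, rfl⟩ := evL_onto ha h w
    obtain ⟨μ, rfl⟩ := hφ f hf
    refine ⟨(Pi.single (μ1, μ) 1, -(S ⬝ᵥ φ μ)), congrArg (evL ζ) ?_⟩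
    simp [hG, h2]
  have h3 := ((hl F).1 _ _ L hL).pr_eq fun v => v = w
  have h4 := pr_prod_snd (fun x : (ι × ι → F) × F => L x = w) 0
  have h5 : pr (fun v : Fin m × Fin (k + 1) → F => v = w) = 1 / qq F ^ (m * (k + 1)) := by
    rw [pr_eq_card, Finset.filter_eq']
    simp [qq]
  have h6 := pr_mono (A := fun x : (ι × ι → F) × F => L x = w ∧ x.2 = 0)
    (B := fun x => L x = w) fun _ h => h.1
  have hq : (0 : ℝ) < Fintype.card F := Nat.cast_pos.2 Fintype.card_pos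
  rw [h4, h3, h5, div_le_iff₀ hq] at h6
  refine le_trans (le_of_eq (pr_congr fun G => ?_)) (h6.trans (le_of_eq (by ring)))
  simp [L]

theorem pr_bad (ha : S_Aff) (hl : S_Lin) [DecidableEq ι] {d m Lm : ℕ} {δ1 : ℝ}
    (hT : TGp F b k (d - 1) Lm δ1) (h1 : δ1 ≤ qq F / qq F ^ k) (hm : m ≤ Lm) {φ : ι → Fn F b k}
    (hφ : ∀ f ∈ Cd F b k d, ∃ μ, φ μ = f) {S : Fn F b k} (hS : ∃ f ∈ Cd F b k d, S ⬝ᵥ f ≠ 0)
    (c : F) : pr (fun G : ι × ι → F => ¬ pr (fun z : Fin b → F => ∀ i,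
      co (fun s => c * s.2 0 + TS (rho φ G) S s) z (some i) = 0) ≤ 2 * qq F / qq F ^ k) ≤
      qq F / qq F ^ (2 * m) := by
  have hq : 0 < qq F := Nat.cast_pos.2 Fintype.card_pos
  have key : pr (fun G : ι × ι → F => ¬ pr (fun z : Fin b → F => ∀ i,
      co (fun s => c * s.2 0 + TS (rho φ G) S s) z (some i) = 0) ≤ 2 * qq F / qq F ^ k) *
      (qq F / qq F ^ k) ^ m ≤ qq F / qq F ^ (m * (k + 1)) := by
    rw [pr, ← E_mul_right]
    refine le_trans (E_mono fun G => ?_) (le_trans (E_comm fun (G : ι × ι → F)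
      (ζ : Fin m → Fin b → F) => ind (Sep (fun f => f ∈ P1 F b k ^ (d - 1)) ζ ∧ ∀ l, ∀ i,
        co (fun s => c * s.2 0 + TS (rho φ G) S s) (ζ l) (some i) = 0)).le (E_le fun ζ => ?_))
    · by_cases h : pr (fun z : Fin b → F => ∀ i,
          co (fun s => c * s.2 0 + TS (rho φ G) S s) z (some i) = 0) ≤ 2 * qq F / qq F ^ k
      · rw [ind_neg (not_not.2 h), zero_mul]
        exact E_nonneg fun _ => ind_nonneg _
      · rw [ind_pos h, one_mul]
        refine sep_pr hT (div_pos hq (pow_pos hq k)).le (fun z => ∀ i,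
          co (fun s => c * s.2 0 + TS (rho φ G) S s) z (some i) = 0) ?_ m hm
        have h2 := not_le.1 h
        rw [mul_div_assoc] at h2
        linarith
    · by_cases h : Sep (fun f => f ∈ P1 F b k ^ (d - 1)) ζ
      · refine le_trans (pr_mono fun G hG' => ?_) (pr_ev ha hl hφ hS h
          (-evL ζ fun s => (c + S ⬝ᵥ fun s' : Zt F b k => s'.2 0) * s.2 0))
        funext p
        have h2 := hG'.2 p.1 p.2
        simp only [co, TS_rho] at h2
        simp only [Pi.neg_apply, evL_apply, co]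
        linear_combination h2
      · exact (E_le fun G => (ind_neg fun h' => h h'.1).le).trans (by positivity)
  rw [← le_div_iff₀ (by positivity)] at key
  refine key.trans (le_of_eq ?_)
  rw [div_pow, ← pow_mul, mul_add, mul_one, pow_add, two_mul, pow_add, mul_comm k m]
  field_simp

theorem union {Ω κ : Type} [Fintype Ω] [Nonempty Ω] (T : Finset κ) (B : κ → Ω → Prop) {c : ℝ}
    (h : ∀ x ∈ T, pr (B x) ≤ c) (h1 : T.card * c < 1) : ∃ ω, ∀ x ∈ T, ¬ B x ω := by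
  have h2 : pr (fun G => ∃ x ∈ T, B x G) < 1 := by
    refine lt_of_le_of_lt (E_mono fun G => ind_exists_le T fun x => B x G) ?_
    rw [E_sum]
    refine lt_of_le_of_lt (sum_le_card_nsmul T _ c h) ?_
    rwa [nsmul_eq_mul]
  by_contra h
  push Not at h
  exact absurd (le_E fun G => (ind_pos (h G)).ge) (not_le.2 h2)

theorem main (ha : S_Aff) (hl : S_Lin) [CharP F 2] [DecidableEq ι] {d j Lm : ℕ} {δ1 : ℝ}
    (hT : TGp F b k (d - 1) Lm δ1) (h1 : δ1 ≤ qq F / qq F ^ k) (hm : lrE b k d j + 2 ≤ Lm)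
    {Rep : Finset (Fn F b k)} (hR : RepOK d j Rep) {φ : ι → Fn F b k}
    (hφ : ∀ f ∈ Cd F b k d, ∃ μ, φ μ = f) (hφ' : ∀ μ, φ μ ∈ Cd F b k d) :
    ∃ ρ : Zt F b k → Fn F b k, RhoOK d j (2 * qq F / qq F ^ k) ρ := by
  classical
  have hq : 1 < qq F := Nat.one_lt_cast.2 Fintype.one_lt_card
  have hmem : ∀ G s, rho φ G s ∈ Cd F b k d := fun G s =>
    Submodule.add_mem _ (Submodule.smul_mem _ _ (((ha F b k).2.2.2.2.2.2.2.2.1 d).1 (u_mem 0)))
      (Submodule.sum_mem _ fun p _ => Submodule.smul_mem _ _ (Submodule.add_mem _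
        (Submodule.smul_mem _ _ (hφ' _)) (Submodule.smul_mem _ _ (hφ' _))))
  obtain ⟨G, hG⟩ := union ((Rep.filter fun S => ∃ f ∈ Cd F b k d, S ⬝ᵥ f ≠ 0) ×ˢ (univ : Finset F))
    (fun x (G : ι × ι → F) => ¬ pr (fun z : Fin b → F => ∀ i,
      co (fun s => x.2 * s.2 0 + TS (rho φ G) x.1 s) z (some i) = 0) ≤ 2 * qq F / qq F ^ k)
    (fun x hx => pr_bad ha hl hT h1 hm hφ (mem_filter.1 (mem_product.1 hx).1).2 x.2) (by
      have h3 : ((((Rep.filter fun S => ∃ f ∈ Cd F b k d, S ⬝ᵥ f ≠ 0) ×ˢ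
          (univ : Finset F)).card : ℕ) : ℝ) ≤ qq F ^ lrE b k d j * qq F := by
        rw [card_product, card_univ, Nat.cast_mul]
        refine mul_le_mul_of_nonneg_right ?_ (by positivity)
        exact_mod_cast (card_filter_le _ _).trans hR.1
      refine lt_of_le_of_lt (mul_le_mul_of_nonneg_right h3 (by positivity)) ?_
      rw [← mul_div_assoc, div_lt_one (by positivity), ← pow_succ, ← pow_succ]
      exact pow_lt_pow_right₀ hq (by omega))
  refine ⟨rho φ G, rho_symm φ G, fun s => ?_, hmem G, fun S hS ⟨f, hf, h0⟩ c => ?_⟩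
  · simp only [rho, Pi.add_apply, Pi.smul_apply, Finset.sum_apply, smul_eq_mul]
    rw [sum_eq_zero fun p _ => ?_, add_zero, sq]
    rw [mul_comm (φ p.2 s), CharTwo.add_self_eq_zero, mul_zero]
  · obtain ⟨S0, hS0, hE⟩ := hR.2 S hS
    have h3 : TS (rho φ G) S = TS (rho φ G) S0 :=
      funext fun s => by rw [TS_eq, TS_eq, hE _ (hmem G s)]
    rw [h3]
    exact not_not.1 (hG (S0, c)
      (mem_product.2 ⟨mem_filter.2 ⟨hS0, f, hf, hE f hf ▸ h0⟩, mem_univ _⟩))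

end ND

open ND in
theorem s_nd (ha : S_Aff) (hl : S_Lin) (hr : S_LR) : S_ND := by
  intro F _ _ _ _ b k d j Lm δ1 hT h1 hm
  classical
  obtain ⟨Rep, hR⟩ := hr F b k d j
  have : Fintype (Cd F b k d) := Fintype.ofFinite _
  exact main ha hl hT h1 hm hR (φ := fun μ : Cd F b k d => μ.1) (fun f hf => ⟨⟨f, hf⟩, rfl⟩)
    fun μ => μ.2

end Vale.Agent.P060
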