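import Vale.Agent.P060.StB

/-! Off diagonal Fourier coefficients of the label. -/

namespace Vale.Agent.P060

open Finset Vale.Agent.P015
open scoped BigOperators

namespace Off

section Av
variable {Z W Y : Type} [Fintype Z] [Fintype W] [Fintype Y]

/-- Average against a kernel. -/
noncomputable def av (K f : Z → W → Y → ℝ) : ℝ := 𝔼 z, 𝔼 w, ∑ y, K z w y * f z w y

lemma av_le {K K' f f' : Z → W → Y → ℝ} (h : ∀ z w y, K z w y * f z w y ≤ K' z w y * f' z w y) :
    av K f ≤ av K' f' :=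
  E_mono fun z => E_mono fun w => sum_le_sum fun y _ => h z w y

lemma av_mono {K f f' : Z → W → Y → ℝ} (hK : Kern K) (h : ∀ z w y, f z w y ≤ f' z w y) :
    av K f ≤ av K f' :=
  av_le fun z w y => mul_le_mul_of_nonneg_left (h z w y) (hK.1 z w y)

lemma av_aff [Nonempty Z] [Nonempty W] {K : Z → W → Y → ℝ} (hK : Kern K) (f : Z → W → Y → ℝ)
    (a c : ℝ) : av K (fun z w y => a * f z w y + c) = a * av K f + c := by
  unfold av
  have h : ∀ z w, ∑ y, K z w y * (a * f z w y + c) = a * (∑ y, K z w y * f z w y) + c := by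
    intro z w
    have e : ∑ y, K z w y * (a * f z w y + c) =
        a * (∑ y, K z w y * f z w y) + c * ∑ y, K z w y := by
      rw [mul_sum, mul_sum, ← sum_add_distrib]
      exact sum_congr rfl fun y _ => by ring
    rw [e, hK.2, mul_one]
  simp only [h, E_add, E_mul_left, E_const]

lemma av_cs [Nonempty Z] [Nonempty W] {K : Z → W → Y → ℝ} (hK : Kern K) (f : Z → W → Y → ℝ)
    {B : ℝ} (h : av K (fun z w y => f z w y ^ 2) ≤ B) : av K f ≤ √B := by
  have h1 : av K (fun z w y => (2 * av K f) * f z w y + -(av K f) ^ 2) ≤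
      av K (fun z w y => f z w y ^ 2) :=
    av_mono hK fun z w y => by nlinarith [sq_nonneg (f z w y - av K f)]
  rw [av_aff hK] at h1
  exact Real.le_sqrt_of_sq_le (by nlinarith)

lemma av_free {K : Z → W → Y → ℝ} (hK : Kern K) (f : Z → W → ℝ) :
    av K (fun z w _ => f z w) = 𝔼 z, 𝔼 w, f z w := by
  unfold av
  refine E_congr fun z => E_congr fun w => ?_
  rw [← sum_mul, hK.2, one_mul]

end Av

variable {F : Type} [Field F] [Fintype F] [DecidableEq F] {b k N n : ℕ}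

/-- Linear part of the phase. -/
def Lam (La : (Fin b → F) → Co F k → Lx n → Co F k) (ξ : Lb F n) (z : Fin b → F) (x y : Co F k) :
    Fin (k + 1) → F := fun i => ∑ l, ξ.1 l * La z x l (some i) + ξ.2 * y (some i)

/-- Constant part of the phase. -/
def cst (La : (Fin b → F) → Co F k → Lx n → Co F k) (ξ : Lb F n) (z : Fin b → F) (x y : Co F k) :
    F := ∑ l, ξ.1 l * La z x l none + ξ.2 * y none

/-- The restricted Fourier coefficient. -/
noncomputable def GG (χ : F → ℝ) (h : Ky F N → ℝ) (w : Wt F k N) (ζ : Fin (k + 1) → F) : ℝ :=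
  fh χ (fun r => h ![w.1.1, w.1.2, r]) w.2.1 ζ

omit [Fintype F] [DecidableEq F] in
lemma phase (La : (Fin b → F) → Co F k → Lx n → Co F k) (ξ : Lb F n) (z : Fin b → F)
    (u : Fin (k + 1) → F) (w : Wt F k N) (y : Co F k) :
    ξ.1 ⬝ᵥ (labW La (z, u) w y).1 + ξ.2 * (labW La (z, u) w y).2 =
      cst La ξ z w.2.2 y + Lam La ξ z w.2.2 y ⬝ᵥ u := by
  simp only [labW, cst, Lam, ev, dotProduct, mul_add, add_mul, sum_add_distrib, mul_sum, sum_mul]
  rw [sum_comm (s := (univ : Finset (Lx n)))]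
  simp only [mul_assoc]
  ring

lemma basic (hk : S_AK) {χ : F → ℝ} (hχ : Chi χ)
    (La : (Fin b → F) → Co F k → Lx n → Co F k) (K : (Fin b → F) → Wt F k N → Co F k → ℝ)
    (ξ : Lb F n) (h : Ky F N → ℝ) :
    𝔼 κ, fc χ La K ξ κ * h κ =
      av K fun z w y => χ (cst La ξ z w.2.2 y) * GG χ h w (Lam La ξ z w.2.2 y) := by
  have h1 : ∀ κ, fc χ La K ξ κ * h κ =
      𝔼 s, ∑ θ, aK La K s κ θ * (χ (ξ.1 ⬝ᵥ θ.1 + ξ.2 * θ.2) * h κ) := by
    intro κ
    rw [E_sum, fc, sum_mul]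
    refine sum_congr rfl fun θ _ => ?_
    rw [E_mul_right, abar]
    ring
  simp only [h1]
  rw [E_comm]
  have h2 := fun s => (hk F b k N n La K).1 s fun κ θ => χ (ξ.1 ⬝ᵥ θ.1 + ξ.2 * θ.2) * h κ
  simp only [h2]
  rw [E_prod]
  unfold av
  refine E_congr fun z => ?_
  rw [E_comm]
  refine E_congr fun w => ?_
  rw [E_sum]
  refine sum_congr rfl fun y _ => ?_
  dsimp only
  rw [E_mul_left]
  congr 1
  unfold GG fh
  rw [← E_mul_left]
  refine E_congr fun u => ?_
  rw [phase, hχ.add]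
  simp only [keyW]
  ring

omit [Field F] [Fintype F] [DecidableEq F] in
lemma chi_abs {χ : F → ℝ} (h : ∀ a, χ a = 1 ∨ χ a = -1) (a : F) : |χ a| = 1 := by
  rcases h a with e | e <;> simp [e]

lemma basic_le (hk : S_AK) {χ : F → ℝ} (hχ : Chi χ) (h1 : ∀ a, χ a = 1 ∨ χ a = -1)
    (La : (Fin b → F) → Co F k → Lx n → Co F k) (K : (Fin b → F) → Wt F k N → Co F k → ℝ)
    (hK : ∀ z w y, 0 ≤ K z w y) (ξ : Lb F n) :
    𝔼 κ, fc χ La K ξ κ ^ 2 ≤
      av K fun z w y => |GG χ (fc χ La K ξ) w (Lam La ξ z w.2.2 y)| := by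
  simp only [sq]
  rw [basic hk hχ]
  refine av_le fun z w y => mul_le_mul_of_nonneg_left ?_ (hK z w y)
  refine (le_abs_self _).trans ?_
  rw [abs_mul, chi_abs h1, one_mul]

lemma rs_nonneg {Z W Y : Type} [Fintype Y] {K : Z → W → Y → ℝ} (hK : Kern K)
    (D : Z → W → Y → Prop) (z : Z) (w : W) (y : Y) : 0 ≤ rs K D z w y :=
  mul_nonneg (hK.1 z w y) (ind_nonneg _)

lemma rs_le {Z W Y : Type} [Fintype Y] {K : Z → W → Y → ℝ} (hK : Kern K)
    (D : Z → W → Y → Prop) (z : Z) (w : W) (y : Y) : rs K D z w y ≤ K z w y :=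
  mul_le_of_le_one_right (hK.1 z w y) (ind_le_one _)

lemma fc_abs (hk : S_AK) {χ : F → ℝ} (h1 : ∀ a, χ a = 1 ∨ χ a = -1)
    (La : (Fin b → F) → Co F k → Lx n → Co F k) {K : (Fin b → F) → Wt F k N → Co F k → ℝ}
    (hK : Kern K) (D : (Fin b → F) → Wt F k N → Co F k → Prop) (ξ : Lb F n) (κ : Ky F N) :
    |fc χ La (rs K D) ξ κ| ≤ 1 := by
  obtain ⟨-, h2, h3, -⟩ := hk F b k N n La (rs K D)
  have h2' := h2 (rs_nonneg hK D)
  have h3' := h3 fun z w => (sum_le_sum fun y _ => rs_le hK D z w y).trans (hK.2 z w).le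
  unfold fc
  refine (abs_sum_le_sum_abs _ _).trans ?_
  have e : ∀ θ : Lb F n, |χ (ξ.1 ⬝ᵥ θ.1 + ξ.2 * θ.2) * abar La (rs K D) κ θ| =
      abar La (rs K D) κ θ := fun θ => by
    rw [abs_mul, chi_abs h1, one_mul]
    exact abs_of_nonneg (E_nonneg fun s => h2' s κ θ)
  simp only [e]
  simp only [abar]
  rw [← E_sum]
  exact E_le fun s => h3' s κ

lemma GG_abs {χ : F → ℝ} (h1 : ∀ a, χ a = 1 ∨ χ a = -1) {h : Ky F N → ℝ} (hh : ∀ κ, |h κ| ≤ 1)
    (w : Wt F k N) (ζ : Fin (k + 1) → F) : |GG χ h w ζ| ≤ 1 := by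
  unfold GG fh
  rw [abs_le]
  constructor
  · refine le_E fun u => neg_le_of_abs_le ?_
    rw [abs_mul, chi_abs h1, mul_one]
    exact hh _
  · refine E_le fun u => le_of_abs_le ?_
    rw [abs_mul, chi_abs h1, mul_one]
    exact hh _

lemma key [CharP F 2] (he : S_EL) {χ : F → ℝ} (hχ : Chi χ)
    {La : (Fin b → F) → Co F k → Lx n → Co F k} {K : (Fin b → F) → Wt F k N → Co F k → ℝ}
    {δ : ℝ} (hK : Kern K) (hL : LaOK La δ) {g g' : Ky F N → ℝ} (hg : ∀ κ, |g κ| ≤ 1)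
    (hg' : ∀ κ, |g' κ| ≤ 1) {l l' : F} (hl : l ≠ 0) (hl' : l' ≠ 0) {c : Lx n → F} (hc : c ≠ 0)
    (ζ : (Fin b → F) → Wt F k N → Co F k → Fin (k + 1) → F) :
    av K (fun z w y => GG χ g w (l • ζ z w y) ^ 2 *
      GG χ g' w (l' • (ζ z w y + fun i => ∑ j, c j * La z w.2.2 j (some i))) ^ 2) ≤
      δ + 3 / qq F ^ k := by
  have h1 : av K (fun z w y => GG χ g w (l • ζ z w y) ^ 2 *
      GG χ g' w (l' • (ζ z w y + fun i => ∑ j, c j * La z w.2.2 j (some i))) ^ 2) ≤
      av K (fun z w _ => ∑ ζ', GG χ g w (l • ζ') ^ 2 *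
        GG χ g' w (l' • (ζ' + fun i => ∑ j, c j * La z w.2.2 j (some i))) ^ 2) :=
    av_mono hK fun z w y => single_le_sum (f := fun ζ' => GG χ g w (l • ζ') ^ 2 *
        GG χ g' w (l' • (ζ' + fun i => ∑ j, c j * La z w.2.2 j (some i))) ^ 2)
      (fun _ _ => by positivity) (mem_univ _)
  refine h1.trans ?_
  rw [av_free hK]
  have h2 : ∀ z : Fin b → F, 𝔼 w : Wt F k N, ∑ ζ', GG χ g w (l • ζ') ^ 2 *
        GG χ g' w (l' • (ζ' + fun i => ∑ j, c j * La z w.2.2 j (some i))) ^ 2 ≤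
      𝔼 x : Co F k, (ind (∀ i, ∑ j, c j * La z x j (some i) = 0) + 3 / qq F ^ k) := by
    intro z
    rw [E_prod]
    refine E_le fun pq => ?_
    rw [E_prod, E_comm]
    refine E_mono fun x => ?_
    have := he F χ hχ k N (fun r => g ![pq.1, pq.2, r]) (fun r => g' ![pq.1, pq.2, r]) l l'
      (fun i => ∑ j, c j * La z x j (some i)) (fun _ => hg _) (fun _ => hg' _) hl hl'
    rw [ind_congr (p := (fun i => ∑ j, c j * La z x j (some i)) = 0)
      (q := ∀ i, ∑ j, c j * La z x j (some i) = 0) funext_iff] at this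
    exact this
  refine (E_mono h2).trans ?_
  have h3 := hL c hc
  rw [pr, E_prod] at h3
  simp only [E_add, E_const]
  linarith

end Off

open Off in
theorem s_off (hc : S_Chi) (hk : S_AK) (he : S_EL) : S_Off := by
  intro F _ _ _ _ χ hχ b k N n La K δ D hK hL
  have h1 := ((hc F).2 χ hχ).1
  refine ⟨fun ξ h2 hne => ?_, fun η ξ hη h2 hlt => ?_⟩
  · refine (basic_le hk hχ h1 La _ (rs_nonneg hK D) ξ).trans ?_
    refine (av_le (K' := K) fun z w y =>
      mul_le_mul_of_nonneg_right (rs_le hK D z w y) (abs_nonneg _)).trans ?_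
    refine av_cs hK _ ?_
    refine le_trans (le_of_eq ?_) (key he hχ hK hL (fc_abs hk h1 La hK D ξ)
      (g' := fun _ => 1) (fun _ => by simp) one_ne_zero one_ne_zero (neg_ne_zero.2 hne)
      fun z w y => Lam La ξ z w.2.2 y)
    congr 1
    funext z w y
    have e : (Lam La ξ z w.2.2 y + fun i => ∑ j, (-ξ.1) j * La z w.2.2 j (some i)) = 0 := by
      funext i
      simp only [Lam, h2, Pi.add_apply, Pi.neg_apply, neg_mul, sum_neg_distrib, Pi.zero_apply]
      ring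
    have e2 : Off.GG χ (fun _ : Ky F N => (1 : ℝ)) w 0 = 1 := by
      simp [Off.GG, fh, hχ.zero]
    rw [e, one_smul, one_smul, e2, sq_abs]
    ring
  · have hg := fc_abs hk h1 La hK D ξ
    have hη2 : 0 < η ^ 2 := by positivity
    refine ⟨fun z w y => D z w y ∧
      η ^ 2 / 2 ≤ |Off.GG χ (fc χ La (rs K D) ξ) w (Lam La ξ z w.2.2 y)|, fun _ _ _ h => h.1, ?_,
      fun ξ' h2' hne => ?_⟩
    · have a1 := hlt.trans_le (basic_le hk hχ h1 La _ (rs_nonneg hK D) ξ)
      have a2 : av (rs K D) (fun z w y => |Off.GG χ (fc χ La (rs K D) ξ) w (Lam La ξ z w.2.2 y)|) ≤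
          av K (fun z w y => 1 * ind (D z w y ∧
            η ^ 2 / 2 ≤ |Off.GG χ (fc χ La (rs K D) ξ) w (Lam La ξ z w.2.2 y)|) + η ^ 2 / 2) := by
        refine av_le fun z w y => ?_
        rw [rs, mul_assoc]
        refine mul_le_mul_of_nonneg_left ?_ (hK.1 z w y)
        have b1 := GG_abs h1 hg w (Lam La ξ z w.2.2 y)
        by_cases hD : D z w y
        · by_cases hb : η ^ 2 / 2 ≤ |Off.GG χ (fc χ La (rs K D) ξ) w (Lam La ξ z w.2.2 y)|
          · rw [ind_pos hD, ind_pos ⟨hD, hb⟩]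
            linarith
          · rw [ind_pos hD, ind_neg fun h => hb h.2]
            linarith
        · rw [ind_neg hD, ind_neg fun h => hD h.1]
          linarith
      rw [av_aff hK] at a2
      have a3 : mass (rs K fun z w y => D z w y ∧
          η ^ 2 / 2 ≤ |Off.GG χ (fc χ La (rs K D) ξ) w (Lam La ξ z w.2.2 y)|) =
          av K (fun z w y => ind (D z w y ∧
            η ^ 2 / 2 ≤ |Off.GG χ (fc χ La (rs K D) ξ) w (Lam La ξ z w.2.2 y)|)) := rfl
      rw [a3]
      linarith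
    · set D' : (Fin b → F) → Wt F k N → Co F k → Prop := fun z w y => D z w y ∧
        η ^ 2 / 2 ≤ |Off.GG χ (fc χ La (rs K D) ξ) w (Lam La ξ z w.2.2 y)| with hD'
      have hg' := fc_abs hk h1 La hK D' ξ'
      refine (basic_le hk hχ h1 La _ (rs_nonneg hK D') ξ').trans ?_
      have a2 : av (rs K D') (fun z w y =>
          |Off.GG χ (fc χ La (rs K D') ξ') w (Lam La ξ' z w.2.2 y)|) ≤
          av K (fun z w y => 2 / η ^ 2 * (|Off.GG χ (fc χ La (rs K D) ξ) w (Lam La ξ z w.2.2 y)| *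
            |Off.GG χ (fc χ La (rs K D') ξ') w (Lam La ξ' z w.2.2 y)|) + 0) := by
        refine av_le fun z w y => ?_
        rw [rs, mul_assoc, add_zero, ← mul_assoc (2 / η ^ 2)]
        refine mul_le_mul_of_nonneg_left (mul_le_mul_of_nonneg_right ?_ (abs_nonneg _))
          (hK.1 z w y)
        by_cases hD : D' z w y
        · rw [ind_pos hD, div_mul_eq_mul_div, le_div_iff₀ hη2]
          have := hD.2
          linarith
        · rw [ind_neg hD]
          positivity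
      rw [av_aff hK, add_zero] at a2
      refine a2.trans (mul_le_mul_of_nonneg_left (av_cs hK _ ?_) (by positivity))
      refine le_trans (le_of_eq ?_) (key he hχ hK hL hg hg' h2 h2' (sub_ne_zero.2 hne)
        fun z w y => ξ.2⁻¹ • Lam La ξ z w.2.2 y)
      congr 1
      funext z w y
      have e : ξ.2 • ξ.2⁻¹ • Lam La ξ z w.2.2 y = Lam La ξ z w.2.2 y := by
        rw [smul_smul, mul_inv_cancel₀ h2, one_smul]
      have e' : ξ'.2 • (ξ.2⁻¹ • Lam La ξ z w.2.2 y +
          fun i => ∑ j, (ξ'.2⁻¹ • ξ'.1 - ξ.2⁻¹ • ξ.1) j * La z w.2.2 j (some i)) =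
          Lam La ξ' z w.2.2 y := by
        funext i
        simp only [Lam, Pi.smul_apply, Pi.add_apply, Pi.sub_apply, smul_eq_mul, sub_mul,
          sum_sub_distrib, mul_assoc, ← mul_sum]
        field_simp
        ring
      rw [e, e', mul_pow, sq_abs, sq_abs]

end Vale.Agent.P060
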