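import Vale.Agent.P060.StC

/-! Pieces: the maximal piece and the codimension bounds. -/

namespace Vale.Agent.P060

open Finset Vale.Agent.P015
open scoped BigOperators

namespace PC1

theorem coords {F W : Type} [Field F] [AddCommGroup W] [Module F W] [Module.Finite F W]
    {B V : Submodule F W} (h : B ≤ V) :
    ∃ π : W →ₗ[F] (Fin (Module.finrank F V - Module.finrank F B) → F),
      (∀ w, ∃ φ ∈ V, π φ = w) ∧ ∀ φ ∈ V, π φ = 0 ↔ φ ∈ B := by
  have h1 : Module.finrank F (B.comap V.subtype) = Module.finrank F B :=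
    (Submodule.comapSubtypeEquivOfLe h).finrank_eq
  have h2 := Submodule.finrank_quotient_add_finrank (B.comap V.subtype)
  have h3 : Module.finrank F (V ⧸ B.comap V.subtype) =
      Module.finrank F V - Module.finrank F B := by omega
  obtain ⟨π, hπ⟩ := LinearMap.exists_extend
    ((Module.finBasisOfFinrankEq F _ h3).equivFun.toLinearMap.comp (B.comap V.subtype).mkQ)
  have h4 : ∀ φ : V, π φ = (Module.finBasisOfFinrankEq F _ h3).equivFun
      ((B.comap V.subtype).mkQ φ) := fun φ => LinearMap.congr_fun hπ φ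
  refine ⟨π, fun w => ?_, fun φ hφ => ?_⟩
  · obtain ⟨φ, hφ⟩ := (B.comap V.subtype).mkQ_surjective
      ((Module.finBasisOfFinrankEq F _ h3).equivFun.symm w)
    exact ⟨φ, φ.2, by rw [h4, hφ, LinearEquiv.apply_symm_apply]⟩
  · rw [h4 ⟨φ, hφ⟩, LinearEquiv.map_eq_zero_iff, Submodule.mkQ_apply,
      Submodule.Quotient.mk_eq_zero, Submodule.mem_comap]
    rfl

variable {F : Type} [Field F] [Fintype F] [DecidableEq F] {b k d N : ℕ}

theorem cdm_lt {B : Fin 3 → Submodule F (Fn F b k × Fn F b k)} {m : Fin 3}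
    {B' : Submodule F (Fn F b k × Fn F b k)} (h : B m ≤ (Vm F b k d m).prod (Vm F b k d m))
    (h' : B' < B m) : cdm d B + 1 ≤ cdm d (Function.update B m B') := by
  have h1 := Submodule.finrank_lt_finrank_of_lt h'
  have h2 := Submodule.finrank_mono h
  unfold cdm
  refine Nat.succ_le_of_lt (sum_lt_sum (fun i _ => ?_) ⟨m, mem_univ m, ?_⟩)
  · by_cases e : i = m
    · subst e
      rw [Function.update_self]
      omega
    · rw [Function.update_of_ne e]
  · rw [Function.update_self]
    omega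

/-- The frame coordinates of a unit. -/
def LL {c : Fin 3 → ℕ} (π : ∀ m, (Fn F b k × Fn F b k) →ₗ[F] (Fin (c m) → F)) :
    Un F b k d N →ₗ[F] ((m : Fin 3) → Fin N → Fin (c m) → F) where
  toFun U m i := π m (pf U m (some i))
  map_add' U U' := by
    funext m i
    rw [Pi.add_apply, Pi.add_apply, ← map_add]
    rfl
  map_smul' t U := by
    funext m i
    rw [Pi.smul_apply, Pi.smul_apply, ← map_smul]
    rfl

end PC1

open PC1 in
theorem s_pc1 : S_PC1 := by
  intro F _ _ _ b k d N S _ u C E B0 hE hC hB0 hd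
  have : Finite (Submodule F (Fn F b k × Fn F b k)) :=
    Finite.of_injective _ SetLike.coe_injective
  obtain ⟨σ1, hσ1⟩ := hC
  have : Nonempty {p : (Fin 3 → Submodule F (Fn F b k × Fn F b k)) × S //
    (∀ m, p.1 m ≤ B0 m) ∧ C p.2} := ⟨⟨(B0, σ1), fun _ => le_rfl, hσ1⟩⟩
  obtain ⟨⟨⟨B, σ0⟩, hB, hσ0⟩, hmax⟩ := Finite.exists_max
    fun p : {p : (Fin 3 → Submodule F (Fn F b k × Fn F b k)) × S //
      (∀ m, p.1 m ≤ B0 m) ∧ C p.2} => E ^ cdm d p.1.1 *
        pr (fun σ => C σ ∧ ∀ m i, pf (u σ) m i - pf (u p.1.2) m i ∈ p.1.1 m)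
  refine ⟨B, σ0, hσ0, hB, ?_, fun m a ha v => ?_⟩
  · refine le_trans ?_ (hmax ⟨(B0, σ1), fun _ => le_rfl, hσ1⟩)
    refine le_trans (pr_mono (B := fun σ => C σ ∧ ∀ m i, pf (u σ) m i - pf (u σ1) m i ∈ B0 m)
      fun σ hσ => ⟨hσ, hd σ σ1 hσ hσ1⟩) ?_
    exact le_mul_of_one_le_left (pr_nonneg _) (one_le_pow₀ hE)
  · have hE0 : 0 < E := lt_of_lt_of_le one_pos hE
    by_cases hev : ∃ σ, (C σ ∧ ∀ m i, pf (u σ) m i - pf (u σ0) m i ∈ B m) ∧
        ∀ i, a (pf (u σ) m i) = v i
    · obtain ⟨σ2, ⟨h1, h2⟩, h3⟩ := hev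
      obtain ⟨φ, hφ, hφ'⟩ := ha
      have h4 : B m ⊓ LinearMap.ker a < B m :=
        lt_of_le_of_ne inf_le_left fun e => hφ' (LinearMap.mem_ker.1 (e.ge hφ).2)
      have h5 := cdm_lt (d := d) ((hB m).trans (hB0 m)) h4
      have h6 := hmax ⟨(Function.update B m (B m ⊓ LinearMap.ker a), σ2), fun m' => by
        by_cases e : m' = m
        · subst e
          simp only [Function.update_self]
          exact inf_le_left.trans (hB m')
        · simp only [Function.update_of_ne e]
          exact hB m', h1⟩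
      have h7 : pr (fun σ => (C σ ∧ ∀ m i, pf (u σ) m i - pf (u σ0) m i ∈ B m) ∧
          ∀ i, a (pf (u σ) m i) = v i) ≤ pr (fun σ => C σ ∧ ∀ m' i,
            pf (u σ) m' i - pf (u σ2) m' i ∈ Function.update B m (B m ⊓ LinearMap.ker a) m') := by
        refine pr_mono fun σ hσ => ⟨hσ.1.1, fun m' i => ?_⟩
        have h8 : pf (u σ) m' i - pf (u σ2) m' i ∈ B m' := by
          have := (B m').sub_mem (hσ.1.2 m' i) (h2 m' i)
          rwa [sub_sub_sub_cancel_right] at this
        by_cases e : m' = m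
        · subst e
          rw [Function.update_self]
          refine ⟨h8, LinearMap.mem_ker.2 ?_⟩
          rw [map_sub, hσ.2 i, h3 i, sub_self]
        · rwa [Function.update_of_ne e]
      have h9 := mul_le_mul (pow_le_pow_right₀ hE h5) h7 (pr_nonneg _) (by positivity)
      rw [le_div_iff₀ hE0]
      refine le_of_mul_le_mul_left (le_trans (le_of_eq ?_) (h9.trans h6)) (pow_pos hE0 _)
      ring
    · refine le_trans (le_of_eq ?_) (div_nonneg (pr_nonneg _) hE0.le)
      unfold pr
      rw [E_congr fun σ => ind_neg fun h => hev ⟨σ, h⟩]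
      exact expect_const_zero _

open PC1 in
theorem s_pcd (ha : S_Aff) (hl : S_Lin) : S_PCd := by
  intro F _ _ _ b k d N B hB
  choose π h1 h2 using fun m => coords (hB m)
  refine ⟨fun U0 => ?_, fun j1 hj m => ?_⟩
  · have hs : Function.Surjective (LL (d := d) (N := N) π) := fun w => by
      choose φ h3 h4 using fun m i => h1 m (w m i)
      exact ⟨((fun m i => ⟨(φ m i).1, (h3 m i).1⟩, 0), (fun m i => ⟨(φ m i).2, (h3 m i).2⟩, 0)),
        funext fun m => funext fun i => h4 m i⟩
    have h3 := ((hl F).1 _ _ _ hs).pr_eq fun w => w = LL π U0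
    refine le_trans (pr_mono (B := fun U => LL π U = LL π U0) fun U hU => ?_)
      (h3.le.trans (le_of_eq ?_))
    · funext m i
      have h4 := (h2 m _ (hB m (hU m (some i)))).2 (hU m (some i))
      rw [map_sub, sub_eq_zero] at h4
      exact h4
    · rw [pr_eq_card, filter_eq', if_pos (mem_univ _), card_singleton, Fintype.card_pi]
      simp only [Fintype.card_pi, prod_const, card_univ, Fintype.card_fin]
      unfold cdm
      push_cast
      rw [← prod_pow_eq_pow_sum]
      congr 1
      exact prod_congr rfl fun m _ => by rw [← pow_mul, ← pow_mul, mul_comm]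
  · have h3 : Module.finrank F ((Vm F b k d m).prod (Vm F b k d m)) - Module.finrank F (B m) ≤ j1 :=
      le_trans (single_le_sum (f := fun m => Module.finrank F ((Vm F b k d m).prod (Vm F b k d m)) -
        Module.finrank F (B m)) (fun _ _ => Nat.zero_le _) (mem_univ m)) hj
    refine ⟨fun i => if h : i.val < _ then (LinearMap.proj ⟨i.val, h⟩).comp (π m) else 0,
      fun φ h4 h5 h6 => (h2 m φ ⟨h4, h5⟩).1 (funext fun i => ?_)⟩
    have h7 := h6 ⟨i.val, i.2.trans_le h3⟩
    simp only [dif_pos i.2] at h7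
    exact h7

end Vale.Agent.P060
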