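import Vale.Agent.P060.StC

/-! Two counting bounds for good cells. -/

namespace Vale.Agent.P060

open Finset Vale.Agent.P015
open scoped BigOperators

namespace PC23

variable {S G H Ω : Type} [Fintype S] [Fintype G] [Fintype H] [Fintype Ω]

theorem grp (g : S → G) (h : S → ℝ) : 𝔼 σ, h σ = ∑ x, 𝔼 σ, ind (g σ = x) * h σ := by
  rw [← E_sum]
  exact E_congr fun σ => (sum_ind_eq (mem_univ (g σ)) fun _ => h σ).symm

theorem one (g : S → G) {A B : S → Prop} {c : ℝ} (hc : 0 ≤ c)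
    (h : ∀ σ0, A σ0 → pr (fun σ => g σ = g σ0 ∧ A σ) ≤ c * pr (fun σ => g σ = g σ0 ∧ B σ)) :
    pr A ≤ c * pr B := by
  unfold pr
  rw [grp g, grp g fun σ => ind (B σ), mul_sum]
  refine sum_le_sum fun x _ => ?_
  simp only [← ind_and]
  by_cases hx : ∃ σ0, g σ0 = x ∧ A σ0
  · obtain ⟨σ0, rfl, h0⟩ := hx
    exact h σ0 h0
  · rw [E_congr fun σ => ind_neg fun h => hx ⟨σ, h⟩, expect_const_zero]
    exact mul_nonneg hc (pr_nonneg _)

theorem two (g : S → G) (h : S → H) (k : Ω → H) {P Q : S → Prop} {φ : S → ℝ} {ψ : G → Ω → ℝ}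
    {E c : ℝ} (hE : 0 ≤ E) (h0 : ∀ σ, 0 ≤ φ σ) (h0' : ∀ x ω, 0 ≤ ψ x ω)
    (h1 : ∀ σ0, P σ0 → pr (fun σ => g σ = g σ0 ∧ h σ = h σ0) ≤
      E * pr (fun σ => g σ = g σ0 ∧ Q σ) * pr (fun ω => k ω = h σ0))
    (h2 : ∀ σ σ', g σ = g σ' → h σ = h σ' → φ σ = φ σ')
    (h3 : ∀ σ ω, k ω = h σ → ψ (g σ) ω = φ σ) (h4 : ∀ x, 𝔼 ω, ψ x ω ≤ c) :
    𝔼 σ, ind (P σ) * φ σ ≤ E * c * pr Q := by
  unfold pr
  rw [grp g, grp g fun σ => ind (Q σ), mul_sum]
  refine sum_le_sum fun x _ => ?_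
  have a0 : 0 ≤ E * 𝔼 σ, ind (g σ = x) * ind (Q σ) :=
    mul_nonneg hE (E_nonneg fun _ => mul_nonneg (ind_nonneg _) (ind_nonneg _))
  rw [mul_right_comm]
  refine le_trans ?_ (mul_le_mul_of_nonneg_left (h4 x) a0)
  rw [grp h, grp k, mul_sum]
  refine sum_le_sum fun y _ => ?_
  by_cases hx : ∃ σ0, h σ0 = y ∧ g σ0 = x ∧ P σ0
  · obtain ⟨σ0, rfl, rfl, hP⟩ := hx
    have e : 𝔼 ω, ind (k ω = h σ0) * ψ (g σ0) ω = pr (fun ω => k ω = h σ0) * φ σ0 := by
      rw [pr, ← E_mul_right]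
      refine E_congr fun ω => ?_
      by_cases hk : k ω = h σ0
      · rw [h3 σ0 ω hk]
      · rw [ind_neg hk, zero_mul, zero_mul]
    rw [e, ← mul_assoc]
    simp only [← ind_and]
    refine le_trans ?_ (mul_le_mul_of_nonneg_right (h1 σ0 hP) (h0 σ0))
    rw [pr, ← E_mul_right]
    refine E_mono fun σ => ?_
    by_cases hk : g σ = g σ0 ∧ h σ = h σ0
    · rw [ind_pos hk, ind_pos hk.1, ind_pos hk.2, h2 σ σ0 hk.1 hk.2, one_mul, one_mul]
      exact mul_le_mul_of_nonneg_right (ind_le_one _) (h0 _)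
    · rw [ind_neg hk, ← mul_assoc, ← ind_and, ind_neg fun h => hk h.symm, zero_mul, zero_mul]
  · rw [E_congr (g := fun _ => 0) fun σ => by
      rw [← mul_assoc, ← mul_assoc, ← ind_and, ← ind_and,
        ind_neg fun h => hx ⟨σ, h.1.1, h.1.2, h.2⟩, zero_mul], expect_const_zero]
    exact mul_nonneg a0 (E_nonneg fun _ => mul_nonneg (ind_nonneg _) (h0' _ _))

theorem card_ky (F : Type) [Fintype F] (N : ℕ) :
    (Fintype.card (Ky F N) : ℝ) = (qq F ^ N) ^ 3 := by simp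

end PC23

open PC23

theorem s_pc2 (ha : S_Aff) (hl : S_Lin) : S_PC2 := by
  intro F _ _ _ b k d N S _ u E M s κ m r a v hE hM hd ⟨f, hf, hf0, hfa⟩
  by_cases hw : ∃ σ, G4 (u σ) s
  swap
  · refine le_trans (le_of_eq ?_) (show 0 ≤ _ by positivity)
    rw [pr, E_congr fun σ => ind_neg fun h => hw ⟨σ, h.2.1⟩, expect_const_zero]
  obtain ⟨σ1, h4⟩ := hw
  choose g hg h1 h0 h5 using h4 m r
  obtain ⟨-, -, a1, -, a2, -⟩ := ha F b k
  have gm : ∀ p m', g p ∈ Vm F b k d m' := fun p m' => a2 d m' (a1 _ _ (Nat.sub_le _ _) (hg p))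
  let L : Vx F b k d N →ₗ[F] (Bool → Ky F N) × (Fin N → F) :=
    { toFun := fun x => (fun p => ky x.1 (s (r, p)), fun i => a (fr x.1 m (some i)))
      map_add' := fun x y => Prod.ext rfl (funext fun i => map_add a _ _)
      map_smul' := fun c x => Prod.ext rfl (funext fun i => map_smul a _ _) }
  have hL : Function.Surjective L := fun w => by
    refine ⟨(fun m' i => ⟨w.1 false m' i • g false + w.1 true m' i • g true + if m' = m then
      ((w.2 i - a (w.1 false m i • g false + w.1 true m i • g true)) / a f) • f else 0, ?_⟩, 0),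
      Prod.ext (funext fun p => funext fun m' => funext fun i => ?_) (funext fun i => ?_)⟩
    · refine add_mem (add_mem (Submodule.smul_mem _ _ (gm _ _)) (Submodule.smul_mem _ _ (gm _ _))) ?_
      split_ifs with h
      · exact Submodule.smul_mem _ _ (h ▸ hf)
      · exact zero_mem _
    · have e1 := h0 true
      have e2 := h0 false
      simp only [Bool.not_true, Bool.not_false] at e1 e2
      cases p <;> by_cases h : m' = m <;> simp [L, ky, fr, h, h1, e1, e2, hf0]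
    · simp only [L, fr, LinearMap.coe_mk, AddHom.coe_mk, if_true]
      rw [map_add a (_ + _), map_smul a _ f, smul_eq_mul, div_mul_cancel₀ _ hfa, add_sub_cancel]
  have hT := ((hl F).1 _ _ L hL).pr_eq fun w => w = (fun p => κ (r, p), fun i => v (some i))
  have hT' : pr (fun x => L x = (fun p => κ (r, p), fun i => v (some i))) = 1 / (qq F ^ N) ^ 7 := by
    classical
    rw [hT, pr_eq_card, filter_eq', if_pos (mem_univ _), card_singleton, Fintype.card_prod]
    simp only [Fintype.card_pi, prod_const, card_univ, Fintype.card_bool, Fintype.card_fin]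
    push_cast
    ring
  refine (one (fun σ => vx (u σ) r) (c := E / (Fintype.card (Ky F N) : ℝ) ^ 2)
    (B := fun σ => L (vx (u σ) r) = (fun p => κ (r, p), fun i => v (some i))) (by positivity)
    fun σ0 h => ?_).trans ?_
  · refine le_trans (pr_mono fun σ hσ => ?_) ((h.1 r).trans (le_of_eq ?_))
    · exact ⟨hσ.1, fun p => by rw [hσ.2.2.2.1, h.2.2.1]⟩
    · refine congrArg _ (pr_congr fun σ => ⟨fun e => ⟨e, ?_⟩, fun e => e.1⟩)
      rw [e]
      refine Prod.ext (funext fun p => congrFun h.2.2.1 (r, p)) (funext fun i => ?_)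
      have := h.2.2.2 (some i)
      cases r <;> exact this
  · refine (mul_le_mul_of_nonneg_left (hd fun x => L x = (fun p => κ (r, p), fun i => v (some i)))
      (by positivity)).trans (le_of_eq ?_)
    rw [hT', card_ky]
    ring

theorem s_pc3 : S_PC3 := by
  intro F _ _ _ b k d N S _ u E s κ P f c hE hc hf hs hP hX
  by_cases hw : ∃ σ, P σ
  swap
  · refine le_trans (le_of_eq ?_) (show 0 ≤ _ by positivity)
    rw [E_congr (g := fun _ => 0) fun σ => by rw [ind_neg fun h => hw ⟨σ, h⟩, zero_mul],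
      expect_const_zero]
  obtain ⟨σ1, h1⟩ := hw
  have h2 := (hP σ1 h1).1
  rw [G0, (hP σ1 h1).2.2, card_ky] at h2
  have : Fintype (Fin 3 → BB → BB → Ix N → F) := Fintype.ofFinite _
  refine (two (fun σ => ((u σ).1.1, (u σ).2.1)) (fun σ => (sl κ (u σ).1.2, sl κ (u σ).2.2))
    (fun M : Tn F N × Tn F N => (sl κ M.1, sl κ M.2)) (Q := fun σ => kys (u σ) s = κ)
    (ψ := fun x M => f ((x.1, M.1), (x.2, M.2))) hE (fun σ => hf _) (fun _ _ => hf _)
    (fun σ0 h => ?_) (fun σ σ' e e' => ?_) (fun σ M e => ?_) fun x => hX _ _).trans ?_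
  · obtain ⟨-, h3, h4⟩ := hP σ0 h
    rw [G2, h4] at h3
    simp only [Prod.mk.injEq, and_assoc]
    refine h3.trans (le_of_eq ?_)
    congr 2
    refine pr_congr fun σ => ⟨fun e => ⟨e.1, e.2, ?_⟩, fun e => ⟨e.1, e.2.1⟩⟩
    rw [← h4]
    funext ⟨r, p⟩
    cases r <;> simp [kys, vx, e.1, e.2]
  · exact hs _ _ (Prod.mk.inj e).1 (Prod.mk.inj e).2 (Prod.mk.inj e').1 (Prod.mk.inj e').2
  · exact hs _ _ rfl rfl (Prod.mk.inj e).1 (Prod.mk.inj e).2
  · refine (mul_le_mul_of_nonneg_left h2 (mul_nonneg hE hc)).trans (le_of_eq ?_)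
    ring

end Vale.Agent.P060
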