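import Vale.Agent.P060.StC

/-! Vanishing of a sum of independent trilinear terms is unlikely. -/

namespace Vale.Agent.P060

open Finset Vale.Agent.P015
open scoped BigOperators

namespace PSum

theorem pr_ex {Ω ι : Type} [Fintype Ω] (s : Finset ι) (A : ι → Ω → Prop) {c : ℝ}
    (h : ∀ i ∈ s, pr (A i) ≤ c) : pr (fun ω => ∃ i ∈ s, A i ω) ≤ s.card * c := by
  refine (E_mono fun ω => ind_exists_le s fun i => A i ω).trans ?_
  rw [E_sum, ← nsmul_eq_mul]
  exact sum_le_card_nsmul _ _ _ h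

theorem pr_or {Ω : Type} [Fintype Ω] (A B : Ω → Prop) :
    pr (fun ω => A ω ∨ B ω) ≤ pr A + pr B :=
  (E_mono fun ω => ind_or_le (A ω) (B ω)).trans (E_add _ _).le

variable (F : Type) [Field F] {V I S ι : Type} [AddCommGroup V] [Module F V] [Fintype I]

/-- No combination gives `ψ` at `l` and kills the earlier indices. -/
def Bad (o : LinearOrder ι) (g : S → I → V) (ψ : V) (l : ι) (σ : ι → S) : Prop :=
  ¬ ∃ e : I → F, ∑ i, e i • g (σ l) i = ψ ∧ ∀ l', l' < l → ∑ i, e i • g (σ l') i = 0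

variable {F}

theorem contract [Fintype ι] (T : ι → V →ₗ[F] F) (x : ι → I → V) (c : I → F)
    (h : ∀ i, ∑ l, T l (x l i) = 0) : ∑ l, T l (∑ i, c i • x l i) = 0 := by
  simp only [map_sum, map_smul]
  rw [sum_comm]
  exact sum_eq_zero fun i _ => by rw [← smul_sum, h, smul_zero]

theorem dual [Fintype ι] [DecidableEq ι] (x : I → V) (y : ι → I → V) (ψ : V)
    (h : ¬ ∃ e : I → F, ∑ i, e i • x i = ψ ∧ ∀ l, ∑ i, e i • y l i = 0) :
    ∃ (a : Module.Dual F V) (b : ι → Module.Dual F V), a ψ ≠ 0 ∧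
      ∀ i, a (x i) = -∑ l, b l (y l i) := by
  have h1 : ((ψ, 0) : V × (ι → V)) ∉
      Submodule.span F (Set.range fun i => ((x i, fun l => y l i) : V × (ι → V))) := fun hh => by
    obtain ⟨e, he⟩ := (Submodule.mem_span_range_iff_exists_fun F).1 hh
    refine h ⟨e, ?_, fun l => ?_⟩
    · simpa [Prod.fst_sum] using congrArg Prod.fst he
    · simpa [Prod.snd_sum] using congrFun (congrArg Prod.snd he) l
  obtain ⟨Φ, h2, h3⟩ := Submodule.exists_le_ker_of_notMem h1
  refine ⟨Φ ∘ₗ LinearMap.inl F _ _, fun l => Φ ∘ₗ LinearMap.inr F _ _ ∘ₗ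
    LinearMap.single F (fun _ : ι => V) l, h2, fun i => ?_⟩
  have h4 : Φ (x i, fun l => y l i) = 0 := h3 (Submodule.subset_span ⟨i, rfl⟩)
  simp only [LinearMap.comp_apply]
  rw [← map_sum, ← map_sum, eq_neg_iff_add_eq_zero, ← map_add, ← h4]
  congr 1
  simp only [LinearMap.coe_single, LinearMap.inl_apply, LinearMap.inr_apply, Prod.mk_add_mk,
    add_zero, zero_add]
  congr 1
  exact univ_sum_single fun l => y l i

theorem bound (hl : S_Lin) (hs : S_Seq) [Fintype F] [Module.Finite F V] [Fintype S] [Nonempty S]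
    [Fintype ι] [DecidableEq ι] (o : LinearOrder ι) (g : S → I → V) (ψ : V) (A : Submodule F V)
    (n0 : ℕ) (e : ℝ) (he : 0 ≤ e) (hA : Module.finrank F A ≤ n0) (hg : ∀ σ i, g σ i ∈ A)
    (hψ : ψ ∈ A)
    (h : ∀ a : Module.Dual F V, a ψ ≠ 0 → ∀ v : I → F, pr (fun σ => ∀ i, a (g σ i) = v i) ≤ e)
    (J : Finset ι) : pr (fun σ : ι → S => ∀ l ∈ J, Bad F o g ψ l σ) ≤
      (qq F ^ (n0 * (Fintype.card ι + 1)) * e) ^ J.card := by
  classical
  obtain ⟨D, hD1, hD2⟩ := (hl F).2.2 V A n0 hA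
  refine hs ι S (Bad F o g ψ) _ (by positivity) ?_ (fun l σ => ?_) J
  · rintro l σ σ' h1 h2 ⟨c, h3, h4⟩
    exact h2 ⟨c, by rw [h1 l le_rfl, h3], fun l' hl' => by rw [h1 l' hl'.le, h4 l' hl']⟩
  obtain ⟨y, hy⟩ : ∃ y : ι → I → V, y = fun l' i => if l' < l then g (σ l') i else 0 := ⟨_, rfl⟩
  have hyA : ∀ l' i, y l' i ∈ A := fun l' i => by
    rw [hy]
    simp only
    split_ifs
    · exact hg _ _
    · exact A.zero_mem
  refine (pr_mono fun t ht => ?_).trans ((pr_ex (D ×ˢ Fintype.piFinset fun _ : ι => D)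
    (fun p t => p.1 ψ ≠ 0 ∧ ∀ i, p.1 (g t i) = -∑ l', p.2 l' (y l' i)) (c := e)
    fun p _ => ?_).trans ?_)
  · obtain ⟨a, b, h1, h2⟩ := dual (F := F) (g t) y ψ (by
      rintro ⟨c, h3, h4⟩
      refine ht ⟨c, by rw [Function.update_self, h3], fun l' hl' => ?_⟩
      rw [Function.update_of_ne hl'.ne]
      simpa only [hy, if_pos hl'] using h4 l')
    obtain ⟨a', ha1, ha2⟩ := hD2 a
    choose b' hb1 hb2 using fun l' => hD2 (b l')
    refine ⟨(a', b'), mem_product.2 ⟨ha1, Fintype.mem_piFinset.2 hb1⟩, ha2 ψ hψ ▸ h1, fun i => ?_⟩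
    simp only [← ha2 _ (hg t i), h2 i, fun l' => hb2 l' _ (hyA l' i)]
  · by_cases h1 : p.1 ψ = 0
    · refine le_trans (le_of_eq ?_) he
      exact (E_congr fun t => ind_neg fun hh => hh.1 h1).trans (E_const 0)
    · exact (pr_mono fun t ht => ht.2).trans (h p.1 h1 _)
  · refine mul_le_mul_of_nonneg_right ?_ he
    rw [card_product, Fintype.card_piFinset, prod_const, card_univ, ← pow_succ', pow_mul]
    exact_mod_cast Nat.pow_le_pow_left hD1 _

end PSum

open _root_.Vale.Agent.P060.PSum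

theorem s_psum (hl : S_Lin) (hs : S_Seq) : S_PSum := by
  intro F _ _ VA VB VC _ _ _ _ _ _ _ _ I S _ _ _ f g h G AB AC n0 m e φ ψ ξ hB hC hg hh hφ hψ hξ
    hG h1 h2
  classical
  have he : 0 ≤ e := (pr_nonneg _).trans (h2 (G φ ψ) hG 0)
  obtain ⟨σ0⟩ := ‹Nonempty S›
  have hψ' : ψ ∈ AB := Submodule.span_le.2 (by rintro _ ⟨i, rfl⟩; exact hg σ0 i) (hψ σ0)
  have hξ' : ξ ∈ AC := Submodule.span_le.2 (by rintro _ ⟨i, rfl⟩; exact hh σ0 i) (hξ σ0)
  have b1 := bound hl hs (inferInstance : LinearOrder (Fin (2 * m))) g ψ AB n0 e he hB hg hψ' h1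
  have b2 := bound (ι := Fin (2 * m)) hl hs (inferInstanceAs (LinearOrder (Fin (2 * m))ᵒᵈ)) h ξ AC
    n0 e he hC hh hξ' h2
  rw [Fintype.card_fin] at b1 b2
  have hc : ((powersetCard m (univ : Finset (Fin (2 * m)))).card : ℝ) ≤ 4 ^ m := by
    rw [card_powersetCard, card_univ, Fintype.card_fin, show (4 : ℝ) = 2 ^ 2 by norm_num,
      ← pow_mul]
    exact_mod_cast Nat.choose_le_two_pow _ _
  have c1 := (pr_ex (powersetCard m univ) _ fun J hJ =>
    (b1 J).trans_eq (by rw [(mem_powersetCard.1 hJ).2])).trans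
      (mul_le_mul_of_nonneg_right hc (by positivity))
  have c2 := (pr_ex (powersetCard m univ) _ fun J hJ =>
    (b2 J).trans_eq (by rw [(mem_powersetCard.1 hJ).2])).trans
      (mul_le_mul_of_nonneg_right hc (by positivity))
  refine (pr_mono fun σ hσ => ?_).trans ((pr_or _ _).trans ((add_le_add c1 c2).trans_eq (by ring)))
  have key : ∀ l, Bad F (inferInstance : LinearOrder (Fin (2 * m))) g ψ l σ ∨
      Bad (ι := Fin (2 * m)) F (inferInstanceAs (LinearOrder (Fin (2 * m))ᵒᵈ)) h ξ l σ := fun l => by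
    by_contra hn
    rw [not_or] at hn
    obtain ⟨b, hb1, hb2⟩ := not_not.1 hn.1
    obtain ⟨c, hc1, hc2⟩ := not_not.1 hn.2
    obtain ⟨a, ha⟩ := (Submodule.mem_span_range_iff_exists_fun F).1 (hφ (σ l))
    have e1 := fun i i' => contract (fun l' => G (f (σ l') i) (g (σ l') i'))
      (fun l' => h (σ l')) c (hσ i i')
    have e2 := fun i => contract (fun l' => (G (f (σ l') i)).flip (∑ i, c i • h (σ l') i))
      (fun l' => g (σ l')) b (e1 i)
    have e3 := contract (fun l' => (G.flip (∑ i, b i • g (σ l') i)).flip (∑ i, c i • h (σ l') i))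
      (fun l' => f (σ l')) a e2
    rw [sum_eq_single l, ha, hb1, hc1] at e3
    · exact hG e3
    · intro l' _ hl'
      rcases lt_or_gt_of_ne hl' with h3 | h3
      · rw [hb2 l' h3]; simp
      · rw [hc2 l' h3]; simp
    · simp
  by_cases h3 : m ≤ (univ.filter fun l =>
      Bad F (inferInstance : LinearOrder (Fin (2 * m))) g ψ l σ).card
  · obtain ⟨J, hJ1, hJ2⟩ := exists_subset_card_eq h3
    exact Or.inl ⟨J, mem_powersetCard.2 ⟨subset_univ _, hJ2⟩, fun l hl' => (mem_filter.1 (hJ1 hl')).2⟩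
  · have h4 := card_filter_add_card_filter_not (s := univ) fun l =>
      Bad F (inferInstance : LinearOrder (Fin (2 * m))) g ψ l σ
    rw [card_univ, Fintype.card_fin] at h4
    obtain ⟨J, hJ1, hJ2⟩ := exists_subset_card_eq (n := m) (s := univ.filter fun l =>
      ¬ Bad F (inferInstance : LinearOrder (Fin (2 * m))) g ψ l σ) (by omega)
    exact Or.inr ⟨J, mem_powersetCard.2 ⟨subset_univ _, hJ2⟩, fun l hl' =>
      (key l).resolve_left (mem_filter.1 (hJ1 hl')).2⟩

end Vale.Agent.P060
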