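import Vale.Agent.P060.StC

/-! The choice of the parameters. -/

open Finset Vale.Agent.P015

namespace Vale.Agent.P060

namespace Par

structure Hy (j j0 A k B b t q : ℕ) : Prop where
  hj : j = 31
  hj0 : j ^ 3 = j0
  j1 : 1 ≤ j0
  j2 : j0 + 1 ≤ 32768
  hA : A = 24 * j0 + 90
  hk : k = 100 * j0 + 500
  hB : (k + 2) * j0 = B
  B1 : 1000 * k ≤ B
  hb : b = 10 * B
  t1 : 300 * (4 * b) ^ 2 ≤ t
  t2 : 2 ^ b ≤ t
  t3 : 80001 * ((4 * b) ^ (b + 1) * (k + 2)) ≤ t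
  t4 : 100000 * b ≤ t
  q1 : t ^ 120 ≤ q
  q2 : q ≤ t ^ 121

theorem pd {x : ℝ} (hx : 1 ≤ x) {a c g : ℕ} (h : a + g ≤ c) : x ^ a / x ^ c ≤ 1 / x ^ g := by
  rw [div_le_div_iff₀ (by positivity) (by positivity), one_mul, ← pow_add]
  exact pow_le_pow_right₀ hx h

theorem mp {t c a g : ℕ} (hc : c ≤ t) (ht : 1 ≤ t) (h : a + 1 ≤ g) : c * t ^ a ≤ t ^ g := by
  calc c * t ^ a ≤ t * t ^ a := Nat.mul_le_mul_right _ hc
    _ = t ^ (a + 1) := by ring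
    _ ≤ _ := Nat.pow_le_pow_right ht h

variable {j j0 A k B b t q : ℕ}

namespace Hy

variable (H : Hy j j0 A k B b t q)
include H

theorem lin : 1 ≤ j0 ∧ A = 24 * j0 + 90 ∧ k = 100 * j0 + 500 ∧ 1000 * k ≤ B ∧ b = 10 * B ∧
    100000 * b ≤ t := ⟨H.j1, H.hA, H.hk, H.B1, H.hb, H.t4⟩

theorem t0 : 1 ≤ t := by have := H.lin; omega

theorem tq : t ≤ q := (Nat.le_self_pow (by norm_num) t).trans H.q1

theorem qp (n : ℕ) : q ^ n ≤ t ^ (121 * n) := by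
  rw [pow_mul]; exact Nat.pow_le_pow_left H.q2 n

theorem d1 : 3 * (b * t) + 2 ≤ 4 * b * t := by
  have h := H.lin
  have : b * 1 ≤ b * t := Nat.mul_le_mul_left _ H.t0
  rw [mul_assoc]
  omega

theorem lr : lrE b k (b * t) j + 2 ≤ t ^ (2 * B + 1) := by
  have h := H.lin
  have h1 : 3 * (b * t) + 2 ≤ t ^ 2 :=
    H.d1.trans (by rw [sq]; exact Nat.mul_le_mul_right _ (by omega))
  have h2 : (3 * (b * t) + 2) ^ B ≤ t ^ (2 * B) := by
    rw [pow_mul]; exact Nat.pow_le_pow_left h1 _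
  have h3 : (b + 1) ^ 2 + 2 ≤ t := le_trans (by nlinarith) H.t1
  have h4 : t ≤ t ^ (2 * B) := Nat.le_self_pow (by omega) t
  have h5 := Nat.mul_le_mul_left (k + 2) h2
  have h6 := mp (c := k + 2 + 1) (a := 2 * B) (by omega) H.t0 le_rfl
  rw [lrE, H.hj0, H.hB]
  rw [add_mul (k + 2), one_mul] at h6
  omega

theorem J : 2 * (16 * (k + 2) * q ^ (2 * A + 1)) ≤ t ^ B := by
  have h := H.lin
  calc _ = 32 * (k + 2) * q ^ (2 * A + 1) := by ring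
    _ ≤ 32 * (k + 2) * t ^ (121 * (2 * A + 1)) := Nat.mul_le_mul_left _ (H.qp _)
    _ ≤ _ := mp (by omega) H.t0 (by omega)

theorem m1 : 2 * j0 * lrE b k (b * t) j + 4 * q ^ j0 + 116 ≤ t ^ (2 * B + 2) := by
  have h := H.lin
  have h1 := Nat.mul_le_mul_left (2 * j0) ((Nat.le_add_right _ _).trans H.lr)
  have h2 : q ^ j0 ≤ t ^ (2 * B + 1) := (H.qp _).trans (Nat.pow_le_pow_right H.t0 (by omega))
  have h3 : 1 ≤ t ^ (2 * B + 1) := Nat.one_le_pow _ _ H.t0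
  have h4 := mp (c := 2 * j0 + 120) (a := 2 * B + 1) (g := 2 * B + 2) (by omega) H.t0 le_rfl
  rw [add_mul] at h4
  omega

theorem ty : 2 * nT q b k (b * t) j * 2 ^ 100 ≤
    q ^ (2 * j0 * lrE b k (b * t) j + 4 * q ^ j0 + 116) := by
  have h := H.lin
  have h0 : 2 ≤ q := le_trans (by omega) H.tq
  have h1 : (q + 1) ^ (2 * q ^ j0) ≤ q ^ (4 * q ^ j0) := by
    rw [show 4 * q ^ j0 = 2 * (2 * q ^ j0) by ring, pow_mul q]
    exact Nat.pow_le_pow_left (by nlinarith) _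
  have h2 : (j0 + 1) * 2 ^ 101 ≤ q ^ 116 :=
    calc _ ≤ 32768 * 2 ^ 101 := Nat.mul_le_mul_right _ H.j2
      _ = 2 ^ 116 := by norm_num
      _ ≤ _ := Nat.pow_le_pow_left h0 _
  rw [nT, H.hj0, pow_add, pow_add]
  calc _ = q ^ (2 * j0 * lrE b k (b * t) j) * (q + 1) ^ (2 * q ^ j0) * ((j0 + 1) * 2 ^ 101) := by
        ring
    _ ≤ _ := Nat.mul_le_mul (Nat.mul_le_mul_left _ h1) h2

theorem big : 2 * j0 * lrE b k (b * t) j + 4 * q ^ j0 + 116 + 80001 * n3 b k (b * t) +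
    6 * q ^ (2 * A) + 24 * j0 + 200 ≤ t ^ (b + 3) := by
  have h := H.lin
  have h1 := H.m1.trans (Nat.pow_le_pow_right H.t0 (show 2 * B + 2 ≤ b + 2 by omega))
  have h2 : 80001 * n3 b k (b * t) ≤ t ^ (b + 2) :=
    calc _ ≤ 80001 * ((4 * b * t) ^ (b + 1) * (k + 2)) :=
          Nat.mul_le_mul_left _ (Nat.mul_le_mul_right _ (Nat.pow_le_pow_left H.d1 _))
      _ = 80001 * ((4 * b) ^ (b + 1) * (k + 2)) * t ^ (b + 1) := by rw [mul_pow]; ring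
      _ ≤ _ := mp H.t3 H.t0 le_rfl
  have h3 : 6 * q ^ (2 * A) ≤ t ^ (b + 2) :=
    (Nat.mul_le_mul_left _ (H.qp _)).trans (mp (by omega) H.t0 (by omega))
  have h4 : t ≤ t ^ (b + 2) := Nat.le_self_pow (by omega) t
  have h5 := mp (c := 4) (a := b + 2) (g := b + 3) (by omega) H.t0 le_rfl
  omega

theorem T1 : (1 : ℝ) ≤ t := by exact_mod_cast H.t0

theorem Q1 : (1 : ℝ) ≤ q := by exact_mod_cast H.t0.trans H.tq

theorem eta (n : ℕ) : 1 / (t : ℝ) ^ (121 * n) ≤ 1 / (q : ℝ) ^ n := by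
  have := H.Q1
  exact one_div_le_one_div_of_le (by positivity) (by exact_mod_cast H.qp n)

theorem del : (2 : ℝ) ^ b * ((t : ℝ) / q) ^ (B + 1) ≤ 1 / (t : ℝ) ^ (119 * B) := by
  have h0 := H.T1
  have h1 : (t : ℝ) / q ≤ 1 / (t : ℝ) ^ 119 := by
    calc (t : ℝ) / q ≤ t ^ 1 / (t : ℝ) ^ 120 := by
          rw [pow_one]
          exact div_le_div_of_nonneg_left (by positivity) (by positivity) (by exact_mod_cast H.q1)
      _ ≤ _ := pd h0 le_rfl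
  calc _ ≤ (t : ℝ) * (1 / (t : ℝ) ^ 119) ^ (B + 1) := by
        gcongr
        exact_mod_cast H.t2
    _ = t ^ 1 / (t : ℝ) ^ (119 * (B + 1)) := by rw [one_div_pow, ← pow_mul, pow_one, mul_one_div]
    _ ≤ _ := pd h0 (by omega)

theorem lg : 0 ≤ Real.log q ∧ Real.log q ≤ q ∧ Real.log q ≤ (t : ℝ) ^ 2 := by
  have h0 := H.T1
  have h1 := H.Q1
  have h := H.lin
  refine ⟨Real.log_nonneg h1, Real.log_le_self (by positivity), ?_⟩
  calc Real.log q ≤ Real.log ((t : ℝ) ^ 121) :=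
        Real.log_le_log (by positivity) (by exact_mod_cast H.q2)
    _ = 121 * Real.log t := by rw [Real.log_pow]; norm_num
    _ ≤ t * t := by
        refine mul_le_mul ?_ (Real.log_le_self (by positivity)) (Real.log_nonneg h0) (by positivity)
        exact_mod_cast (show 121 ≤ t by omega)
    _ = _ := (sq _).symm

theorem ml {c a g : ℕ} (h : c ≤ t ^ a) (hg : a + 2 ≤ g) : (c : ℝ) * Real.log q ≤ (t : ℝ) ^ g := by
  have h0 := H.T1
  calc (c : ℝ) * Real.log q ≤ (t : ℝ) ^ a * (t : ℝ) ^ 2 :=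
        mul_le_mul (by exact_mod_cast h) H.lg.2.2 H.lg.1 (by positivity)
    _ = (t : ℝ) ^ (a + 2) := (pow_add _ _ _).symm
    _ ≤ _ := pow_le_pow_right₀ h0 hg

theorem cr {J0 m1 N L Lm : ℕ} {δ : ℝ} (hJ : J0 = 16 * (k + 2) * q ^ (2 * A + 1))
    (hm : m1 ≤ t ^ (2 * B + 2)) (hN : N = 3200 * t ^ (b + 3)) (hL : L = t ^ (8 * B))
    (hLm : Lm = t ^ (9 * B)) (_hδ0 : 0 ≤ δ) (hδ : δ ≤ 1 / (t : ℝ) ^ (119 * B)) :
    4 * ((k + 2) * Real.log q) / J0 +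
    4 * ((m1 * Real.log q + 4 * J0 * ((k + 2) * Real.log q) + 31 * N * Real.log q / L) / L +
      2 * Lm * δ * ((2 * N + N * (k + 2) + (k + 2)) * Real.log q)) ≤ (1 / (q : ℝ) ^ A) ^ 2 := by
  have h := H.lin
  have h0 := H.T1
  have h1 := H.Q1
  have l0 := H.lg.1
  have hL' : (L : ℝ) = (t : ℝ) ^ (8 * B) := by rw [hL]; push_cast; rfl
  have hLm' : (Lm : ℝ) = (t : ℝ) ^ (9 * B) := by rw [hLm]; push_cast; rfl
  have a1 : 4 * ((k + 2) * Real.log q) / J0 ≤ 1 / 4 * (1 / (q : ℝ) ^ A) ^ 2 := by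
    calc _ ≤ 4 * ((k + 2) * (q : ℝ)) / J0 := by gcongr; exact H.lg.2.1
      _ = _ := by rw [hJ]; push_cast; field_simp; ring
  have a2 : m1 * Real.log q ≤ (t : ℝ) ^ (2 * B + 6) := H.ml hm (by omega)
  have a3 : 4 * J0 * ((k + 2) * Real.log q) ≤ (t : ℝ) ^ (2 * B + 6) := by
    have e : 4 * J0 * (k + 2) ≤ t ^ (B + 1) :=
      calc _ = 2 * (k + 2) * (2 * J0) := by ring
        _ ≤ 2 * (k + 2) * t ^ B := Nat.mul_le_mul_left _ (hJ ▸ H.J)
        _ ≤ _ := mp (by omega) H.t0 le_rfl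
    have := H.ml (g := 2 * B + 6) e (by omega)
    push_cast at this
    rwa [mul_assoc] at this
  have a4 : 31 * N * Real.log q / L ≤ (t : ℝ) ^ (2 * B + 6) := by
    have e : 31 * N ≤ t ^ (b + 4) := by
      rw [hN, ← mul_assoc]
      exact mp (by omega) H.t0 le_rfl
    have := H.ml (g := 2 * B + 6 + 8 * B) e (by omega)
    push_cast at this
    rwa [hL', div_le_iff₀ (by positivity), ← pow_add]
  have a5 : (m1 * Real.log q + 4 * J0 * ((k + 2) * Real.log q) + 31 * N * Real.log q / L) / L ≤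
      3 * (1 / (t : ℝ) ^ (5 * B)) := by
    calc _ ≤ 3 * (t : ℝ) ^ (2 * B + 6) / L := by gcongr; linarith
      _ ≤ _ := by
        rw [hL', mul_div_assoc]
        exact mul_le_mul_of_nonneg_left (pd h0 (by omega)) (by norm_num)
  have a6 : (2 * N + N * (k + 2) + (k + 2)) * Real.log q ≤ (t : ℝ) ^ (b + 6) := by
    have e0 : 1 ≤ t ^ (b + 3) := Nat.one_le_pow _ _ H.t0
    have e : 2 * N + N * (k + 2) + (k + 2) ≤ t ^ (b + 4) :=
      calc _ ≤ 2 * N + N * (k + 2) + (k + 2) * t ^ (b + 3) :=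
            Nat.add_le_add_left (Nat.le_mul_of_pos_right _ e0) _
        _ = (3201 * k + 12802) * t ^ (b + 3) := by rw [hN]; ring
        _ ≤ _ := mp (by omega) H.t0 le_rfl
    have := H.ml (g := b + 6) e le_rfl
    push_cast at this
    exact this
  have a7 : 2 * Lm * δ * ((2 * N + N * (k + 2) + (k + 2)) * Real.log q) ≤
      2 * (1 / (t : ℝ) ^ (5 * B)) := by
    calc _ ≤ 2 * Lm * (1 / (t : ℝ) ^ (119 * B)) * (t : ℝ) ^ (b + 6) := by gcongr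
      _ = 2 * ((t : ℝ) ^ (9 * B + (b + 6)) / (t : ℝ) ^ (119 * B)) := by
        rw [hLm', pow_add _ (9 * B)]; ring
      _ ≤ _ := mul_le_mul_of_nonneg_left (pd h0 (by omega)) (by norm_num)
  have a8 : 100 * (1 / (t : ℝ) ^ (5 * B)) ≤ (1 / (q : ℝ) ^ A) ^ 2 := by
    calc _ ≤ (t : ℝ) * (1 / (t : ℝ) ^ (5 * B)) := by
          gcongr
          exact_mod_cast (show 100 ≤ t by omega)
      _ = t ^ 1 / (t : ℝ) ^ (5 * B) := by rw [pow_one, mul_one_div]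
      _ ≤ 1 / (t : ℝ) ^ (121 * (A * 2)) := pd h0 (by omega)
      _ ≤ _ := by rw [one_div_pow, ← pow_mul]; exact H.eta _
  have a9 : 0 ≤ 1 / (t : ℝ) ^ (5 * B) := by positivity
  linarith

theorem good {N N1 L : ℕ} {δ : ℝ} (hN1 : N1 = t ^ (b + 3)) (hN : N = 3200 * N1)
    (hL : L = t ^ (8 * B)) (hδ0 : 0 ≤ δ) (hδ : δ ≤ 1 / (t : ℝ) ^ (119 * B)) :
    3 * (13200 / L + 2 ^ L / (q : ℝ) ^ (2 * N)) + (16 * L + 12) * δ +
    (q : ℝ) ^ (4 * (j0 + 3)) / (q : ℝ) ^ (8 * N1) ≤ 8 * (1 / (q : ℝ) ^ A) := by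
  have h := H.lin
  have h0 := H.T1
  have h1 := H.Q1
  have hL' : (L : ℝ) = (t : ℝ) ^ (8 * B) := by rw [hL]; push_cast; rfl
  have n1 : t ≤ N1 := hN1 ▸ Nat.le_self_pow (by omega) t
  have n2 : L ≤ N1 := by rw [hL, hN1]; exact Nat.pow_le_pow_right H.t0 (by omega)
  have n3 : 1 ≤ L := hL ▸ Nat.one_le_pow _ _ H.t0
  have a1 : (13200 : ℝ) / L ≤ 1 / (q : ℝ) ^ A := by
    calc _ ≤ (t : ℝ) ^ 1 / (t : ℝ) ^ (8 * B) := by
          rw [hL', pow_one]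
          gcongr
          exact_mod_cast (show 13200 ≤ t by omega)
      _ ≤ _ := (pd h0 (by omega)).trans (H.eta A)
  have a2 : 2 ^ L / (q : ℝ) ^ (2 * N) ≤ 1 / (q : ℝ) ^ A := by
    calc _ ≤ (q : ℝ) ^ L / (q : ℝ) ^ (2 * N) := by
          gcongr
          exact_mod_cast (show 2 ≤ q from le_trans (by omega) H.tq)
      _ ≤ _ := pd h1 (by omega)
  have a3 : (16 * L + 12) * δ ≤ 1 / (q : ℝ) ^ A := by
    have e : 16 * L + 12 ≤ t ^ (8 * B + 1) :=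
      le_trans (by omega) (hL ▸ mp (c := 28) (a := 8 * B) (by omega) H.t0 le_rfl)
    calc _ ≤ (t : ℝ) ^ (8 * B + 1) * (1 / (t : ℝ) ^ (119 * B)) := by
          gcongr
          exact_mod_cast e
      _ ≤ _ := by
        rw [mul_one_div]
        exact (pd h0 (by omega)).trans (H.eta A)
  have a4 : (q : ℝ) ^ (4 * (j0 + 3)) / (q : ℝ) ^ (8 * N1) ≤ 1 / (q : ℝ) ^ A := pd h1 (by omega)
  linarith

theorem num : Num q b k (b * t) (3200 * t ^ (b + 3)) (t ^ (b + 3)) j (t ^ (8 * B)) (t ^ (9 * B))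
    (16 * (k + 2) * q ^ (2 * A + 1)) (2 * j0 * lrE b k (b * t) j + 4 * q ^ j0 + 116)
    (2 ^ b * ((t : ℝ) / q) ^ (B + 1)) (3 / (t : ℝ) ^ 3) (1 / (q : ℝ) ^ A) := by
  have h := H.lin
  have h0 := H.T1
  have h1 := H.Q1
  have h2 := H.tq
  have hA : 24 * j ^ 3 + 90 = A := by rw [H.hj0, H.hA]
  have p1 : 1 ≤ t ^ (8 * B) := Nat.one_le_pow _ _ H.t0
  have p2 := mp (c := 33) (a := 8 * B) (g := 9 * B) (by omega) H.t0 (by omega)
  have p3 : t ^ B ≤ t ^ (8 * B) := Nat.pow_le_pow_right H.t0 (by omega)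
  have p4 := H.J
  have p5 := H.hj
  refine ⟨by omega, Nat.mul_pos (by omega) H.t0, H.hj, rfl, by rw [hA], by rw [H.hj0]; omega, ?_,
    H.lr.trans (Nat.pow_le_pow_right H.t0 (by omega)), ?_, p1, ?_, by omega, ?_, by omega, ?_,
    H.cr rfl H.m1 rfl rfl rfl (by positivity) H.del, ?_, H.ty, ?_⟩
  · refine H.del.trans (le_trans ?_ ((H.eta k).trans ?_))
    · exact one_div_le_one_div_of_le (by positivity) (pow_le_pow_right₀ h0 (by omega))
    · gcongr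
  · have e : 300 * (3 * (b * t) + 2) ^ 2 ≤ t ^ 3 :=
      calc _ ≤ 300 * (4 * b * t) ^ 2 := Nat.mul_le_mul_left _ (Nat.pow_le_pow_left H.d1 _)
        _ = 300 * (4 * b) ^ 2 * t ^ 2 := by ring
        _ ≤ _ := mp H.t1 H.t0 le_rfl
    have e' : 300 * (3 * ((b * t : ℕ) : ℝ) + 2) ^ 2 ≤ (t : ℝ) ^ 3 := by exact_mod_cast e
    rw [div_mul_eq_mul_div, div_le_div_iff₀ (by positivity) (by norm_num)]
    linarith
  · have : 0 < q := by omega
    positivity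
  · calc _ ≤ t ^ (8 * B) * t ^ B := Nat.mul_le_mul_left _ p4
      _ = _ := by rw [← pow_add]; congr 1; omega
  · have : t ≤ t ^ (9 * B) := Nat.le_self_pow (by omega) t
    rw [p5]
    omega
  · rw [H.hj0]
    exact H.good rfl rfl rfl (by positivity) H.del
  · rw [hA, H.hj0]
    exact H.big

end Hy

theorem ex (b k : ℕ) : ∃ e : ℕ, 1 ≤ e ∧ 300 * (4 * b) ^ 2 ≤ 2 ^ e ∧ 2 ^ b ≤ 2 ^ e ∧
    80001 * ((4 * b) ^ (b + 1) * (k + 2)) ≤ 2 ^ e ∧ 100000 * b ≤ 2 ^ e := by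
  generalize 300 * (4 * b) ^ 2 = x
  generalize 2 ^ b = y
  generalize 80001 * ((4 * b) ^ (b + 1) * (k + 2)) = z
  generalize 100000 * b = w
  have h := (Nat.lt_two_pow_self (n := x + y + z + w + 1)).le
  exact ⟨x + y + z + w + 1, Nat.le_add_left _ _, le_trans (by omega) h, le_trans (by omega) h,
    le_trans (by omega) h, le_trans (by omega) h⟩

theorem fin (j j0 A k B b : ℕ) (hj : j = 31) (hj0 : j ^ 3 = j0) (j1 : 1000 ≤ j0)
    (j2 : j0 + 1 ≤ 32768) (hA : A = 24 * j0 + 90) (hk : k = 100 * j0 + 500)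
    (hB : (k + 2) * j0 = B) (hb : b = 10 * B) :
    ∃ (e b k t n0 N N1 L J0 m1 : ℕ) (η : ℝ), 1 ≤ t ∧ 1 ≤ n0 ∧ n0 ≤ b ∧
    Num (2 ^ (120 * e + 1)) b k (b * t) N N1 j L (t ^ n0) J0 m1
      (2 ^ b * (t / ((2 ^ (120 * e + 1) : ℕ) : ℝ)) ^ (b + 1 - n0)) (3 / 8 ^ e) η := by
  obtain ⟨e, e0, e1, e2, e3, e4⟩ := ex b k
  have B1 : 1000 * k ≤ B := by rw [← hB]; nlinarith
  have H : Hy j j0 A k B b (2 ^ e) (2 ^ (120 * e + 1)) :=
    ⟨hj, hj0, by omega, j2, hA, hk, hB, B1, hb, e1, e2, e3, e4,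
      by rw [← pow_mul]; exact Nat.pow_le_pow_right (by norm_num) (by omega),
      by rw [← pow_mul]; exact Nat.pow_le_pow_right (by norm_num) (by omega)⟩
  have h := H.num
  have e8 : ((2 ^ e : ℕ) : ℝ) ^ 3 = 8 ^ e := by
    push_cast
    rw [← pow_mul, mul_comm, pow_mul]
    norm_num
  rw [e8, show B + 1 = b + 1 - 9 * B by omega] at h
  exact ⟨e, b, k, 2 ^ e, 9 * B, _, _, _, _, _, _, H.t0, by omega, by omega, h⟩

end Par

theorem s_par : S_Par :=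
  Par.fin 31 29791 _ _ _ _ rfl (by norm_num) (by norm_num) (by norm_num) rfl rfl rfl rfl

end Vale.Agent.P060
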