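import Vale.Agent.P060.StB

/-! Partition of a kernel according to the lines carrying large Fourier coefficients. -/

namespace Vale.Agent.P060

open Finset Vale.Agent.P015
open scoped BigOperators

namespace Part

theorem tri {Ω : Type} [Fintype Ω] {f g : Ω → ℝ} {a b : ℝ} (ha : 0 ≤ a) (hb : 0 ≤ b)
    (hf : 𝔼 ω, f ω ^ 2 ≤ a ^ 2) (hg : 𝔼 ω, g ω ^ 2 ≤ b ^ 2) :
    𝔼 ω, (f ω + g ω) ^ 2 ≤ (a + b) ^ 2 := by
  have h1 := expect_mul_sq_le_sq_mul_sq univ f g
  have h2 : (𝔼 ω, f ω * g ω) ^ 2 ≤ (a * b) ^ 2 := by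
    rw [mul_pow]
    exact h1.trans (mul_le_mul hf hg (E_nonneg fun _ => sq_nonneg _) (sq_nonneg _))
  have h3 := (abs_le_of_sq_le_sq' h2 (mul_nonneg ha hb)).2
  have h4 : 𝔼 ω, (f ω + g ω) ^ 2 = (𝔼 ω, f ω ^ 2) + 2 * (𝔼 ω, f ω * g ω) + 𝔼 ω, g ω ^ 2 := by
    rw [← E_mul_left, ← E_add, ← E_add]
    exact E_congr fun ω => by ring
  rw [h4]
  nlinarith

variable {F : Type} [Field F] [Fintype F] [DecidableEq F] {b k N n : ℕ}

theorem fc_add (χ : F → ℝ) (La : (Fin b → F) → Co F k → Lx n → Co F k)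
    (K1 K2 : (Fin b → F) → Wt F k N → Co F k → ℝ) (ξ : Lb F n) (κ : Ky F N) :
    fc χ La (fun z w y => K1 z w y + K2 z w y) ξ κ = fc χ La K1 ξ κ + fc χ La K2 ξ κ := by
  simp only [fc, abar, aK, add_mul, sum_add_distrib, E_add, mul_add]

theorem fc_zero (χ : F → ℝ) (La : (Fin b → F) → Co F k → Lx n → Co F k) (ξ : Lb F n)
    (κ : Ky F N) : fc χ La (fun _ (_ : Wt F k N) _ => 0) ξ κ = 0 := by
  simp [fc, abar, aK]

theorem mass_add {Z W Y : Type} [Fintype Z] [Fintype W] [Fintype Y] (K1 K2 : Z → W → Y → ℝ) :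
    mass (fun z w y => K1 z w y + K2 z w y) = mass K1 + mass K2 := by
  simp only [mass, sum_add_distrib, E_add]

theorem rs_congr {Z W Y : Type} (K : Z → W → Y → ℝ) {D D' : Z → W → Y → Prop}
    (h : ∀ z w y, D z w y ↔ D' z w y) : rs K D = rs K D' := by
  funext z w y
  unfold rs
  rw [ind_congr (h z w y)]

theorem rs_empty {Z W Y : Type} (K : Z → W → Y → ℝ) {D : Z → W → Y → Prop}
    (h : ∀ z w y, ¬ D z w y) : rs K D = fun _ _ _ => 0 := by
  funext z w y
  unfold rs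
  rw [ind_neg (h z w y), mul_zero]

theorem rs_split {Z W Y : Type} (K : Z → W → Y → ℝ) (D D' : Z → W → Y → Prop) :
    rs K D = fun z w y => rs K (fun z w y => D z w y ∧ D' z w y) z w y +
      rs K (fun z w y => D z w y ∧ ¬ D' z w y) z w y := by
  funext z w y
  unfold rs
  rw [ind_and, ind_and, ind_not]
  ring

theorem step (χ : F → ℝ) (La : (Fin b → F) → Co F k → Lx n → Co F k)
    (K : (Fin b → F) → Wt F k N → Co F k → ℝ) (hK : ∀ z w y, 0 ≤ K z w y) {e ep : ℝ} (he : 0 ≤ e)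
    (hep : 0 ≤ ep)
    (h : ∀ (D : (Fin b → F) → Wt F k N → Co F k → Prop) (ξ : Lb F n), ξ.2 ≠ 0 →
      e ^ 2 < 𝔼 κ, fc χ La (rs K D) ξ κ ^ 2 →
      ∃ D' : (Fin b → F) → Wt F k N → Co F k → Prop, (∀ z w y, D' z w y → D z w y) ∧
        e ^ 2 / 2 ≤ mass (rs K D') ∧ ∀ ξ' : Lb F n, ξ'.2 ≠ 0 → ξ'.2⁻¹ • ξ'.1 ≠ ξ.2⁻¹ • ξ.1 →
          𝔼 κ, fc χ La (rs K D') ξ' κ ^ 2 ≤ ep ^ 2) (m : ℕ) :
    ∀ D : (Fin b → F) → Wt F k N → Co F k → Prop, mass (rs K D) < m * (e ^ 2 / 2) →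
      ∃ part : (Fin b → F) → Wt F k N → Co F k → Lx n → F, ∀ (c : Lx n → F) (ξ : Lb F n),
        ξ.2 ≠ 0 → ξ.1 ≠ ξ.2 • c →
          𝔼 κ, fc χ La (rs K fun z w y => D z w y ∧ part z w y = c) ξ κ ^ 2 ≤ (m * ep + e) ^ 2 := by
  classical
  induction m with
  | zero =>
    intro D hD
    have : 0 ≤ mass (rs K D) := E_nonneg fun z => E_nonneg fun w => sum_nonneg fun y _ =>
      mul_nonneg (hK z w y) (ind_nonneg _)
    simp only [Nat.cast_zero, zero_mul] at hD
    linarith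
  | succ m ih =>
    intro D hD
    have hm : (0 : ℝ) ≤ m * ep := mul_nonneg (Nat.cast_nonneg m) hep
    by_cases hc : ∀ ξ : Lb F n, ξ.2 ≠ 0 → 𝔼 κ, fc χ La (rs K D) ξ κ ^ 2 ≤ e ^ 2
    · refine ⟨fun _ _ _ => 0, fun c ξ h1 _ => ?_⟩
      by_cases h0 : (0 : Lx n → F) = c
      · rw [rs_congr K (D' := D) fun z w y => and_iff_left h0]
        refine (hc ξ h1).trans (pow_le_pow_left₀ he ?_ 2)
        push_cast
        linarith
      · rw [rs_empty K fun z w y hh => h0 hh.2]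
        simp only [fc_zero]
        simp [sq_nonneg]
    · push Not at hc
      obtain ⟨ξ0, h1, h2⟩ := hc
      obtain ⟨D', p1, p2, p3⟩ := h D ξ0 h1 h2
      have hmass : mass (rs K D) =
          mass (rs K D') + mass (rs K fun z w y => D z w y ∧ ¬ D' z w y) := by
        rw [rs_split K D D', mass_add,
          rs_congr K (D' := D') fun z w y => and_iff_right_of_imp (p1 z w y)]
      obtain ⟨part, hp⟩ := ih (fun z w y => D z w y ∧ ¬ D' z w y) (by
        push_cast at hD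
        linarith)
      refine ⟨fun z w y => if D' z w y then ξ0.2⁻¹ • ξ0.1 else part z w y, fun c ξ q1 q2 => ?_⟩
      rw [rs_split K _ D']
      simp only [fc_add]
      have e1 : ((m + 1 : ℕ) : ℝ) * ep + e = ep + (m * ep + e) := by
        push_cast
        ring
      rw [e1]
      refine tri hep (by linarith) ?_ ?_
      · by_cases h0 : ξ0.2⁻¹ • ξ0.1 = c
        · rw [rs_congr K (D' := D') fun z w y => ⟨fun hh => hh.2, fun hh =>
            ⟨⟨p1 z w y hh, by rw [if_pos hh, h0]⟩, hh⟩⟩]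
          refine p3 ξ q1 fun hh => q2 ?_
          rw [← h0, ← hh, smul_inv_smul₀ q1]
        · rw [rs_empty K fun z w y hh => h0 (by
            have := hh.1.2
            rwa [if_pos hh.2] at this)]
          simp only [fc_zero]
          simp [sq_nonneg]
      · rw [rs_congr K (D' := fun z w y => (D z w y ∧ ¬ D' z w y) ∧ part z w y = c)
          fun z w y => ⟨fun hh => ⟨⟨hh.1.1, hh.2⟩, by
            have := hh.1.2
            rwa [if_neg hh.2] at this⟩, fun hh => ⟨⟨hh.1.1, by rw [if_neg hh.1.2, hh.2]⟩, hh.1.2⟩⟩]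
        exact hp c ξ q1 q2

end Part

open Part

theorem s_part (ho : S_Off) : S_Part := by
  intro F _ _ _ _ χ hχ b k N n La K δ η hK hL h0 h1 hε
  have hs : √(δ + 3 / qq F ^ k) ≤ η ^ 8 / 2 ^ 15 := by
    refine Real.sqrt_le_iff.2 ⟨by positivity, hε.trans (le_of_eq ?_)⟩
    ring
  have hmass : mass (rs K fun _ _ _ => True) = 1 := by
    simp only [mass, rs, ind_true, mul_one, hK.2, E_const]
  obtain ⟨part, hp⟩ := step χ La K hK.1 (e := η / 2) (ep := η ^ 3 / 64) (by positivity)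
    (by positivity) (fun D ξ p1 p2 => by
      obtain ⟨D', q1, q2, q3⟩ := (ho F χ hχ b k N n La K δ D hK hL).2 (η / 2) ξ (half_pos h0) p1 p2
      refine ⟨D', q1, q2, fun ξ' r1 r2 => (q3 ξ' r1 r2).trans ?_⟩
      refine (mul_le_mul_of_nonneg_left hs (by positivity)).trans (le_of_eq ?_)
      field_simp
      ring) (⌈8 / η ^ 2⌉₊ + 1) (fun _ _ _ => True) (by
      rw [hmass]
      have h2 := Nat.le_ceil (8 / η ^ 2)
      rw [div_le_iff₀ (by positivity)] at h2
      push_cast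
      nlinarith [sq_pos_of_pos h0])
  refine ⟨part, fun c ξ hξ => ?_⟩
  by_cases h2 : ξ.2 = 0
  · refine ((ho F χ hχ b k N n La K δ _ hK hL).1 ξ h2 (by rwa [h2, zero_smul] at hξ)).trans
      (hs.trans ?_)
    have h3 : η ^ 8 ≤ η ^ 2 := pow_le_pow_of_le_one h0.le h1 (by norm_num)
    have h4 : 0 < η ^ 8 := by positivity
    linarith
  · have h3 := hp c ξ h2 hξ
    rw [rs_congr K (D' := fun z w y => part z w y = c) fun z w y => and_iff_right trivial] at h3
    refine h3.trans (pow_le_pow_left₀ (by positivity) ?_ 2)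
    have h4 := (Nat.ceil_lt_add_one (show (0 : ℝ) ≤ 8 / η ^ 2 by positivity)).le
    have h5 : ((⌈8 / η ^ 2⌉₊ + 1 : ℕ) : ℝ) ≤ 8 / η ^ 2 + 2 := by
      push_cast
      linarith
    have h6 := mul_le_mul_of_nonneg_right h5 (show (0 : ℝ) ≤ η ^ 3 / 64 by positivity)
    have h7 : (8 / η ^ 2 + 2) * (η ^ 3 / 64) = η / 8 + η ^ 3 / 32 := by
      field_simp
      ring
    have h8 : η ^ 3 ≤ η := pow_le_of_le_one h0.le h1 (by norm_num)
    linarith

end Vale.Agent.P060
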