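import Vale.Agent.P060.StA

/-! A Pinsker type inequality. -/

namespace Vale.Agent.P060

open Finset Vale.Agent.P015
open scoped BigOperators

namespace Pin

theorem hell {α : Type} [Fintype α] (a b : α → ℝ) (ha : ∀ x, 0 ≤ a x) (hb : ∀ x, 0 ≤ b x)
    (h1 : ∑ x, a x = 1) (h2 : ∑ x, b x = 1) :
    (∑ x, max (a x - b x) 0) ^ 2 ≤ 2 - 2 * ∑ x, √(a x * b x) := by
  have e1 : ∑ x, max (a x - b x) 0 = (∑ x, |√(a x) - √(b x)| * (√(a x) + √(b x))) / 2 := by
    have : ∀ x, max (a x - b x) 0 =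
        (|√(a x) - √(b x)| * (√(a x) + √(b x))) / 2 + (a x - b x) / 2 := by
      intro x
      rw [← abs_of_nonneg (show 0 ≤ √(a x) + √(b x) by positivity), ← abs_mul, mul_comm,
        ← sq_sub_sq, Real.sq_sqrt (ha x), Real.sq_sqrt (hb x)]
      rcases le_total (a x - b x) 0 with h | h
      · rw [max_eq_right h, abs_of_nonpos h]; ring
      · rw [max_eq_left h, abs_of_nonneg h]; ring
    simp only [this, sum_add_distrib, ← sum_div, sum_sub_distrib, h1, h2]
    ring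
  have e2 : ∑ x, |√(a x) - √(b x)| ^ 2 = 2 - 2 * ∑ x, √(a x * b x) := by
    have : ∀ x, |√(a x) - √(b x)| ^ 2 = a x + b x - 2 * √(a x * b x) := by
      intro x
      rw [sq_abs, sub_sq, Real.sq_sqrt (ha x), Real.sq_sqrt (hb x), Real.sqrt_mul (ha x)]
      ring
    simp only [this, sum_add_distrib, sum_sub_distrib, ← mul_sum, h1, h2]
    ring
  have e3 : ∑ x, (√(a x) + √(b x)) ^ 2 ≤ 4 := by
    have : ∀ x, (√(a x) + √(b x)) ^ 2 ≤ 2 * (a x + b x) := by
      intro x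
      linarith only [Real.sq_sqrt (ha x), Real.sq_sqrt (hb x), sq_nonneg (√(a x) - √(b x))]
    refine (sum_le_sum fun x _ => this x).trans (le_of_eq ?_)
    rw [← mul_sum, sum_add_distrib, h1, h2]
    norm_num
  have e4 := sum_mul_sq_le_sq_mul_sq univ (fun x => |√(a x) - √(b x)|)
    fun x => √(a x) + √(b x)
  have e5 := mul_le_mul_of_nonneg_left e3
    (show 0 ≤ ∑ x, |√(a x) - √(b x)| ^ 2 from sum_nonneg fun x _ => sq_nonneg _)
  rw [e1, ← e2, div_pow]
  linarith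

end Pin

theorem s_pin : S_Pin := by
  intro S O α _ _ _ c X π K h0 h1 hp hK
  obtain ⟨q, hq⟩ : ∃ q : O → α → ℝ, ∀ o x,
      q o x = pr (fun σ' => c σ' = o ∧ X σ' = x) / pr (fun σ' => c σ' = o) := ⟨_, fun _ _ => rfl⟩
  have q0 : ∀ o x, 0 ≤ q o x := fun o x => by
    rw [hq]
    exact div_nonneg (pr_nonneg _) (pr_nonneg _)
  have qp : ∀ σ, 0 < q (c σ) (X σ) := fun σ => by
    rw [hq]
    exact div_pos (pr_fib2_pos c X σ) (pr_fib_pos c σ)
  have q1 : ∀ σ, ∑ x, q (c σ) x = 1 := by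
    intro σ
    simp only [hq]
    rw [← sum_div, div_eq_one_iff_eq (pr_fib_pos c σ).ne']
    simp only [pr]
    rw [← E_sum]
    refine E_congr fun σ' => ?_
    simp only [ind_and, mul_comm (ind (c σ' = c σ))]
    exact sum_ind_eq (mem_univ _) fun _ => ind (c σ' = c σ)
  have hc : cent X c = 𝔼 σ, -Real.log (q (c σ) (X σ)) := by
    rw [cent_eq]
    exact E_congr fun σ => by rw [hq, pr_congr fun _ => and_comm]
  have g := gibbs (X := X) (Y := c) univ (fun _ => mem_univ _) (fun x o => √(π o x * q o x))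
    (fun _ _ => Real.sqrt_nonneg _) fun σ => Real.sqrt_pos.2 (mul_pos (hp σ) (qp σ))
  have e : 𝔼 σ, -Real.log √(π (c σ) (X σ) * q (c σ) (X σ)) =
      ((𝔼 σ, -Real.log (π (c σ) (X σ))) + cent X c) / 2 := by
    rw [hc, ← E_add, ← E_div]
    refine E_congr fun σ => ?_
    rw [Real.log_sqrt (mul_pos (hp σ) (qp σ)).le, Real.log_mul (hp σ).ne' (qp σ).ne']
    ring
  have a1 := E_mono fun σ => Pin.hell (π (c σ)) (q (c σ)) (h0 _) (q0 _) (h1 _) (q1 σ)
  rw [E_sub, E_const, E_mul_left] at a1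
  have a2 := expect_mul_sq_le_sq_mul_sq univ (fun σ => ∑ x, max (π (c σ) x - q (c σ) x) 0)
    fun _ => (1 : ℝ)
  simp only [mul_one, one_pow, E_const] at a2
  have a3 : 𝔼 σ, ∑ x, max (π (c σ) x - cp c X σ x) 0 =
      𝔼 σ, ∑ x, max (π (c σ) x - q (c σ) x) 0 := by
    simp only [hq, cp]
  rw [a3]
  refine Real.le_sqrt_of_sq_le ?_
  rw [e] at g
  linarith

end Vale.Agent.P060
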