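import Vale.Agent.P060.StC

/-! Comparison of the ideal and the true law of a cell. -/

namespace Vale.Agent.P060

open Finset Vale.Agent.P015
open scoped BigOperators

namespace Push

theorem sum_pr {S Y : Type} [Fintype S] [Fintype Y] (A : S → Prop) (f : S → Y) (H : Y → ℝ) :
    ∑ y, pr (fun σ => A σ ∧ f σ = y) * H y = 𝔼 σ, ind (A σ) * H (f σ) := by
  simp only [pr, ← E_mul_right, ← E_sum, ind_and, mul_assoc, ← Finset.mul_sum]
  exact E_congr fun σ => by rw [sum_ind_eq (mem_univ _)]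

theorem kern {S O W Y : Type} [Fintype S] [Fintype Y] [Nonempty Y] (c : S → O) (Wf : S → W)
    (Yf : S → Y) (o : O) (w : W) : (∀ y, 0 ≤ cK c Wf Yf o w y) ∧ ∑ y, cK c Wf Yf o w y = 1 := by
  unfold cK
  split_ifs with h
  · exact ⟨fun _ => by positivity, by simp⟩
  · refine ⟨fun _ => div_nonneg (pr_nonneg _) (pr_nonneg _), ?_⟩
    have := sum_pr (fun σ => c σ = o ∧ Wf σ = w) Yf fun _ => 1
    simp only [mul_one, and_assoc] at this
    rw [← Finset.sum_div, this]
    exact div_self h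

theorem prod_ind {ι : Type} [Fintype ι] (p : ι → Prop) : ∏ i, ind (p i) = ind (∀ i, p i) := by
  by_cases h : ∀ i, p i
  · simp [ind_pos h, fun i => ind_pos (h i)]
  · rw [ind_neg h]
    obtain ⟨i, hi⟩ := not_forall.1 h
    exact Finset.prod_eq_zero (mem_univ i) (ind_neg hi)

theorem expand {ι K T X : Type} [Fintype ι] [DecidableEq ι] [Fintype K] [Nonempty K] [Fintype T]
    [Fintype X] (q : ι → X → ℝ) (f : ι → X → K) (g : ι → X → T) (h : (ι → K) → (ι → T) → ℝ) :
    𝔼 κ : ι → K, ∑ θ : ι → T,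
      (∏ i, (Fintype.card K * ∑ x, q i x * ind (f i x = κ i ∧ g i x = θ i))) * h κ θ =
      ∑ x : ι → X, (∏ i, q i (x i)) * h (fun i => f i (x i)) fun i => g i (x i) := by
  have e : ∀ (κ : ι → K) (θ : ι → T),
      ∏ i, (Fintype.card K * ∑ x, q i x * ind (f i x = κ i ∧ g i x = θ i)) =
      Fintype.card (ι → K) * ∑ x : ι → X, (∏ i, q i (x i)) *
        (ind ((fun i => f i (x i)) = κ) * ind ((fun i => g i (x i)) = θ)) := by
    intro κ θ
    rw [Finset.prod_mul_distrib, Fintype.prod_sum]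
    simp only [Finset.prod_mul_distrib, prod_ind, ← ind_and, funext_iff, forall_and]
    simp
  have h0 : (Fintype.card (ι → K) : ℝ) ≠ 0 := by positivity
  simp only [e, mul_assoc, ← Finset.mul_sum]
  rw [E_eq, ← Finset.mul_sum, mul_div_cancel_left₀ _ h0]
  simp only [Finset.sum_mul, mul_assoc]
  rw [Finset.sum_congr rfl fun κ _ => Finset.sum_comm, Finset.sum_comm]
  refine Finset.sum_congr rfl fun x _ => ?_
  simp only [← Finset.mul_sum, sum_ind_eq (mem_univ _)]

end Push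

open Push in
theorem s_push (hk : S_AK) (ht : S_Tok) : S_Push := by
  intro F _ _ _ b k d N j n δ ρ τ S O _ u c hρ
  refine ⟨fun o r => ⟨fun z w => (kern _ _ _ _ _).1, fun z w => (kern _ _ _ _ _).2⟩,
    fun σ s h hh => ?_⟩
  have e := expand (fun (a : BB) (x : Wt F k N × Co F k) =>
      Kc u c (c σ) a.1 (s a).1 x.1 x.2 / Fintype.card (Wt F k N))
    (fun a x => keyW x.1 (s a).2) (fun a x => labW (lam ρ τ a.1) (s a) x.1 x.2) h
  have e1 := sum_pr (fun σ' => c σ' = c σ)
    (fun σ' (a : BB) => (Wf u a.1 (s a).1 σ', Yf u a.1 (s a).1 σ'))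
    fun x => h (fun a => keyW (x a).1 (s a).2) fun a => labW (lam ρ τ a.1) (s a) (x a).1 (x a).2
  have e2 : ∀ σ', kys (u σ') s = fun a => keyW (Wf u a.1 (s a).1 σ') (s a).2 := fun σ' =>
    funext fun a => ((ht F b k d N j n δ ρ τ hρ).1 (u σ') a.1 (s a)).1
  have e3 : ∀ σ', lbs ρ τ (u σ') s = fun a =>
      labW (lam ρ τ a.1) (s a) (Wf u a.1 (s a).1 σ') (Yf u a.1 (s a).1 σ') := fun σ' =>
    funext fun a => ((ht F b k d N j n δ ρ τ hρ).1 (u σ') a.1 (s a)).2
  simp only [e2, e3]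
  rw [← e1, Finset.sum_div, tvs, tv, ← Finset.sum_add_distrib]
  refine le_trans (le_of_eq (Eq.trans ?_ e)) (Finset.sum_le_sum fun x _ => ?_)
  · simp only [idl, aK, E_eq (Ω := Wt F k N), Fintype.sum_prod_type, Finset.sum_div,
      div_mul_eq_mul_div]
  · obtain ⟨h0, h1⟩ := hh (fun a => keyW (x a).1 (s a).2)
      fun a => labW (lam ρ τ a.1) (s a) (x a).1 (x a).2
    rw [← div_mul_eq_mul_div, ← sub_le_iff_le_add', ← sub_mul]
    exact (mul_le_mul_of_nonneg_right (le_max_left _ 0) h0).trans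
      (mul_le_of_le_one_right (le_max_right _ _) h1)

end Vale.Agent.P060
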