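import Vale.Agent.P060.StA

/-! Rare positions. -/

namespace Vale.Agent.P060

open Finset Vale.Agent.P015
open scoped BigOperators

namespace Rare

theorem coord {ι S : Type} [Fintype ι] [DecidableEq ι] [Fintype S] [Nonempty S] (l : ι)
    (g : S → ℝ) : 𝔼 ζ : ι → S, g (ζ l) = 𝔼 s, g s :=
  (law_equiv (Equiv.funSplitAt l S) (fun x => x.1) g).trans (law_fst (fun s : S => s) g)

theorem point {L : ℕ} (hL : 0 < L) (n : ℕ) (b : Fin L → Prop) (g : Prop) :
    (∑ l, ind (b l)) / L ≤ n / L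
      + ∑ J ∈ powersetCard n (univ : Finset (Fin L)), ind (g ∧ ∀ l ∈ J, b l) + ind (¬ g) := by
  classical
  have h0 : (0 : ℝ) < L := by exact_mod_cast hL
  have h1 : (∑ l, ind (b l)) / L ≤ 1 := by
    rw [div_le_one h0, sum_ind]
    exact_mod_cast (card_le_univ _).trans (Fintype.card_fin L).le
  have h2 : (0 : ℝ) ≤ n / L := by positivity
  have h3 : 0 ≤ ∑ J ∈ powersetCard n (univ : Finset (Fin L)), ind (g ∧ ∀ l ∈ J, b l) :=
    sum_nonneg fun _ _ => ind_nonneg _
  have h4 := ind_nonneg (¬ g)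
  by_cases hg : g
  · rcases le_total n (univ.filter b).card with h | h
    · obtain ⟨J, hJ, hc⟩ := exists_subset_card_eq h
      have h5 := ind_exists_le (powersetCard n (univ : Finset (Fin L)))
        fun J => g ∧ ∀ l ∈ J, b l
      rw [ind_pos ⟨J, mem_powersetCard.2 ⟨subset_univ _, hc⟩, hg,
        fun l hl => (mem_filter.1 (hJ hl)).2⟩] at h5
      linarith
    · have h5 : (∑ l, ind (b l)) / L ≤ n / L := by
        rw [sum_ind]
        exact div_le_div_of_nonneg_right (by exact_mod_cast h) h0.le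
      linarith
  · rw [ind_pos hg]
    linarith

end Rare

theorem s_rare : S_Rare := by
  intro S Ω Pos _ _ _ _ _ u Λ p δ L n bad gp hL hΛ hp hu h1 h2
  have h0 : (0 : ℝ) < L := by exact_mod_cast hL
  have e : 𝔼 s : Pos, pr (fun σ => bad s (u σ))
      = 𝔼 ζ : Fin L → Pos, 𝔼 σ, (∑ l, ind (bad (ζ l) (u σ))) / L := by
    have e1 : ∀ l : Fin L, 𝔼 ζ : Fin L → Pos, 𝔼 σ, ind (bad (ζ l) (u σ))
        = 𝔼 s : Pos, pr (fun σ => bad s (u σ)) :=
      fun l => Rare.coord l fun s => pr (fun σ => bad s (u σ))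
    simp only [E_div, E_sum, e1]
    rw [sum_const, card_univ, Fintype.card_fin, nsmul_eq_mul, mul_div_cancel_left₀ _ h0.ne']
  have h3 : ∀ ζ : Fin L → Pos, 𝔼 σ, (∑ l, ind (bad (ζ l) (u σ))) / L
      ≤ (n / L + Λ * 2 ^ L * p ^ n) + pr (fun σ => ¬ gp ζ (u σ)) := by
    intro ζ
    refine (E_mono fun σ => Rare.point hL n (fun l => bad (ζ l) (u σ)) (gp ζ (u σ))).trans ?_
    rw [E_add, E_add, E_const, E_sum]
    refine add_le_add (add_le_add le_rfl ?_) le_rfl
    refine (sum_le_card_nsmul _ _ (Λ * p ^ n) fun J hJ => ?_).trans ?_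
    · refine (hu fun ω => gp ζ ω ∧ ∀ l ∈ J, bad (ζ l) ω).trans
        (mul_le_mul_of_nonneg_left ?_ hΛ)
      rw [← (mem_powersetCard.1 hJ).2]
      exact h2 ζ J
    · rw [card_powersetCard, card_univ, Fintype.card_fin, nsmul_eq_mul, mul_comm Λ (2 ^ L),
        mul_assoc]
      exact mul_le_mul_of_nonneg_right (by exact_mod_cast Nat.choose_le_two_pow L n)
        (by positivity)
  rw [e]
  refine (E_mono h3).trans ?_
  rw [E_add, E_const]
  exact add_le_add le_rfl h1

end Vale.Agent.P060
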