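import Vale.Agent.P060.StA

/-! P060: from the absence of connected matchings to a counterexample. -/

namespace Vale.Agent.P060

open Finset Vale.Agent.P015

namespace Red

/-- the complement of the hole graph on the sample -/
def gr {Ω : Type} (H : Ω → Ω → Prop) (hs : ∀ x y, H x y → H y x) {m : ℕ} (x : Fin m → Ω) :
    SimpleGraph (Fin m) where
  Adj i j := i ≠ j ∧ ¬ H (x i) (x j)
  symm := ⟨fun _ _ h => ⟨h.1.symm, fun h' => h.2 (hs _ _ h')⟩⟩
  loopless := ⟨fun _ h => h.1 rfl⟩

theorem cm_of {Ω : Type} {H : Ω → Ω → Prop} {m n : ℕ} {x : Fin m → Ω} {K : Type} [Fintype K]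
    (hK : n ≤ Fintype.card K) (a b : K → Fin m) (hi : Function.Injective (Sum.elim a b))
    (h1 : ∀ l, ¬ H (x (a l)) (x (b l)))
    (h2 : ∀ l l', l ≠ l' → ¬ Conf H (x (a l), x (b l)) (x (a l'), x (b l'))) : CM H x n := by
  obtain ⟨e⟩ : Nonempty (Fin n ↪ K) :=
    Function.Embedding.nonempty_of_card_le (by simpa using hK)
  refine ⟨fun l => a (e l), fun l => b (e l), ?_, fun l => h1 _,
    fun l l' h => h2 _ _ fun h' => h (e.injective h')⟩
  have h3 : Sum.elim (fun l => a (e l)) (fun l => b (e l)) = Sum.elim a b ∘ Sum.map e e := by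
    funext s
    cases s <;> rfl
  rw [h3]
  exact hi.comp (Function.Injective.sumMap e.injective e.injective)

theorem cm_of_sets {Ω : Type} {H : Ω → Ω → Prop} (hs : ∀ x y, H x y → H y x) {m n T : ℕ}
    {x : Fin m → Ω} {B : Fin T → Set (Fin m)} (hd : ∀ i j, i ≠ j → Disjoint (B i) (B j))
    (he : ∀ i j, i ≠ j → ∃ u ∈ B i, ∃ v ∈ B j, (gr H hs x).Adj u v)
    {K : Type} [Fintype K] (hK : n ≤ Fintype.card K) (a b : K → Fin m) (i j : K → Fin T)
    (ha : ∀ k, a k ∈ B (i k)) (hb : ∀ k, b k ∈ B (j k))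
    (hsub : ∀ k, ∀ u ∈ B (i k), u = a k ∨ u = b k) (hab : ∀ k, (gr H hs x).Adj (a k) (b k))
    (hii : ∀ k k', k ≠ k' → i k ≠ i k') (hjj : ∀ k k', k ≠ k' → j k ≠ j k')
    (hij : ∀ k k', k ≠ k' → i k ≠ j k') : CM H x n := by
  refine cm_of hK a b ?_ (fun l => (hab l).2) fun l l' hl hc => ?_
  · rintro (k | k) (k' | k') h
    · by_contra hne
      have hk : k ≠ k' := fun e => hne (congrArg _ e)
      exact Set.disjoint_left.1 (hd _ _ (hii k k' hk)) (ha k) ((show a k = a k' from h) ▸ ha k')
    · by_cases hk : k = k'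
      · subst hk
        exact absurd h (hab k).1
      · exact absurd ((show a k = b k' from h) ▸ hb k')
          (Set.disjoint_left.1 (hd _ _ (hij k k' hk)) (ha k))
    · by_cases hk : k' = k
      · subst hk
        exact absurd h.symm (hab k').1
      · exact absurd ((show a k' = b k from h.symm) ▸ hb k)
          (Set.disjoint_left.1 (hd _ _ (hij k' k hk)) (ha k'))
    · by_contra hne
      have hk : k ≠ k' := fun e => hne (congrArg _ e)
      exact Set.disjoint_left.1 (hd _ _ (hjj k k' hk)) (hb k) ((show b k = b k' from h) ▸ hb k')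
  · obtain ⟨u, hu, v, hv, huv⟩ := he _ _ (hii l l' hl)
    rcases hsub l u hu with rfl | rfl <;> rcases hsub l' v hv with rfl | rfl
    · exact huv.2 hc.1
    · exact huv.2 hc.2.1
    · exact huv.2 hc.2.2.1
    · exact huv.2 hc.2.2.2

theorem adj_of_two {V : Type} {G : SimpleGraph V} {p q : V} (hpq : p ≠ q)
    (hc : (G.induce {p, q}).Connected) : G.Adj p q := by
  obtain ⟨w⟩ := hc.preconnected ⟨p, by simp⟩ ⟨q, by simp⟩
  cases w with
  | nil => exact absurd rfl hpq
  | @cons _ v _ h _ =>
    obtain ⟨v, hv⟩ := v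
    have h' : G.Adj p v := h
    rcases hv with rfl | rfl
    · exact absurd rfl h'.ne
    · exact h'

theorem not_col {Ω : Type} {H : Ω → Ω → Prop} (hH : TriFree H) {m t : ℕ} (x : Fin m → Ω)
    (ht : 2 * t < m) : ¬ (gr H hH.1 x).Colorable t := by
  rintro ⟨c⟩
  have h1 : ∀ k ∈ (univ : Finset (Fin m)).image c, (univ.filter fun i => c i = k).card ≤ 2 := by
    intro k _
    by_contra hlt
    obtain ⟨u, hu, v, hv, w, hw, huv, huw, hvw⟩ := Finset.two_lt_card.1 (lt_of_not_ge hlt)
    have e1 := (mem_filter.1 hu).2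
    have e2 := (mem_filter.1 hv).2
    have e3 := (mem_filter.1 hw).2
    have key : ∀ a b, a ≠ b → c a = c b → H (x a) (x b) := fun a b hab hc => by
      by_contra hn
      exact c.valid (G := gr H hH.1 x) ⟨hab, hn⟩ hc
    exact hH.2 _ _ _ (key u v huv (e1.trans e2.symm)) (key v w hvw (e2.trans e3.symm))
      (key u w huw (e1.trans e3.symm))
  have h2 := Finset.card_le_mul_card_image _ 2 h1
  have h3 : ((univ : Finset (Fin m)).image c).card ≤ t := by
    simpa using card_le_univ ((univ : Finset (Fin m)).image c)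
  simp only [card_univ, Fintype.card_fin] at h2
  omega

theorem count {m T : ℕ} (B : Fin T → Set (Fin m)) (hn : ∀ i, (B i).Nonempty)
    (hd : ∀ i j, i ≠ j → Disjoint (B i) (B j)) :
    3 * T ≤ m + 2 * Fintype.card {i // (B i).ncard = 1} + Fintype.card {i // (B i).ncard = 2} := by
  classical
  have h1 : ∑ i, (B i).ncard ≤ m := by
    have h2 : (univ.biUnion fun i => (B i).toFinset).card = ∑ i, (B i).toFinset.card :=
      card_biUnion fun i _ j _ hij => Set.disjoint_toFinset.2 (hd i j hij)
    have h3 := card_le_univ (univ.biUnion fun i => (B i).toFinset)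
    rw [h2, Fintype.card_fin] at h3
    simpa only [Set.ncard_eq_toFinset_card'] using h3
  have h4 : ∑ _i : Fin T, 3 ≤ ∑ i, ((B i).ncard + 2 * (if (B i).ncard = 1 then 1 else 0)
      + if (B i).ncard = 2 then 1 else 0) := by
    refine sum_le_sum fun i _ => ?_
    have := (Set.ncard_pos (Set.toFinite (B i))).2 (hn i)
    split_ifs <;> omega
  rw [sum_add_distrib, sum_add_distrib, ← mul_sum, ← card_filter, ← card_filter] at h4
  rw [Fintype.card_subtype, Fintype.card_subtype]
  simp only [sum_const, card_univ, Fintype.card_fin, smul_eq_mul] at h4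
  omega

theorem cm_of_minor {Ω : Type} {H : Ω → Ω → Prop} (hs : ∀ x y, H x y → H y x) {m n T : ℕ}
    {x : Fin m → Ω} (h : HasKMinor (gr H hs x) T) (hT : m + 4 * n < 3 * T + 2) : CM H x n := by
  classical
  obtain ⟨B, hn, hc, hd, he⟩ := h
  have hcount := count B hn hd
  have h1 : ∀ i : {i // (B i).ncard = 1}, ∃ p, B i.1 = {p} := fun i => Set.ncard_eq_one.1 i.2
  have h2 : ∀ i : {i // (B i).ncard = 2}, ∃ p q, p ≠ q ∧ B i.1 = {p, q} :=
    fun i => Set.ncard_eq_two.1 i.2
  choose v hv using h1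
  choose p q hpq hB using h2
  set a := Fintype.card {i // (B i).ncard = 1} with ha
  let e : Fin a ≃ {i // (B i).ncard = 1} := (Fintype.equivFin _).symm
  let ev : Fin (a / 2) → Fin a := fun l => ⟨2 * l, by have := l.2; omega⟩
  let od : Fin (a / 2) → Fin a := fun l => ⟨2 * l + 1, by have := l.2; omega⟩
  have hne : ∀ s s' : Fin a, s.1 ≠ s'.1 → (e s).1 ≠ (e s').1 := fun s s' h h' =>
    h (congrArg Fin.val (e.injective (Subtype.ext h')))
  have h12 : ∀ (i : {i // (B i).ncard = 1}) (j : {i // (B i).ncard = 2}), i.1 ≠ j.1 :=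
    fun i j h => by
      have h3 := i.2
      rw [h, j.2] at h3
      omega
  refine cm_of_sets hs hd he (K := Fin (a / 2) ⊕ {i // (B i).ncard = 2}) ?_
    (Sum.elim (fun l => v (e (ev l))) p) (Sum.elim (fun l => v (e (od l))) q)
    (Sum.elim (fun l => (e (ev l)).1) fun i => i.1) (Sum.elim (fun l => (e (od l)).1) fun i => i.1)
    ?_ ?_ ?_ ?_ ?_ ?_ ?_
  · rw [Fintype.card_sum, Fintype.card_fin]
    omega
  · rintro (l | i)
    · simp [hv]
    · simp [hB]
  · rintro (l | i)
    · simp [hv]
    · simp [hB]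
  · rintro (l | i) u hu
    · exact Or.inl (by simpa [hv] using hu)
    · simpa [hB] using hu
  · rintro (l | i)
    · obtain ⟨u, hu, w, hw, huw⟩ := he _ _ (hne (ev l) (od l) (by simp [ev, od]))
      rw [hv] at hu hw
      rw [Set.mem_singleton_iff] at hu hw
      subst hu hw
      exact huw
    · have := hc i.1
      rw [hB] at this
      exact adj_of_two (hpq i) this
  · rintro (l | i) (l' | i') h
    · refine hne _ _ fun h' => h (congrArg _ (Fin.ext ?_))
      simp only [ev] at h'
      omega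
    · exact h12 _ _
    · exact (h12 _ _).symm
    · exact fun h' => h (congrArg _ (Subtype.ext h'))
  · rintro (l | i) (l' | i') h
    · refine hne _ _ fun h' => h (congrArg _ (Fin.ext ?_))
      simp only [od] at h'
      omega
    · exact h12 _ _
    · exact (h12 _ _).symm
    · exact fun h' => h (congrArg _ (Subtype.ext h'))
  · rintro (l | i) (l' | i') h
    · refine hne _ _ fun h' => ?_
      simp only [ev, od] at h'
      omega
    · exact h12 _ _
    · exact (h12 _ _).symm
    · exact fun h' => h (congrArg _ (Subtype.ext h'))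

end Red

theorem s_red : S_Red := by
  intro Ω H m n x hH hn hm hCM
  refine ⟨m, Red.gr H hH.1 x, (m - 1) / 2, by omega, by omega,
    fun h => hCM (Red.cm_of_minor hH.1 h (by omega)), Red.not_col hH x (by omega)⟩

end Vale.Agent.P060
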