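import Vale.Agent.P060.StC

namespace Vale.Agent.P060

open Finset Vale.Agent.P015
open scoped BigOperators

namespace SS

theorem pr_or_le {Ω : Type} [Fintype Ω] (A B : Ω → Prop) :
    pr (fun ω => A ω ∨ B ω) ≤ pr A + pr B := by
  unfold pr
  rw [← E_add]
  exact E_mono fun ω => ind_or_le _ _

theorem pr_not {Ω : Type} [Fintype Ω] [Nonempty Ω] (A : Ω → Prop) :
    pr (fun ω => ¬ A ω) = 1 - pr A := by
  unfold pr
  rw [E_congr fun ω => ind_not (A ω), E_sub, E_const]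

theorem pigeon {Ω ι : Type} [Fintype Ω] (T : Finset ι) (A : ι → Ω → Prop) (G : Ω → Prop) (K : ℝ)
    (hG : 1 / 2 ≤ pr G) (hK : (T.card : ℝ) ≤ K) (h : ∀ ω, G ω → ∃ i ∈ T, A i ω) :
    ∃ i ∈ T, 1 ≤ pr (A i) * (2 * K) := by
  have h1 : pr G ≤ ∑ i ∈ T, pr (A i) := by
    refine (pr_mono h).trans ?_
    unfold pr
    rw [← E_sum]
    exact E_mono fun ω => ind_exists_le T fun i => A i ω
  have hne : T.Nonempty := by
    rcases T.eq_empty_or_nonempty with rfl | h2
    · rw [sum_empty] at h1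
      linarith
    · exact h2
  obtain ⟨i, hi, hmax⟩ := T.exists_max_image (fun i => pr (A i)) hne
  refine ⟨i, hi, ?_⟩
  have h2 : ∑ i' ∈ T, pr (A i') ≤ T.card * pr (A i) := by
    refine (sum_le_sum hmax).trans (le_of_eq ?_)
    rw [sum_const, nsmul_eq_mul]
  have h3 := mul_le_mul_of_nonneg_right hK (pr_nonneg (A i))
  linarith

theorem pr_inj {S S' : Type} [Fintype S] [Fintype S'] [Nonempty S'] (ι : S' → S)
    (hι : Function.Injective ι) (A : S → Prop) :
    pr (fun σ => A (ι σ)) * ((Fintype.card S' : ℝ) / Fintype.card S) ≤ pr A := by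
  classical
  have h1 : (0 : ℝ) < Fintype.card S' := by exact_mod_cast Fintype.card_pos
  rw [pr_eq_card, pr_eq_card, div_mul_div_cancel₀ h1.ne']
  refine div_le_div_of_nonneg_right ?_ (Nat.cast_nonneg _)
  exact_mod_cast card_le_card_of_injOn ι (fun σ hσ => by simpa using hσ) hι.injOn

theorem dens_inj {S S' Ω : Type} [Fintype S] [Fintype S'] [Nonempty S'] [Fintype Ω] (ι : S' → S)
    (hι : Function.Injective ι) (u : S → Ω) {L L' K : ℝ} (hu : Dens u L) (hK0 : 0 ≤ K)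
    (hK : 1 ≤ (Fintype.card S' : ℝ) / Fintype.card S * K) (hL : L * K ≤ L') :
    Dens (fun σ => u (ι σ)) L' := by
  intro A
  have h1 := (pr_inj ι hι fun σ => A (u σ)).trans (hu A)
  have h2 := mul_le_mul_of_nonneg_right h1 hK0
  have h3 := mul_le_mul_of_nonneg_left hK (pr_nonneg fun σ => A (u (ι σ)))
  have h4 := mul_le_mul_of_nonneg_right hL (pr_nonneg A)
  linarith

variable {F : Type} [Field F] [Fintype F] [DecidableEq F] {b k : ℕ}

theorem types (Rep : Finset (Fn F b k)) (n : ℕ) : ∃ T : Finset (Ty F b k n),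
    T.card ≤ Rep.card ^ (2 * n) * (Fintype.card F + 1) ^ (2 * Fintype.card F ^ n) ∧
      ∀ τ : Ty F b k n, (∀ r l, τ.S r l ∈ Rep) → τ ∈ T := by
  classical
  refine ⟨((Fintype.piFinset fun _ : Bool => Fintype.piFinset fun _ : Fin n => Rep) ×ˢ
    (univ : Finset (Bool → (Fin n → F) → Option F))).image fun p => ⟨p.1, p.2⟩,
    card_image_le.trans (le_of_eq ?_), fun τ hτ => mem_image.2 ⟨(τ.S, τ.fl), ?_, rfl⟩⟩
  · simp only [card_product, Fintype.card_piFinset, prod_const, card_univ, Fintype.card_fin,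
      Fintype.card_bool, Fintype.card_pi, Fintype.card_option, ← pow_mul]
    rw [mul_comm n 2, mul_comm (Fintype.card F ^ n) 2]
  · exact mem_product.2 ⟨Fintype.mem_piFinset.2 fun r => Fintype.mem_piFinset.2 (hτ r), mem_univ _⟩

theorem types' {d j : ℕ} {Rep : Finset (Fn F b k)} (hR : RepOK d j Rep) :
    ∃ T : Finset ((n : ℕ) × Ty F b k n), T.card ≤ nT (Fintype.card F) b k d j ∧
      ∀ n ≤ j ^ 3, ∀ τ : Ty F b k n, (∀ r l, τ.S r l ∈ Rep) → ⟨n, τ⟩ ∈ T := by
  choose T hT hT' using types Rep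
  have hq : 1 ≤ Fintype.card F := Fintype.card_pos
  refine ⟨(range (j ^ 3 + 1)).sigma T, ?_, fun n hn τ hτ =>
    mem_sigma.2 ⟨mem_range.2 (Nat.lt_succ_of_le hn), hT' n τ hτ⟩⟩
  rw [card_sigma, nT, mul_assoc]
  refine (sum_le_card_nsmul _ _ _ fun n hn => ?_).trans (le_of_eq (by rw [card_range]; rfl))
  have hn' : n ≤ j ^ 3 := Nat.lt_succ_iff.1 (mem_range.1 hn)
  refine (hT n).trans (Nat.mul_le_mul ?_ ?_)
  · refine (Nat.pow_le_pow_left hR.1 _).trans ?_
    rw [← pow_mul]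
    refine Nat.pow_le_pow_right hq ?_
    rw [mul_comm]
    exact Nat.mul_le_mul_right _ (Nat.mul_le_mul_left 2 hn')
  · exact Nat.pow_le_pow_right (by omega)
      (Nat.mul_le_mul_left 2 (Nat.pow_le_pow_right hq hn'))

theorem small {Q : ℝ} (hQ : 100 ≤ Q) {a c : ℕ} (h : a < c) : Q ^ a / Q ^ c ≤ 1 / 100 := by
  have h0 : 0 < Q := by linarith
  have h1 : Q ^ (a + 1) ≤ Q ^ c := pow_le_pow_right₀ (by linarith) h
  rw [div_le_div_iff₀ (pow_pos h0 _) (by norm_num)]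
  rw [pow_succ] at h1
  have h2 := mul_le_mul_of_nonneg_left hQ (pow_pos h0 a).le
  linarith

end SS

theorem s_ss (hr : S_LR) (hs : S_Span) (ht : S_Ty1) (hc : S_Core) : S_SS := by
  intro F _ _ _ _ b k d N N1 j L Lm J0 m1 δ1 θ η ρ Sg hN hT hρ hSg S _ _ u hu hD hD1 hD2
  classical
  obtain ⟨Rep, hR⟩ := hr F b k d j
  obtain ⟨T, hT1, hT2⟩ := SS.types' hR
  obtain ⟨hs1, hs2⟩ := hs F b k d N j
  have hQ : (100 : ℝ) ≤ qq F := by
    unfold qq
    exact_mod_cast hN.hq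
  have hQ0 : 0 < qq F := by linarith
  have hQ1 : 1 ≤ qq F := by linarith
  have hty : 2 * (nT (Fintype.card F) b k d j : ℝ) * 2 ^ 100 ≤ qq F ^ m1 := by
    unfold qq
    exact_mod_cast hN.ty
  have hnT : (1 : ℝ) ≤ nT (Fintype.card F) b k d j := by
    have h1 : 0 < Fintype.card F := Fintype.card_pos
    have h2 : 0 < nT (Fintype.card F) b k d j := by
      unfold nT
      positivity
    exact_mod_cast h2
  have hbig : m1 + 80001 * n3 b k d + 200 ≤ N1 := by
    have := hN.big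
    omega
  have hNN := hN.hN
  have hj := hN.hj
  generalize (nT (Fintype.card F) b k d j) = K at hty hnT hT1
  have hP1 : (1 : ℝ) ≤ 2 ^ 100 := one_le_pow₀ (by norm_num)
  generalize (2 : ℝ) ^ 100 = P at hty hP1 hD1 hD2
  have hPm : P ≤ qq F ^ m1 := by nlinarith
  have hKm : 2 * (K : ℝ) ≤ qq F ^ m1 := by nlinarith
  have hmX : qq F ^ m1 * qq F ^ m1 ≤ qq F ^ N := by
    rw [← pow_add]
    exact pow_le_pow_right₀ hQ1 (by omega)
  have hm1 : 1 ≤ qq F ^ m1 := one_le_pow₀ hQ1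
  have hG : 1 / 2 ≤ pr (fun σ => (∀ r, Span (vx (u σ) r).1) ∧ Cod (u σ) j) := by
    have h1 : P * (3 * qq F ^ n3 b k d / qq F ^ N) ≤ 3 / 100 := by
      have h2 := SS.small hQ (show m1 + n3 b k d < N by omega)
      have h3 : P * (3 * qq F ^ n3 b k d / qq F ^ N) ≤
          qq F ^ m1 * (3 * qq F ^ n3 b k d / qq F ^ N) :=
        mul_le_mul_of_nonneg_right hPm (by positivity)
      have h4 : qq F ^ m1 * (3 * qq F ^ n3 b k d / qq F ^ N) =
          3 * (qq F ^ (m1 + n3 b k d) / qq F ^ N) := by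
        rw [pow_add]
        ring
      linarith
    have h2 : (qq F ^ N) ^ 30 * (3 * qq F ^ (2 * n3 b k d * (j + 1)) / qq F ^ (N * (j + 1))) ≤
        3 / 100 := by
      have h3 := SS.small hQ (show N * 30 + 2 * n3 b k d * (j + 1) < N * (j + 1) by
        rw [hj]
        omega)
      have h4 : (qq F ^ N) ^ 30 * (3 * qq F ^ (2 * n3 b k d * (j + 1)) / qq F ^ (N * (j + 1))) =
          3 * (qq F ^ (N * 30 + 2 * n3 b k d * (j + 1)) / qq F ^ (N * (j + 1))) := by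
        rw [pow_add, pow_mul (qq F) N 30, mul_div_assoc, mul_div_assoc, mul_left_comm]
      linarith
    have h3 := (hD1 fun x => ¬ Span x.1).trans (mul_le_mul_of_nonneg_left hs1 (by linarith))
    have h4 := (hD2 fun x => ¬ Span x.1).trans (mul_le_mul_of_nonneg_left hs1 (by linarith))
    have h5 := (hD fun U => ¬ Cod U j).trans (mul_le_mul_of_nonneg_left hs2 (by positivity))
    have h6 := SS.pr_not (fun σ => (∀ r, Span (vx (u σ) r).1) ∧ Cod (u σ) j)
    have h7 : pr (fun σ => ¬ ((∀ r, Span (vx (u σ) r).1) ∧ Cod (u σ) j)) ≤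
        pr (fun σ => (¬ Span (u σ).1.1 ∨ ¬ Span (u σ).2.1) ∨ ¬ Cod (u σ) j) := by
      refine pr_mono fun σ hσ => ?_
      by_contra hcon
      simp only [not_or, not_not] at hcon
      refine hσ ⟨fun r => ?_, hcon.2⟩
      cases r
      · exact hcon.1.1
      · exact hcon.1.2
    have h8 := SS.pr_or_le (fun σ => ¬ Span (u σ).1.1 ∨ ¬ Span (u σ).2.1) (fun σ => ¬ Cod (u σ) j)
    have h9 := SS.pr_or_le (fun σ => ¬ Span (u σ).1.1) (fun σ => ¬ Span (u σ).2.1)
    linarith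
  obtain ⟨⟨n, τ⟩, -, hE⟩ := SS.pigeon T (fun i σ => ((∀ r, Span (vx (u σ) r).1) ∧ Cod (u σ) j) ∧
    i.1 ≤ j ^ 3 ∧ HasTy ρ i.2 (u σ) ∧ TyOK d j Sg i.2) _ K hG (by exact_mod_cast hT1)
    fun σ hσ => by
      obtain ⟨n, hn, τ, h1, h2, h3⟩ := ht F b k d N j _ ρ Sg Rep (u σ) hρ hR hσ.1 hσ.2 (hu σ)
      exact ⟨⟨n, τ⟩, hT2 n hn τ h1, hσ, hn, h2, h3⟩
  simp only at hE
  set E : S → Prop := fun σ => ((∀ r, Span (vx (u σ) r).1) ∧ Cod (u σ) j) ∧
    n ≤ j ^ 3 ∧ HasTy ρ τ (u σ) ∧ TyOK d j Sg τ with hEdef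
  have hne : ∃ σ, E σ := by
    by_contra hcon
    have h1 : pr E ≤ pr fun _ : S => False := pr_mono fun σ hσ => hcon ⟨σ, hσ⟩
    have h2 : pr (fun _ : S => False) = 0 := by simp [pr]
    have h3 := pr_nonneg E
    have h4 : pr E = 0 := by linarith
    rw [h4, zero_mul] at hE
    linarith
  obtain ⟨σ0, hσ0⟩ := hne
  have : Nonempty {σ // E σ} := ⟨⟨σ0, hσ0⟩⟩
  rw [pr_eq_card, ← Fintype.card_subtype] at hE
  have hK0 : 0 ≤ 2 * (K : ℝ) := by positivity
  have hX : 1 ≤ qq F ^ N := one_le_pow₀ hQ1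
  have hsm : Smp ρ j τ ((qq F ^ N) ^ 31) (qq F ^ m1) fun σ : {σ // E σ} => u σ.1 := by
    refine ⟨fun σ => σ.2.1.1, fun σ => σ.2.1.2, fun σ => σ.2.2.2.1,
      SS.dens_inj _ Subtype.val_injective u hD hK0 hE ?_, fun r => ?_⟩
    · rw [pow_succ _ 30]
      exact mul_le_mul_of_nonneg_left (by nlinarith) (by positivity)
    · cases r
      · exact SS.dens_inj _ Subtype.val_injective (fun σ => (u σ).1) hD1 hK0 hE (by linarith)
      · exact SS.dens_inj _ Subtype.val_injective (fun σ => (u σ).2) hD2 hK0 hE (by linarith)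
  have h1 := hc F b k d N N1 j L Lm J0 m1 n δ1 θ η ρ Sg τ _ _ hN hT hρ hSg hσ0.2.1 hσ0.2.2.2 hsm
  have h2 := SS.pr_inj (Prod.map (Subtype.val : {σ // E σ} → S) (Subtype.val : {σ // E σ} → S))
    (Subtype.val_injective.prodMap Subtype.val_injective)
    fun p : S × S => Conf (Hole ρ Sg) (u p.1) (u p.2)
  rw [Fintype.card_prod, Fintype.card_prod, Nat.cast_mul, Nat.cast_mul, mul_div_mul_comm] at h2
  refine le_trans ?_ h2
  have hp0 : 0 ≤ (Fintype.card {σ // E σ} : ℝ) / Fintype.card S := by positivity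
  generalize (Fintype.card {σ // E σ} : ℝ) / Fintype.card S = p at hE hp0
  have h3 : 1 ≤ p * qq F ^ m1 := hE.trans (mul_le_mul_of_nonneg_left hKm hp0)
  have h4 : 1 ≤ p * p * qq F ^ N := by
    have h5 := mul_le_mul h3 h3 zero_le_one (by linarith)
    have h6 := mul_le_mul_of_nonneg_left hmX (mul_nonneg hp0 hp0)
    linarith
  refine le_trans ?_ (mul_le_mul_of_nonneg_right h1 (mul_nonneg hp0 hp0))
  rw [pow_succ _ 13, ← div_div, div_le_iff₀ (by linarith), mul_assoc]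
  exact le_mul_of_one_le_right (by positivity) h4

end Vale.Agent.P060
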