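import Vale.Agent.P060.StB

/-! Selection of four atoms. -/

namespace Vale.Agent.P060

open Finset Vale.Agent.P015
open scoped BigOperators

namespace Sel

section abstract

variable {X : Type} [Fintype X] {m : X → X → ℝ} {μ ν : X → ℝ} {b : ℝ}

theorem mass_le (h1 : ∑ x, ∑ y, m x y = 1) (h0 : ∀ x y, 0 ≤ m x y) (hb : 0 ≤ b)
    (hc : (Fintype.card X : ℝ) ^ 2 * b ≤ 1 / 100) (B : X → X → Prop)
    (h : ∀ x y, b ≤ m x y → B x y) : 99 / 100 ≤ ∑ x, ∑ y, ind (B x y) * m x y := by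
  have a1 : ∑ x, ∑ y, m x y ≤ ∑ x, ∑ y, (ind (B x y) * m x y + b) := by
    refine sum_le_sum fun x _ => sum_le_sum fun y _ => ?_
    by_cases hB : B x y
    · rw [ind_pos hB]
      linarith
    · rw [ind_neg hB]
      have := mt (h x y) hB
      linarith [not_le.1 this]
  simp only [sum_add_distrib, sum_const, card_univ, nsmul_eq_mul] at a1
  nlinarith

theorem marg_le (h0 : ∀ x y, 0 ≤ m x y) (hμ : ∀ x, ∑ y, m x y = μ x) (hν : ∀ y, ∑ x, m x y = ν y)
    (P Q : X → Prop) : ∑ x, ∑ y, ind (P x ∨ Q y) * m x y ≤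
      ∑ x, ind (P x) * μ x + ∑ y, ind (Q y) * ν y := by
  have a1 : ∑ x, ∑ y, ind (P x ∨ Q y) * m x y ≤
      ∑ x, ∑ y, (ind (P x) * m x y + ind (Q y) * m x y) := by
    refine sum_le_sum fun x _ => sum_le_sum fun y _ => ?_
    rw [← add_mul]
    exact mul_le_mul_of_nonneg_right (ind_or_le _ _) (h0 x y)
  refine a1.trans (le_of_eq ?_)
  simp only [sum_add_distrib]
  rw [sum_comm (f := fun x y => ind (Q y) * m x y)]
  simp only [← mul_sum, hμ, hν]

end abstract

theorem sum_line {C F : Type} [Fintype C] [Fintype F] (c : C) (p : F → Prop) (μ : C × F → ℝ) :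
    ∑ x : C × F, ind (x.1 = c ∧ p x.2) * μ x = ∑ v, ind (p v) * μ (c, v) := by
  rw [Fintype.sum_prod_type, sum_eq_single c]
  · simp
  · intro c' _ hc
    simp [hc]
  · simp

variable {F : Type} [Field F] [Fintype F] [CharP F 2] {n : ℕ} {Sg : F → Prop} {θ : ℝ}
  {α : Fin n → F}

theorem dens (h : SigOK Sg θ) (a : F) : ∑ v, ind (Sg (a + v)) ≤ θ * qq F := by
  have a1 : pr (fun p : F × F => Sg p.1) ≤ θ := by
    refine (pr_mono fun p hp => ?_).trans h.2.2
    rintro ⟨σ, h1, h2, -⟩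
    exact h.1 _ _ _ hp h1 h2 (CharTwo.add_self_eq_zero _)
  have a2 : pr (fun p : F × F => Sg p.1) = pr Sg := (law_fst (Ω' := F) id).pr_eq Sg
  have a3 : ∑ v, ind (Sg (a + v)) = ∑ v, ind (Sg v) :=
    Equiv.sum_comp (Equiv.addLeft a) fun v => ind (Sg v)
  have hq : (0 : ℝ) < Fintype.card F := by exact_mod_cast Fintype.card_pos
  rw [a2, pr, E_eq, div_le_iff₀ hq] at a1
  rw [a3]
  exact a1

omit [CharP F 2] in
theorem dens2 (h : SigOK Sg θ) (a a' : F) :
    ∑ p, ∑ p', ind (¬ ∃ σ, Sg σ ∧ Sg (p + a + σ) ∧ Sg (a' + p' + σ)) ≤ θ * qq F ^ 2 := by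
  have a1 := h.2.2
  have hq : (0 : ℝ) < Fintype.card (F × F) := by exact_mod_cast Fintype.card_pos
  rw [pr, E_eq, div_le_iff₀ hq, Fintype.card_prod, Nat.cast_mul, ← sq,
    ← Equiv.sum_comp ((Equiv.addRight a).prodCongr (Equiv.addLeft a')),
    Fintype.sum_prod_type] at a1
  exact a1

omit [Fintype F] [CharP F 2] in
theorem nh_eq {c c' : Lx n → F} (h : NH α c) (h' : NH α c')
    (e : ∀ l, c (Sum.inl l) = c' (Sum.inl l)) : c = c' := by
  funext i
  rcases i with l | t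
  · exact e l
  · rw [h.1, h'.1]

theorem core (h1 : S_LA1) (h2 : S_LA2) (h3 : S_LA3) {R b : ℝ}
    {fl : Bool → (Fin n → F) → Option F} {m : (Lx n → F) × F → (Lx n → F) × F → ℝ}
    {μ : Bool → (Lx n → F) × F → ℝ} (hS : SigOK Sg θ) (hR : 1 ≤ R) (hθ : θ * R ^ 2 ≤ 1 / 100)
    (m0 : ∀ x y, 0 ≤ m x y) (mμ : ∀ x, ∑ y, m x y = μ false x) (mν : ∀ y, ∑ x, m x y = μ true y)
    (μ1 : ∀ r, ∑ x, μ r x = 1) (hb : 0 ≤ b)
    (hc : (Fintype.card ((Lx n → F) × F) : ℝ) ^ 2 * b ≤ 1 / 100) (hq : qq F * b ≤ 1 / 100)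
    (f1 : ∀ c v v', α ⬝ᵥ c = 1 → fl false c = some v → fl true c = some v' → ¬ Sg (v + v'))
    (f2 : ∀ r c v, NH α c → fl r (fun l => c (Sum.inl l)) = some v →
      ∑ v', ind (v' ≠ v) * μ r (c, v') ≤ 1 / 100)
    (f3 : ∀ r c, NH α c → fl r (fun l => c (Sum.inl l)) = none → ∀ v, μ r (c, v) ≤ 2 * R / qq F) :
    ∃ at' : BB → (Lx n → F) × F, Solv Sg α at' ∧ b ≤ m (at' (false, true)) (at' (true, false)) ∧
      b ≤ μ false (at' (false, false)) ∧ b ≤ μ true (at' (true, true)) := by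
  have m1 : ∑ x, ∑ y, m x y = 1 := by simp only [mμ, μ1]
  have l1 : ∀ x y, m x y ≤ μ false x := fun x y => by
    rw [← mμ]
    exact single_le_sum (fun y _ => m0 x y) (mem_univ y)
  have l2 : ∀ x y, m x y ≤ μ true y := fun x y => by
    rw [← mν]
    exact single_le_sum (f := fun x => m x y) (fun x _ => m0 x y) (mem_univ x)
  have μ0 : ∀ r x, 0 ≤ μ r x := by
    rintro (_ | _) x
    · exact (m0 x x).trans (l1 x x)
    · exact (m0 x x).trans (l2 x x)
  have θ0 : 0 ≤ θ := (pr_nonneg _).trans hS.2.2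
  have θ1 : θ * R ≤ 1 / 100 := by nlinarith [mul_nonneg θ0 (by linarith : 0 ≤ R)]
  have θ2 : θ < 1 / 2 := by nlinarith
  have q0 : 0 < qq F := by
    unfold qq
    exact_mod_cast Fintype.card_pos
  have ex : ∃ σ, Sg σ := by
    by_cases h : Sg 0
    · exact ⟨0, h⟩
    · obtain ⟨σ, h, -⟩ := hS.2.1 0 h
      exact ⟨σ, h⟩
  by_cases hA : ∃ x y, b ≤ m x y ∧ ¬ (x.1 = y.1 ∧ NH α x.1)
  · obtain ⟨x, y, hxy, hn⟩ := hA
    refine ⟨fun a => if a.1 then y else x, ?_, hxy, hxy.trans (l1 _ _), hxy.trans (l2 _ _)⟩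
    by_cases hl : ∀ l, x.1 (Sum.inl l) = y.1 (Sum.inl l)
    · exact h2 F n Sg θ α (fun r => if r then y else x) hS θ2 hl
        fun h => hn ⟨nh_eq h.1 h.2 hl, h.1⟩
    · exact h1 F n Sg α _ ex fun _ => not_forall.1 hl
  have hA' : ∀ x y, b ≤ m x y → x.1 = y.1 ∧ NH α x.1 := fun x y h => by
    by_contra hn
    exact hA ⟨x, y, h, hn⟩
  obtain ⟨x0, y0, h0⟩ : ∃ x y, b ≤ m x y := by
    by_contra hn
    have := mass_le m1 m0 hb hc (fun _ _ => False) fun x y h => hn ⟨x, y, h⟩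
    simp only [ind_false, zero_mul, sum_const_zero] at this
    linarith
  obtain ⟨c, v0⟩ := x0
  obtain ⟨c', w0⟩ := y0
  obtain ⟨e, hN⟩ := hA' _ _ h0
  obtain rfl : c = c' := e
  replace hN : NH α c := hN
  by_cases hB : ∃ x y, b ≤ m x y ∧ x.1 ≠ c
  · obtain ⟨x, y, hxy, hn⟩ := hB
    obtain ⟨e, hN'⟩ := hA' _ _ hxy
    have hl : ∃ l, x.1 (Sum.inl l) ≠ c (Sum.inl l) := not_forall.1 fun h => hn (nh_eq hN' hN h)
    refine ⟨fun a => if a.1 then (if a.2 then y else (c, w0)) else if a.2 then (c, v0) else x,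
      h1 F n Sg α _ ex ?_, h0, hxy.trans (l1 _ _), hxy.trans (l2 _ _)⟩
    rintro (_ | _)
    · exact hl
    · obtain ⟨l, hl⟩ := hl
      rw [e] at hl
      exact ⟨l, hl.symm⟩
  have hC : ∀ x y, b ≤ m x y → x.1 = c ∧ y.1 = c := fun x y h => by
    have e : x.1 = c := by
      by_contra hn
      exact hB ⟨x, y, h, hn⟩
    exact ⟨e, (hA' x y h).1.symm.trans e⟩
  have line : ∀ p p' : F → Prop, (∀ v v', b ≤ m (c, v) (c, v') → p v ∨ p' v') →
      99 / 100 ≤ ∑ v, ind (p v) * μ false (c, v) + ∑ v, ind (p' v) * μ true (c, v) := by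
    intro p p' h
    rw [← sum_line c p, ← sum_line c p']
    refine (mass_le m1 m0 hb hc (fun x y => (x.1 = c ∧ p x.2) ∨ (y.1 = c ∧ p' y.2)) ?_).trans
      (marg_le m0 mμ mν _ _)
    rintro ⟨c1, v⟩ ⟨c2, v'⟩ hxy
    obtain ⟨e1, e2⟩ := hC _ _ hxy
    obtain rfl : c1 = c := e1
    obtain rfl : c2 = c1 := e2
    exact (h v v' hxy).imp (fun h => ⟨rfl, h⟩) fun h => ⟨rfl, h⟩
  have flat : ∀ r a, (∀ v, μ r (c, v) ≤ 2 * R / qq F) →
      ∑ v, ind (Sg (a + v)) * μ r (c, v) ≤ 2 / 100 := by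
    intro r a h
    refine (sum_le_sum fun v _ => mul_le_mul_of_nonneg_left (h v) (ind_nonneg _)).trans ?_
    rw [← sum_mul]
    refine (mul_le_mul_of_nonneg_right (dens hS a) (by positivity)).trans ?_
    have e : θ * qq F * (2 * R / qq F) = 2 * (θ * R) := by field_simp
    rw [e]
    linarith
  by_cases hD : ∃ v v', b ≤ m (c, v) (c, v') ∧ ¬ Sg (v + v')
  · obtain ⟨v, v', hv, hs⟩ := hD
    obtain ⟨σ, s1, s2⟩ := hS.2.1 _ hs
    exact ⟨fun a => (c, if a.1 then v' else v), h3 F n Sg α c _ σ hN s1 s2 s2, hv,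
      hv.trans (l1 _ _), hv.trans (l2 _ _)⟩
  have hD' : ∀ v v', b ≤ m (c, v) (c, v') → Sg (v + v') := fun v v' h => by
    by_contra hn
    exact hD ⟨v, v', h, hn⟩
  rcases e1 : fl false fun l => c (Sum.inl l) with _ | a
  · rcases e2 : fl true fun l => c (Sum.inl l) with _ | a'
    · have g1 := f3 false c hN e1
      have g2 := f3 true c hN e2
      have t1 := line (fun _ => True) (fun _ => False) fun _ _ _ => Or.inl trivial
      have t2 := line (fun _ => False) (fun _ => True) fun _ _ _ => Or.inr trivial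
      simp only [ind_true, ind_false, one_mul, zero_mul, sum_const_zero, add_zero,
        zero_add] at t1 t2
      have u : ∀ r, ∑ v, μ r (c, v) ≤ 1 := by
        intro r
        rw [← μ1 r, Fintype.sum_prod_type]
        exact single_le_sum (f := fun c => ∑ v, μ r (c, v))
          (fun c _ => sum_nonneg fun v _ => μ0 r _) (mem_univ c)
      by_contra hn
      have key : ∀ p p', μ false (c, p) * μ true (c, p') ≤
          ind (¬ ∃ σ, Sg σ ∧ Sg (p + w0 + σ) ∧ Sg (v0 + p' + σ)) * (2 * R / qq F) ^ 2 +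
            (b * μ true (c, p') + μ false (c, p) * b) := by
        intro p p'
        have k1 := μ0 false (c, p)
        have k2 := μ0 true (c, p')
        have k3 : 0 ≤ ind (¬ ∃ σ, Sg σ ∧ Sg (p + w0 + σ) ∧ Sg (v0 + p' + σ)) *
            (2 * R / qq F) ^ 2 := mul_nonneg (ind_nonneg _) (sq_nonneg _)
        have k4 := mul_nonneg hb k2
        have k5 := mul_nonneg k1 hb
        rcases le_total (μ false (c, p)) b with k6 | k6
        · linarith [mul_le_mul_of_nonneg_right k6 k2]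
        rcases le_total (μ true (c, p')) b with k7 | k7
        · linarith [mul_le_mul_of_nonneg_left k7 k1]
        by_cases hs : ∃ σ, Sg σ ∧ Sg (p + w0 + σ) ∧ Sg (v0 + p' + σ)
        · obtain ⟨σ, s1, s2, s3⟩ := hs
          exact absurd ⟨fun a => (c, if a.1 then (if a.2 then p' else w0) else if a.2 then v0 else p),
            h3 F n Sg α c _ σ hN s1 s2 s3, h0, k6, k7⟩ hn
        · rw [ind_pos hs, one_mul, sq]
          linarith [mul_le_mul (g1 p) (g2 p') k2 (k1.trans (g1 p))]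
      have s1 := sum_le_sum fun p (_ : p ∈ univ) => sum_le_sum fun p' (_ : p' ∈ univ) => key p p'
      simp only [sum_add_distrib, ← sum_mul, ← mul_sum, sum_const, card_univ, nsmul_eq_mul] at s1
      have s2 := mul_le_mul_of_nonneg_right (dens2 hS w0 v0) (sq_nonneg (2 * R / qq F))
      have e : θ * qq F ^ 2 * (2 * R / qq F) ^ 2 = 4 * (θ * R ^ 2) := by
        field_simp
        norm_num
      rw [e] at s2
      have u1 := u false
      have u2 := u true
      have hq' : (Fintype.card F : ℝ) * b ≤ 1 / 100 := hq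
      have hq0 : 0 ≤ (Fintype.card F : ℝ) * b := by positivity
      generalize ∑ v, μ false (c, v) = A at *
      generalize ∑ v, μ true (c, v) = B at *
      nlinarith
    · have t := line (fun v => Sg (a' + v)) (fun v => v ≠ a') fun v v' h => by
        by_cases e : v' = a'
        · left
          rw [← e, add_comm]
          exact hD' v v' h
        · exact Or.inr e
      linarith [flat false a' (f3 false c hN e1), f2 true c a' hN e2]
  · rcases e2 : fl true fun l => c (Sum.inl l) with _ | a'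
    · have t := line (fun v => v ≠ a) (fun v => Sg (a + v)) fun v v' h => by
        by_cases e : v = a
        · right
          rw [← e]
          exact hD' v v' h
        · exact Or.inl e
      linarith [flat true a (f3 true c hN e2), f2 false c a hN e1]
    · have t := line (fun v => v ≠ a) (fun v => v ≠ a') fun v v' h => by
        by_contra hn
        rw [not_or, not_not, not_not] at hn
        have := hD' v v' h
        rw [hn.1, hn.2] at this
        exact f1 _ a a' hN.2 e1 e2 this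
      linarith [f2 false c a hN e1, f2 true c a' hN e2]

end Sel

theorem s_sel (h1 : S_LA1) (h2 : S_LA2) (h3 : S_LA3) : S_Sel := by
  intro F _ _ _ _ n K _ _ Sg θ R α fl g hS hR hθ g0 g1 f1 f2 f3
  have q1 : 1 ≤ qq F := by
    unfold qq
    exact_mod_cast Fintype.card_pos
  have hQ : 1 ≤ qq F ^ (2 * (n + 3)) := one_le_pow₀ q1
  have hQ2 : qq F ≤ qq F ^ (2 * (n + 3)) := le_self_pow₀ q1 (by omega)
  have hcard : (Fintype.card ((Lx n → F) × F) : ℝ) ^ 2 = qq F ^ (2 * (n + 3)) := by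
    simp only [Fintype.card_prod, Fintype.card_fun, Fintype.card_sum, Fintype.card_fin,
      Fintype.card_bool, qq]
    push_cast
    ring
  have g2 : ∀ r κ, ∑ x : (Lx n → F) × F, g r x.1 x.2 κ = 1 := fun r κ => by
    rw [Fintype.sum_prod_type, g1]
  generalize qq F ^ (2 * (n + 3)) = Q at *
  have b0 : 0 ≤ 1 / (100 * Q) := by positivity
  have b1 : 1 / (100 * Q) ≤ 1 := by
    rw [div_le_one (by positivity)]
    linarith
  have b2 : Q * (1 / (100 * Q)) = 1 / 100 := by field_simp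
  obtain ⟨at', s, a1, a2, a3⟩ := Sel.core h1 h2 h3 (b := 1 / (100 * Q)) (fl := fl)
    (m := fun x y => 𝔼 κ, g false x.1 x.2 κ * g true y.1 y.2 κ)
    (μ := fun r x => 𝔼 κ, g r x.1 x.2 κ) hS hR hθ
    (fun x y => E_nonneg fun κ => mul_nonneg (g0 _ _ _ _) (g0 _ _ _ _))
    (fun x => by simp only [← E_sum, ← mul_sum, g2, mul_one])
    (fun y => by simp only [← E_sum, ← sum_mul, g2, one_mul])
    (fun r => by simp only [← E_sum, g2, E_const]) b0 (by rw [hcard, b2])
    ((mul_le_mul_of_nonneg_right hQ2 b0).trans b2.le) f1 f2 f3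
  have sq1 : ∀ f : K → ℝ, 1 / (100 * Q) ≤ 𝔼 κ, f κ → (1 / (100 * Q)) ^ 2 ≤ 𝔼 κ, f κ * f κ := by
    intro f hf
    have c1 : 𝔼 κ, (2 * (1 / (100 * Q)) * f κ - (1 / (100 * Q)) ^ 2) ≤ 𝔼 κ, f κ * f κ :=
      E_mono fun κ => by nlinarith [sq_nonneg (f κ - 1 / (100 * Q))]
    rw [E_sub, E_mul_left, E_const] at c1
    nlinarith
  have b3 : (1 / (100 * Q)) ^ 2 ≤ 1 / (100 * Q) := by nlinarith
  refine ⟨at', s, ?_⟩
  rintro ⟨_ | _, _ | _⟩
  · exact sq1 _ a2
  · exact b3.trans a1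
  · refine b3.trans (a1.trans (le_of_eq (E_congr fun κ => mul_comm _ _)))
  · exact sq1 _ a3

end Vale.Agent.P060
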