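import Vale.Agent.P060.StA

/-! Sequential exposure bound. -/

namespace Vale.Agent.P060

open Finset Vale.Agent.P015
open scoped BigOperators

namespace Seq

theorem resample {ι S : Type} [Fintype ι] [DecidableEq ι] [Fintype S] [Nonempty S] (l : ι)
    (f : (ι → S) → ℝ) : 𝔼 σ, f σ = 𝔼 σ, 𝔼 t, f (Function.update σ l t) := by
  have hi : Function.Involutive fun x : (ι → S) × S => (Function.update x.1 l x.2, x.1 l) :=
    fun x => by simp
  have h1 := law_equiv hi.toPerm (fun x : (ι → S) × S => x.1) f
  have h2 := law_fst (Ω' := S) (fun σ : ι → S => σ) f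
  rw [← h2, ← h1, E_prod]
  rfl

end Seq

theorem s_seq : S_Seq := by
  intro ι S _ _ _ _ _ E p hp h1 h2 J
  induction J using Finset.induction_on_max with
  | empty => rw [card_empty, pow_zero]; exact pr_le_one _
  | insert a s ha ih =>
    rw [card_insert_of_notMem fun h => lt_irrefl _ (ha a h), pow_succ', pr, Seq.resample a]
    refine le_trans (E_mono fun σ => ?_) ((E_mul_left p fun σ => ind (∀ l ∈ s, E l σ)).le.trans
      (mul_le_mul_of_nonneg_left ih hp))
    refine le_trans (E_mono fun t => ?_) ((E_mul_right (ind (∀ l ∈ s, E l σ))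
      fun t => ind (E a (Function.update σ a t))).le.trans
      (mul_le_mul_of_nonneg_right (h2 a σ) (ind_nonneg _)))
    rw [← ind_and]
    refine ind_mono fun h => ⟨h a (mem_insert_self _ _), fun l hl =>
      h1 l _ σ (fun l' hl' => ?_) (h l (mem_insert_of_mem hl))⟩
    exact Function.update_of_ne (hl'.trans_lt (ha l hl)).ne _ _

end Vale.Agent.P060
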