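import Vale.Agent.P060.StA

/-! A large set `Sg` in a field of characteristic two without three elements of sum zero. -/

namespace Vale.Agent.P060

open Finset Vale.Agent.P015
open scoped BigOperators

namespace Sig

variable {ι : Type} [Fintype ι] [DecidableEq ι] {g : ℕ}

/-- few zero coordinates -/
def Sg (g : ℕ) (v : ι → ZMod 2) : Prop := #{i | v i = 0} ≤ 2 * g

theorem three (hι : Fintype.card ι = 6 * g + 1) {a b c : ι → ZMod 2} (ha : Sg g a) (hb : Sg g b)
    (hc : Sg g c) : a + b + c ≠ 0 := by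
  intro h
  have h1 : (univ : Finset ι) ⊆ (univ.filter fun i => a i = 0) ∪
      ((univ.filter fun i => b i = 0) ∪ univ.filter fun i => c i = 0) := by
    intro i _
    have h2 : a i + b i + c i = 0 := congrFun h i
    simp only [mem_union, mem_filter, mem_univ, true_and]
    revert h2
    generalize a i = x, b i = y, c i = z
    revert x y z
    decide
  have h2 := (card_le_card h1).trans ((card_union_le _ _).trans
    (Nat.add_le_add_left (card_union_le _ _) _))
  rw [card_univ] at h2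
  unfold Sg at *
  omega

theorem two (hι : Fintype.card ι = 6 * g + 1) {c : ι → ZMod 2} (hc : ¬ Sg g c) :
    ∃ σ, Sg g σ ∧ Sg g (c + σ) := by
  have h1 := card_filter_add_card_filter_not (s := (univ : Finset ι)) (fun i => c i = 0)
  rw [card_univ] at h1
  obtain ⟨T, hT, h2⟩ := exists_subset_card_eq
    (Nat.div_le_self #({i | ¬ c i = 0} : Finset ι) 2)
  have h3 := card_sdiff_of_subset hT
  unfold Sg at *
  refine ⟨fun i => if i ∈ T then 0 else 1, le_trans (card_le_card (t := T) fun i hi => ?_) ?_,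
    le_trans (card_le_card (t := (univ.filter fun i => ¬ c i = 0) \ T) fun i hi => ?_) ?_⟩
  · by_contra h
    simp [h] at hi
  · omega
  · have hi' := (mem_filter.1 hi).2
    rw [Pi.add_apply] at hi'
    by_cases h : i ∈ T
    · rw [if_pos h, add_zero] at hi'
      exact absurd hi' (mem_filter.1 (hT h)).2
    · rw [if_neg h] at hi'
      refine mem_sdiff.2 ⟨mem_filter.2 ⟨mem_univ _, fun h0 => ?_⟩, h⟩
      rw [h0, zero_add] at hi'
      exact one_ne_zero hi'
  · omega

theorem tail (t : ZMod 2 × ZMod 2) (n : ℕ) :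
    pr (fun x : ι → ZMod 2 × ZMod 2 => n ≤ #{i | x i = t}) ≤
      (9 / 8) ^ Fintype.card ι / (3 / 2) ^ n := by
  have h1 : 𝔼 s : ZMod 2 × ZMod 2, (if s = t then (3 / 2 : ℝ) else 1) = 9 / 8 := by
    have : ∀ s, (if s = t then (3 / 2 : ℝ) else 1) = 1 + if s = t then 1 / 2 else 0 := fun s => by
      split_ifs <;> norm_num
    simp only [E_eq, this, sum_add_distrib, sum_ite_eq', mem_univ, if_true, sum_const, card_univ,
      Fintype.card_prod, ZMod.card]
    norm_num
  have h2 := E_pi (ι := ι) fun _ (s : ZMod 2 × ZMod 2) => if s = t then (3 / 2 : ℝ) else 1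
  rw [h1, prod_const, card_univ] at h2
  rw [← h2, ← E_div]
  refine E_mono fun x => ?_
  rw [prod_ite, prod_const, prod_const_one, mul_one]
  by_cases h : n ≤ #{i | x i = t}
  · rw [ind_pos h, one_le_div (by positivity)]
    exact pow_le_pow_right₀ (by norm_num) h
  · rw [ind_neg h]
    positivity

theorem pair (e : ℕ) (hι : Fintype.card ι = 6 * (20 * e) + 1) :
    pr (fun p : (ι → ZMod 2) × (ι → ZMod 2) =>
      ¬ ∃ σ, Sg (20 * e) σ ∧ Sg (20 * e) (p.1 + σ) ∧ Sg (20 * e) (p.2 + σ)) ≤ 3 / 8 ^ e := by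
  have hb : ((9 / 8) ^ Fintype.card ι / (3 / 2) ^ (2 * (20 * e) + 1) : ℝ) ≤ 1 / 8 ^ e := by
    have h1 : ((9 / 8) ^ 120 / (3 / 2) ^ 40 : ℝ) ^ e ≤ (1 / 8) ^ e :=
      pow_le_pow_left₀ (by positivity) (by norm_num) e
    rw [div_pow, div_pow 1, one_pow, ← pow_mul, ← pow_mul] at h1
    rw [hι, show 6 * (20 * e) = 120 * e by ring, show 2 * (20 * e) = 40 * e by ring, pow_succ,
      pow_succ, mul_div_mul_comm]
    exact (mul_le_of_le_one_right (by positivity) (by norm_num)).trans h1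
  rw [← (law_equiv (Equiv.arrowProdEquivProdArrow ι _ _) fun p => p).pr_eq]
  have key : ∀ x : ι → ZMod 2 × ZMod 2, ind (¬ ∃ σ, Sg (20 * e) σ ∧
      Sg (20 * e) ((fun i => (x i).1) + σ) ∧ Sg (20 * e) ((fun i => (x i).2) + σ)) ≤
      ind (2 * (20 * e) + 1 ≤ #{i | x i = (1, 1)}) + ind (2 * (20 * e) + 1 ≤ #{i | x i = (1, 0)}) +
        ind (2 * (20 * e) + 1 ≤ #{i | x i = (0, 1)}) := fun x => by
    refine le_trans (ind_mono fun h => ?_) ((ind_or_le _ _).trans
      (add_le_add_left (ind_or_le _ _) _))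
    by_contra h'
    simp only [not_or, not_le, Nat.lt_succ_iff] at h'
    have a1 : ∀ s : ZMod 2 × ZMod 2, 1 + s.1 * s.2 = 0 ↔ s = (1, 1) := by decide
    have a2 : ∀ s : ZMod 2 × ZMod 2, s.1 + (1 + s.1 * s.2) = 0 ↔ s = (1, 0) := by decide
    have a3 : ∀ s : ZMod 2 × ZMod 2, s.2 + (1 + s.1 * s.2) = 0 ↔ s = (0, 1) := by decide
    refine h ⟨fun i => 1 + (x i).1 * (x i).2, ?_, ?_, ?_⟩
    · simpa only [Sg, a1] using h'.1.1
    · simpa only [Sg, Pi.add_apply, a2] using h'.1.2
    · simpa only [Sg, Pi.add_apply, a3] using h'.2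
  refine (E_mono key).trans ?_
  rw [E_add, E_add]
  have t1 := (tail (ι := ι) (1, 1) (2 * (20 * e) + 1)).trans hb
  have t2 := (tail (ι := ι) (1, 0) (2 * (20 * e) + 1)).trans hb
  have t3 := (tail (ι := ι) (0, 1) (2 * (20 * e) + 1)).trans hb
  unfold pr at t1 t2 t3
  have : (3 / 8 ^ e : ℝ) = 1 / 8 ^ e + 1 / 8 ^ e + 1 / 8 ^ e := by ring
  linarith

end Sig

open Sig in
theorem s_sig : S_Sig := by
  intro e
  have : Fact (Nat.Prime 2) := ⟨Nat.prime_two⟩
  let F := GaloisField 2 (120 * e + 1)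
  let _ : Fintype F := Fintype.ofFinite F
  let φ : F ≃ₗ[ZMod 2] (Fin (120 * e + 1) → ZMod 2) :=
    (Module.finBasisOfFinrankEq (ZMod 2) F (GaloisField.finrank 2 (by omega))).equivFun
  have hι : Fintype.card (Fin (120 * e + 1)) = 6 * (20 * e) + 1 := by rw [Fintype.card_fin]; ring
  refine ⟨F, inferInstance, inferInstance, inferInstance, fun a => Sg (20 * e) (φ a), ?_,
    fun a b c ha hb hc h => three hι ha hb hc ?_, fun c hc => ?_, ?_⟩
  · rw [Fintype.card_congr φ.toEquiv]
    simp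
  · rw [← map_add, ← map_add, h, map_zero]
  · obtain ⟨σ, h1, h2⟩ := two hι hc
    exact ⟨φ.symm σ, by simpa using h1, by simpa using h2⟩
  · refine le_trans ?_ (pair e hι)
    rw [← (law_equiv (φ.toEquiv.prodCongr φ.toEquiv) fun p => p).pr_eq]
    refine pr_mono fun p h ⟨σ, h1, h2, h3⟩ => h ⟨φ.symm σ, ?_, ?_, ?_⟩
    · simpa using h1
    · simpa using h2
    · simpa using h3

end Vale.Agent.P060
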