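import Vale.Agent.P060.StB

namespace Vale.Agent.P060

open Finset Vale.Agent.P015
open scoped BigOperators

namespace Span

theorem pr_exists_le {Ω ι : Type} [Fintype Ω] (s : Finset ι) (A : ι → Ω → Prop) :
    pr (fun ω => ∃ i ∈ s, A i ω) ≤ ∑ i ∈ s, pr (A i) := by
  unfold pr
  rw [← E_sum]
  exact E_mono fun ω => ind_exists_le s fun i => A i ω

theorem pr_three {Ω : Type} [Fintype Ω] {A : Ω → Prop} {B : Fin 3 → Ω → Prop} {c : ℝ}
    (h : ∀ ω, A ω → ∃ m, B m ω) (hB : ∀ m, pr (B m) ≤ c) : pr A ≤ 3 * c := by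
  refine (pr_mono fun ω hω => ?_).trans ((pr_exists_le univ B).trans ?_)
  · obtain ⟨m, hm⟩ := h ω hω
    exact ⟨m, mem_univ m, hm⟩
  · refine (sum_le_sum fun m _ => hB m).trans (le_of_eq ?_)
    simp

variable {F : Type} [Field F] {V : Type} [AddCommGroup V] [Module F V]

/-- `W` is mapped onto `F ^ t` by the functionals `a`. -/
def Onto (W : Submodule F V) {t : ℕ} (a : Fin t → Module.Dual F V) : Prop :=
  ∀ v : Fin t → F, ∃ w ∈ W, ∀ s, a s w = v s

theorem alt [Module.Finite F V] (W A : Submodule F V) (j : ℕ) :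
    (∃ a : Fin j → Module.Dual F V, ∀ φ ∈ W, (∀ i, a i φ = 0) → φ ∈ A) ∨
      ∃ a : Fin (j + 1) → Module.Dual F V, Onto W a ∧ ∀ s, ∀ φ ∈ A, a s φ = 0 := by
  let R : Submodule F (V ⧸ A) := W.map A.mkQ
  let bs := Module.finBasis F R
  have hext : ∀ s, ∃ g : (V ⧸ A) →ₗ[F] F, g.comp R.subtype = bs.coord s :=
    fun s => LinearMap.exists_extend _
  choose g hg using hext
  have hg' : ∀ s (x : R), g s x = bs.repr x s := fun s x => congrArg (fun f => f x) (hg s)
  by_cases hr : Module.finrank F R ≤ j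
  · left
    refine ⟨fun i => if h : i.val < Module.finrank F R then (g ⟨i, h⟩).comp A.mkQ else 0,
      fun φ hφ h0 => ?_⟩
    have h1 : (⟨A.mkQ φ, Submodule.mem_map_of_mem hφ⟩ : R) = 0 := by
      rw [← bs.forall_coord_eq_zero_iff]
      intro s
      have h2 := h0 ⟨s, lt_of_lt_of_le s.2 hr⟩
      simp only [s.2, dif_pos, LinearMap.comp_apply] at h2
      exact (hg' s ⟨A.mkQ φ, Submodule.mem_map_of_mem hφ⟩).symm.trans h2
    exact (Submodule.Quotient.mk_eq_zero A).1 (congrArg Subtype.val h1)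
  · right
    have hj : j + 1 ≤ Module.finrank F R := by omega
    refine ⟨fun s => (g (Fin.castLE hj s)).comp A.mkQ, fun v => ?_, fun s φ hφ => ?_⟩
    · obtain ⟨w, hw, e⟩ := Submodule.mem_map.1
        (bs.equivFun.symm fun i => if h : i.val < j + 1 then v ⟨i, h⟩ else 0).2
      refine ⟨w, hw, fun s => ?_⟩
      rw [LinearMap.comp_apply, e, hg', ← bs.equivFun_apply, LinearEquiv.apply_symm_apply]
      simp only [Fin.val_castLE, s.2, dif_pos]
    · rw [LinearMap.comp_apply, Submodule.mkQ_apply, (Submodule.Quotient.mk_eq_zero A).2 hφ,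
        map_zero]

theorem bad_le (hl : S_Lin) [Fintype F] [Module.Finite F V] (W : Submodule F V) (n N t : ℕ)
    (hW : Module.finrank F W ≤ n) {Ω : Type} [AddCommGroup Ω] [Module F Ω] [Fintype Ω]
    (P : Fin N → Ω →ₗ[F] V) (hP : ∀ i ω, P i ω ∈ W)
    (hS : ∀ w : Fin N → V, (∀ i, w i ∈ W) → ∃ ω, ∀ i, P i ω = w i) :
    pr (fun ω => ∃ a : Fin t → Module.Dual F V, Onto W a ∧ ∀ s i, a s (P i ω) = 0) ≤
      qq F ^ (n * t) / qq F ^ (N * t) := by
  classical
  obtain ⟨h1, -, h3⟩ := hl F
  obtain ⟨D, hD, hD'⟩ := h3 V W n hW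
  have hq : (0 : ℝ) < qq F := by
    unfold qq
    exact_mod_cast Fintype.card_pos
  refine (pr_mono (B := fun ω => ∃ a ∈ Fintype.piFinset (fun _ : Fin t => D),
    Onto W a ∧ ∀ s i, a s (P i ω) = 0) fun ω hω => ?_).trans ((pr_exists_le _ _).trans ?_)
  · obtain ⟨a, ha1, ha2⟩ := hω
    choose a' ha' he using fun s => hD' (a s)
    refine ⟨a', Fintype.mem_piFinset.2 ha', fun v => ?_, fun s i => ?_⟩
    · obtain ⟨w, hw, e⟩ := ha1 v
      exact ⟨w, hw, fun s => (he s w hw).symm.trans (e s)⟩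
    · exact (he s _ (hP i ω)).symm.trans (ha2 s i)
  · have h4 : ∀ a : Fin t → Module.Dual F V,
        pr (fun ω => Onto W a ∧ ∀ s i, a s (P i ω) = 0) ≤ 1 / qq F ^ (N * t) := by
      intro a
      by_cases ha : Onto W a
      · let L : Ω →ₗ[F] (Fin N × Fin t → F) := LinearMap.pi fun p => (a p.2).comp (P p.1)
        have hL : Function.Surjective L := by
          intro v
          choose w hw e using fun i => ha fun s => v (i, s)
          obtain ⟨ω, hω⟩ := hS w hw
          refine ⟨ω, funext fun p => ?_⟩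
          change a p.2 (P p.1 ω) = v p
          rw [hω, e]
        have h5 := (h1 Ω (Fin N × Fin t → F) L hL).pr_eq fun v => v = 0
        refine (pr_mono (B := fun ω => L ω = 0) fun ω hω => funext fun p => hω.2 p.2 p.1).trans
          (le_of_eq (h5.trans ?_))
        rw [pr_eq_card, filter_eq', if_pos (mem_univ _), card_singleton]
        simp [qq]
      · refine (pr_mono (B := fun _ => False) fun ω hω => ha hω.1).trans ?_
        unfold pr
        simp only [ind_false, expect_const_zero]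
        positivity
    refine (sum_le_sum fun a _ => h4 a).trans ?_
    rw [sum_const, nsmul_eq_mul, Fintype.card_piFinset, prod_const, card_univ, Fintype.card_fin,
      mul_one_div]
    refine div_le_div_of_nonneg_right ?_ (by positivity)
    rw [pow_mul]
    unfold qq
    exact_mod_cast Nat.pow_le_pow_left hD t

theorem finrank_prod_le [Module.Finite F V] (W : Submodule F V) :
    Module.finrank F (W.prod W) ≤ 2 * Module.finrank F W := by
  rw [LinearMap.prod_eq_sup_map]
  refine (Submodule.finrank_add_le_finrank_add_finrank _ _).trans ?_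
  have h1 := Submodule.finrank_map_le (LinearMap.inl F V V) W
  have h2 := Submodule.finrank_map_le (LinearMap.inr F V V) W
  omega

/-- One frame vector as a linear function of the vertex. -/
def co1 (F : Type) [Field F] (b k d N : ℕ) (m : Fin 3) (i : Fin N) :
    Vx F b k d N →ₗ[F] Fn F b k where
  toFun x := (x.1 m i : Fn F b k)
  map_add' _ _ := rfl
  map_smul' _ _ := rfl

theorem co1_mem (F : Type) [Field F] (b k d N : ℕ) (m : Fin 3) (i : Fin N) (x : Vx F b k d N) :
    co1 F b k d N m i x ∈ Vm F b k d m := (x.1 m i).2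

theorem co1_surj (F : Type) [Field F] (b k d N : ℕ) (m : Fin 3) (w : Fin N → Fn F b k)
    (hw : ∀ i, w i ∈ Vm F b k d m) : ∃ x, ∀ i, co1 F b k d N m i x = w i := by
  refine ⟨(Pi.single (M := fun m => Fin N → Vm F b k d m) m fun i => ⟨w i, hw i⟩, 0), fun i => ?_⟩
  change ((Pi.single (M := fun m => Fin N → Vm F b k d m) m (fun i => ⟨w i, hw i⟩) m i :
    Vm F b k d m) : Fn F b k) = w i
  rw [Pi.single_eq_same]

end Span

theorem s_span (hd : S_Dim) (ha : S_Aff) (hl : S_Lin) : S_Span := by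
  intro F _ _ _ b k d N j
  have hV : ∀ m, Module.finrank F (Vm F b k d m) ≤ n3 b k d := fun m =>
    (Submodule.finrank_mono ((ha F b k).2.2.2.2.2.1 d m)).trans ((hd F b k).2.2.2.2 d)
  constructor
  · rw [mul_div_assoc]
    refine Span.pr_three (B := fun m x => ∃ a : Fin 1 → Module.Dual F (Fn F b k),
      Span.Onto (Vm F b k d m) a ∧ ∀ s i, a s (Span.co1 F b k d N m i x) = 0) (fun x hx => ?_)
      fun m => ?_
    · obtain ⟨m, hm⟩ := not_forall.1 hx
      rcases Span.alt (Vm F b k d m) (Submodule.span F (Set.range (fr x.1 m))) 0 with h | h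
      · obtain ⟨a, h⟩ := h
        exact absurd (fun φ hφ => h φ hφ fun i => i.elim0) hm
      · obtain ⟨a, h1, h2⟩ := h
        exact ⟨m, a, h1, fun s i => h2 s _ (Submodule.subset_span ⟨some i, rfl⟩)⟩
    · simpa only [mul_one] using Span.bad_le hl (Vm F b k d m) (n3 b k d) N 1 (hV m)
        (Span.co1 F b k d N m) (fun i x => (x.1 m i).2) (Span.co1_surj F b k d N m)
  · rw [mul_div_assoc]
    refine Span.pr_three (B := fun m U => ∃ a : Fin (j + 1) → Module.Dual F (Fn F b k × Fn F b k),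
      Span.Onto ((Vm F b k d m).prod (Vm F b k d m)) a ∧
        ∀ s i, a s ((Span.co1 F b k d N m i).prodMap (Span.co1 F b k d N m i) U) = 0)
      (fun U hU => ?_) fun m => ?_
    · obtain ⟨m, hm⟩ := not_forall.1 hU
      rcases Span.alt ((Vm F b k d m).prod (Vm F b k d m)) (AU U m) j with h | h
      · obtain ⟨a, h⟩ := h
        exact absurd ⟨a, fun φ h1 h2 h3 => h φ ⟨h1, h2⟩ h3⟩ hm
      · obtain ⟨a, h1, h2⟩ := h
        exact ⟨m, a, h1, fun s i => h2 s _ (Submodule.subset_span ⟨some i, rfl⟩)⟩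
    · have h0 := (Span.finrank_prod_le (Vm F b k d m)).trans (Nat.mul_le_mul_left 2 (hV m))
      refine Span.bad_le hl ((Vm F b k d m).prod (Vm F b k d m)) (2 * n3 b k d) N (j + 1) h0
        (fun i => (Span.co1 F b k d N m i).prodMap (Span.co1 F b k d N m i))
        (fun i U => Submodule.mem_prod.2 ⟨Span.co1_mem F b k d N m i U.1,
          Span.co1_mem F b k d N m i U.2⟩) fun w hw => ?_
      obtain ⟨x, hx⟩ := Span.co1_surj F b k d N m (fun i => (w i).1) fun i => (hw i).1
      obtain ⟨y, hy⟩ := Span.co1_surj F b k d N m (fun i => (w i).2) fun i => (hw i).2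
      exact ⟨(x, y), fun i => Prod.ext (hx i) (hy i)⟩

end Vale.Agent.P060
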