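import Vale.Agent.P060.StB

/-! The tree-grid lemma. -/

namespace Vale.Agent.P060

open Finset Vale.Agent.P015
open scoped BigOperators

namespace TG

/-- The size threshold. -/
def bd (t q β : ℕ) : ℕ → ℕ
  | 0 => 0
  | m + 1 => 2 ^ β * t ^ (β - m) * q ^ m

theorem bd_step (t q β m : ℕ) : q * bd t q β m ≤ 2 ^ β * t ^ (β + 1 - m) * q ^ m := by
  cases m with
  | zero => simp [bd]
  | succ m =>
    rw [bd, Nat.add_sub_add_right, pow_succ q]
    exact le_of_eq (by ring)

variable {F : Type} [Field F] {b k : ℕ}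

theorem one_mem : (1 : Fn F b k) ∈ P1 F b k := Submodule.subset_span (Set.mem_insert _ _)

theorem pow_mono {e e' : ℕ} (h : e ≤ e') : P1 F b k ^ e ≤ P1 F b k ^ e' :=
  pow_le_pow_right' (Submodule.one_le.2 one_mem) h

theorem prod_mem {α : Type} [DecidableEq α] (s : Finset α) (g : α → Fn F b k)
    (h : ∀ a, g a ∈ P1 F b k) : ∏ a ∈ s, g a ∈ P1 F b k ^ s.card := by
  induction s using Finset.induction_on with
  | empty => simpa using Submodule.one_le.1 le_rfl
  | insert a s ha ih =>
    rw [prod_insert ha, card_insert_of_notMem ha, pow_succ']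
    exact Submodule.mul_mem_mul (h a) ih

/-- A linear factor. -/
def fac (k : ℕ) (i : Fin b) (a a' : F) : Fn F b k :=
  (a - a')⁻¹ • ((fun s : Zt F b k => s.1 i) - a' • 1)

theorem fac_mem (i : Fin b) (a a' : F) : fac k i a a' ∈ P1 F b k :=
  Submodule.smul_mem _ _ (Submodule.sub_mem _
    (Submodule.subset_span (Set.mem_insert_of_mem _ ⟨i, rfl⟩)) (Submodule.smul_mem _ _ one_mem))

theorem fac_apply (i : Fin b) (a a' : F) (z : Fin b → F) :
    fac k i a a' (z, 0) = (a - a')⁻¹ * (z i - a') := by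
  simp [fac]

/-- The points of `A` are separated by polynomials of degree `e`. -/
def Sp (k e : ℕ) (A : Finset (Fin b → F)) : Prop :=
  ∀ z ∈ A, ∃ f ∈ P1 F b k ^ e, f (z, 0) = 1 ∧ ∀ z' ∈ A, z' ≠ z → f (z', 0) = 0

theorem Sp.mono {e e' : ℕ} {A : Finset (Fin b → F)} (h : Sp k e A) (he : e ≤ e') : Sp k e' A :=
  fun z hz => (h z hz).imp fun _ hf => ⟨pow_mono he hf.1, hf.2⟩

theorem Sp.glue [DecidableEq F] {e : ℕ} (i : Fin b) (S : Finset F) (A : F → Finset (Fin b → F))
    (h1 : ∀ a ∈ S, ∀ z ∈ A a, z i = a) (h2 : ∀ a ∈ S, Sp k e (A a)) :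
    Sp k (e + (S.card - 1)) (S.biUnion A) := by
  intro z hz
  obtain ⟨a, ha, hza⟩ := mem_biUnion.1 hz
  obtain ⟨f, hf, f1, f0⟩ := h2 a ha z hza
  refine ⟨f * ∏ a' ∈ S.erase a, fac k i a a', ?_, ?_, fun z' hz' hne => ?_⟩
  · rw [pow_add, ← card_erase_of_mem ha]
    exact Submodule.mul_mem_mul hf (prod_mem _ _ (fac_mem i a))
  · rw [Pi.mul_apply, f1, one_mul, Finset.prod_apply]
    refine prod_eq_one fun a' ha' => ?_
    rw [fac_apply, h1 a ha z hza, inv_mul_cancel₀ (sub_ne_zero.2 (ne_of_mem_erase ha').symm)]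
  · obtain ⟨a', ha', hz'a⟩ := mem_biUnion.1 hz'
    rw [Pi.mul_apply]
    by_cases h : a' = a
    · rw [f0 z' (h ▸ hz'a) hne, zero_mul]
    · rw [Finset.prod_apply, prod_eq_zero (mem_erase.2 ⟨h, ha'⟩), mul_zero]
      rw [fac_apply, h1 a' ha' z' hz'a, sub_self, mul_zero]

theorem claim [Fintype F] [DecidableEq F] (k : ℕ) {t : ℕ} (ht : 1 ≤ t) (T : Finset (Fin b)) :
    ∀ (n : ℕ) (Z : Finset (Fin b → F)), (∀ z ∈ Z, ∀ z' ∈ Z, ∀ i, i ∉ T → z i = z' i) →
      bd t (Fintype.card F) T.card n < Z.card →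
      n ≤ T.card ∧ ∃ A ⊆ Z, A.card = t ^ n ∧ Sp k (T.card * (t - 1)) A := by
  have zero : ∀ (e : ℕ) (Z : Finset (Fin b → F)), 0 < Z.card →
      ∃ A ⊆ Z, A.card = t ^ 0 ∧ Sp k e A := by
    intro e Z h
    obtain ⟨z, hz⟩ := card_pos.1 h
    refine ⟨{z}, singleton_subset_iff.2 hz, by simp, fun z' hz' => ⟨1, ?_, rfl, ?_⟩⟩
    · exact pow_mono (Nat.zero_le e) (by simpa using Submodule.one_le.1 le_rfl)
    · intro z'' h1 h2
      exact absurd ((mem_singleton.1 h1).trans (mem_singleton.1 hz').symm) h2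
  induction T using Finset.induction_on with
  | empty =>
    intro n Z hZ h
    cases n with
    | zero => exact ⟨le_rfl, zero _ Z h⟩
    | succ m =>
      have h1 : Z.card ≤ 1 := card_le_one.2 fun z hz z' hz' =>
        funext fun i => hZ z hz z' hz' i (notMem_empty i)
      have h2 : 0 < bd t (Fintype.card F) (∅ : Finset (Fin b)).card (m + 1) := by
        have := Fintype.card_pos (α := F)
        rw [bd]
        positivity
      omega
  | insert i T hi ih =>
    intro n Z hZ h
    cases n with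
    | zero => exact ⟨Nat.zero_le _, zero _ Z h⟩
    | succ m =>
      rw [card_insert_of_notMem hi] at h ⊢
      have hfib : ∀ a : F, ∀ z ∈ Z.filter fun z => z i = a, ∀ z' ∈ Z.filter fun z => z i = a,
          ∀ j, j ∉ T → z j = z' j := by
        intro a z hz z' hz' j hj
        rw [mem_filter] at hz hz'
        by_cases hji : j = i
        · rw [hji, hz.2, hz'.2]
        · exact hZ z hz.1 z' hz'.1 j fun h => (mem_insert.1 h).elim hji hj
      set G := univ.filter fun a : F =>
        bd t (Fintype.card F) T.card m < (Z.filter fun z => z i = a).card with hG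
      have hG' : ∀ a ∈ G, m ≤ T.card ∧ ∃ A ⊆ Z.filter fun z => z i = a, A.card = t ^ m ∧
          Sp k (T.card * (t - 1)) A := fun a ha => ih m _ (hfib a) (mem_filter.1 ha).2
      by_cases c1 : t ≤ G.card
      · obtain ⟨S, hS, hSt⟩ := exists_subset_card_eq c1
        obtain ⟨a0, ha0⟩ : S.Nonempty := card_pos.1 (by omega)
        choose! A hA using fun a ha => (hG' a ha).2
        have h1 : ∀ a ∈ S, ∀ z ∈ A a, z i = a := fun a ha z hz =>
          (mem_filter.1 ((hA a (hS ha)).1 hz)).2
        refine ⟨Nat.succ_le_succ (hG' a0 (hS ha0)).1, S.biUnion A, ?_, ?_, ?_⟩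
        · exact biUnion_subset.2 fun a ha => (hA a (hS ha)).1.trans (filter_subset _ _)
        · rw [card_biUnion fun a ha a' ha' hne => disjoint_left.2 fun z hz hz' =>
            hne ((h1 a ha z hz).symm.trans (h1 a' ha' z hz')),
            sum_congr rfl fun a ha => (hA a (hS ha)).2.1, sum_const, hSt, smul_eq_mul, pow_succ']
        · have := Sp.glue i S A h1 fun a ha => (hA a (hS ha)).2.2
          rwa [hSt, ← Nat.succ_mul] at this
      by_cases c2 : ∃ a : F,
          bd t (Fintype.card F) T.card (m + 1) < (Z.filter fun z => z i = a).card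
      · obtain ⟨a, ha⟩ := c2
        obtain ⟨h1, A, h2, h3, h4⟩ := ih (m + 1) _ (hfib a) ha
        exact ⟨by omega, A, h2.trans (filter_subset _ _), h3,
          h4.mono (Nat.mul_le_mul_right _ (Nat.le_succ _))⟩
      exfalso
      have h1 : Z.card = ∑ a : F, (Z.filter fun z => z i = a).card :=
        card_eq_sum_card_fiberwise fun z _ => mem_univ _
      rw [← sum_add_sum_compl G] at h1
      have h2 : ∑ a ∈ G, (Z.filter fun z => z i = a).card ≤
          G.card * bd t (Fintype.card F) T.card (m + 1) :=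
        sum_le_card_nsmul _ _ _ fun a _ => not_lt.1 fun h => c2 ⟨a, h⟩
      have h3 : ∑ a ∈ Gᶜ, (Z.filter fun z => z i = a).card ≤
          Fintype.card F * bd t (Fintype.card F) T.card m :=
        (sum_le_card_nsmul _ _ _ fun a ha => not_lt.1 fun h =>
          mem_compl.1 ha (mem_filter.2 ⟨mem_univ _, h⟩)).trans
          (Nat.mul_le_mul_right _ (card_le_univ _))
      have h4 := bd_step t (Fintype.card F) T.card m
      have h5 : G.card * t ^ (T.card - m) ≤ t ^ (T.card + 1 - m) := by
        rcases G.eq_empty_or_nonempty with h | ⟨a, ha⟩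
        · rw [h, card_empty, zero_mul]
          exact Nat.zero_le _
        · rw [Nat.succ_sub (hG' a ha).1, pow_succ']
          exact Nat.mul_le_mul_right _ (by omega)
      have h6 := Nat.mul_le_mul_left (2 ^ T.card * Fintype.card F ^ m) h5
      rw [bd] at h h2
      rw [pow_succ 2] at h
      linarith

end TG

theorem s_tg : S_TG := by
  intro F _ _ _ b k t n e ht hn hnb he ι _ a hι
  classical
  obtain ⟨m, rfl⟩ : ∃ m, n = m + 1 := ⟨n - 1, by omega⟩
  by_contra hc
  have hq : (0 : ℝ) < Fintype.card F := by exact_mod_cast Fintype.card_pos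
  rw [not_le, pr_eq_card, Nat.add_sub_add_right, Fintype.card_fun, Fintype.card_fin,
    lt_div_iff₀ (by positivity)] at hc
  have h1 : TG.bd t (Fintype.card F) (univ : Finset (Fin b)).card (m + 1) <
      (univ.filter fun z : Fin b → F =>
        ∀ f ∈ P1 F b k ^ e, (∀ i, a i f = 0) → f (z, 0) = 0).card := by
    rw [TG.bd, card_univ, Fintype.card_fin]
    have e1 : (Fintype.card F : ℝ) ^ b = Fintype.card F ^ (b - m) * Fintype.card F ^ m := by
      rw [← pow_add, Nat.sub_add_cancel (by omega)]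
    have e2 : (2 : ℝ) ^ b * (t / qq F) ^ (b - m) * ((Fintype.card F ^ b : ℕ) : ℝ) =
        ((2 ^ b * t ^ (b - m) * Fintype.card F ^ m : ℕ) : ℝ) := by
      push_cast
      rw [e1, div_pow]
      field_simp
    rw [e2] at hc
    exact_mod_cast hc
  obtain ⟨-, A, hA, hcard, hsp⟩ := TG.claim k ht univ (m + 1) _
    (fun _ _ _ _ i hi => absurd (mem_univ i) hi) h1
  rw [card_univ, Fintype.card_fin] at hsp
  choose f hf f1 f0 using fun z : A => hsp.mono he z z.2
  have hli : LinearIndependent F fun (z : A) (i : ι) => a i (f z) := by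
    refine Fintype.linearIndependent_iff.2 fun c hc z => ?_
    have h2 := (mem_filter.1 (hA z.2)).2 (∑ y, c y • f y)
      (Submodule.sum_mem _ fun y _ => Submodule.smul_mem _ _ (hf y)) fun i => by
        simpa [map_sum] using congrFun hc i
    rw [Finset.sum_apply, sum_eq_single z] at h2
    · simpa [f1] using h2
    · intro y _ hy
      rw [Pi.smul_apply, f0 y z z.2 fun h => hy (Subtype.ext h).symm, smul_zero]
    · exact fun h => absurd (mem_univ z) h
  have h3 := hli.fintype_card_le_finrank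
  rw [Module.finrank_fintype_fun_eq_card, Fintype.card_coe, hcard] at h3
  omega

end Vale.Agent.P060
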