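import Vale.Agent.P060.StA

namespace Vale.Agent.P060

open Finset Vale.Agent.P015
open scoped BigOperators

namespace Term

section Deg

variable {α Ω : Type} [DecidableEq α] [DecidableEq Ω]

omit [DecidableEq α] in
theorem card_le_deg [Fintype Ω] (E : Finset α) (f : α → Ω) (D : ℕ)
    (h : ∀ x, (E.filter (fun e => f e = x)).card ≤ D) (B : Ω → Prop) [DecidablePred B] :
    (E.filter (fun e => B (f e))).card ≤ D * (univ.filter B).card := by
  refine card_le_mul_card_image_of_maps_to (f := f) (fun a ha => ?_) D (fun x _ => ?_)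
  · exact mem_filter.2 ⟨mem_univ _, (mem_filter.1 ha).2⟩
  · exact (card_le_card (filter_subset_filter _ (filter_subset _ _))).trans (h x)

omit [DecidableEq α] in
theorem sat_le [Fintype Ω] (E : Finset α) (f : α → Ω) (D : ℕ) :
    D * (univ.filter (fun x => (E.filter (fun e => f e = x)).card = D)).card ≤ E.card := by
  refine le_trans (mul_card_image_le_card_of_maps_to (f := f)
    (s := E.filter (fun e => (E.filter (fun e' => f e' = f e)).card = D)) (fun a ha => ?_) D
    (fun x hx => ?_)) (card_filter_le _ _)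
  · exact mem_filter.2 ⟨mem_univ _, (mem_filter.1 ha).2⟩
  · have h1 := (mem_filter.1 hx).2
    refine h1.ge.trans (card_le_card fun e he => ?_)
    obtain ⟨h2, h3⟩ := mem_filter.1 he
    exact mem_filter.2 ⟨mem_filter.2 ⟨h2, by rw [h3]; exact h1⟩, h3⟩

theorem insert_deg (E : Finset α) (f : α → Ω) (D : ℕ)
    (h : ∀ x, (E.filter (fun e => f e = x)).card ≤ D) (a : α)
    (ha : (E.filter (fun e => f e = f a)).card ≠ D) (x : Ω) :
    ((insert a E).filter (fun e => f e = x)).card ≤ D := by
  rw [filter_insert]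
  split_ifs with h1
  · subst h1
    have h2 := h (f a)
    have h3 := card_insert_le a (E.filter (fun e => f e = f a))
    omega
  · exact h x

end Deg

theorem enum {α : Type} (E : Finset α) (hE : E.Nonempty) :
    ∃ (n : ℕ) (u : Fin (n + 1) → α), (∀ s, u s ∈ E) ∧
      ∀ (B : α → Prop) [DecidablePred B],
        pr (fun s => B (u s)) = ((E.filter B).card : ℝ) / E.card := by
  obtain ⟨n, hn⟩ : ∃ n, E.card = n + 1 := ⟨E.card - 1, by have := card_pos.2 hE; omega⟩
  let φ : Fin (n + 1) ≃ E := (E.equivFinOfCardEq hn).symm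
  refine ⟨n, fun s => (φ s : α), fun s => (φ s).2, fun B _ => ?_⟩
  rw [pr_eq_card, Fintype.card_fin, hn]
  have : (univ.filter (fun s => B (φ s : α))).card = (E.filter B).card := by
    refine card_bij (fun s _ => (φ s : α)) (fun s hs => ?_) (fun s _ s' _ e => ?_) (fun a ha => ?_)
    · exact mem_filter.2 ⟨(φ s).2, (mem_filter.1 hs).2⟩
    · exact φ.injective (Subtype.ext e)
    · obtain ⟨h1, h2⟩ := mem_filter.1 ha
      refine ⟨φ.symm ⟨a, h1⟩, mem_filter.2 ⟨mem_univ _, ?_⟩, ?_⟩
      · simpa using h2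
      · simp
  rw [this]

end Term

theorem s_term : S_Term := by
  intro Ω _ _ Λ M A hΛ hM hle hF
  classical
  have hN : (0 : ℝ) < Fintype.card Ω := by exact_mod_cast Fintype.card_pos
  set N : ℝ := ((Fintype.card Ω : ℕ) : ℝ) with hNdef
  have hNN : (Fintype.card (Ω × Ω) : ℝ) = N * N := by rw [Fintype.card_prod]; push_cast; rfl
  have hy : 1 ≤ M * N / Λ := by rwa [le_div_iff₀ hΛ, one_mul]
  set D : ℕ := ⌊M * N / Λ⌋₊ with hD
  have hD1 : (D : ℝ) ≤ M * N / Λ := Nat.floor_le (by linarith)
  have hD2 : 1 ≤ D := Nat.le_floor (by simpa using hy)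
  have hD3 : M * N / Λ ≤ 2 * D := by
    have h1 := Nat.lt_floor_add_one (M * N / Λ)
    have h2 : (1 : ℝ) ≤ D := by exact_mod_cast hD2
    linarith
  rw [le_div_iff₀ hΛ] at hD1
  rw [div_le_iff₀ hΛ] at hD3
  obtain ⟨E, hE, hmax⟩ := (univ.filter (fun E : Finset (Ω × Ω) => (∀ e ∈ E, A e) ∧
      (∀ x, (E.filter (fun e => e.1 = x)).card ≤ D) ∧
      ∀ x, (E.filter (fun e => e.2 = x)).card ≤ D)).exists_max_image card
    ⟨∅, mem_filter.2 ⟨mem_univ _, by simp⟩⟩
  obtain ⟨-, hA, hr, hc⟩ := mem_filter.1 hE
  have hsmall : (E.card : ℝ) * Λ ≤ N * N := by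
    by_contra hbig
    rw [not_le] at hbig
    have hEpos : (0 : ℝ) < E.card := by
      by_contra h
      have h1 : (E.card : ℝ) = 0 := le_antisymm (not_lt.1 h) (Nat.cast_nonneg _)
      rw [h1, zero_mul] at hbig
      nlinarith
    obtain ⟨n, u, hu, hpr⟩ := Term.enum E (card_pos.1 (by exact_mod_cast hEpos))
    have hmarg : ∀ f : Ω × Ω → Ω, (∀ x, (E.filter (fun e => f e = x)).card ≤ D) →
        Dens (fun s => f (u s)) M := by
      intro f hf B
      rw [hpr (fun e => B (f e)), pr_eq_card, ← hNdef, ← mul_div_assoc, div_le_div_iff₀ hEpos hN]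
      have h1 : ((E.filter (fun e => B (f e))).card : ℝ) ≤ D * (univ.filter B).card := by
        exact_mod_cast Term.card_le_deg E f D hf B
      have h2 : (0 : ℝ) ≤ (univ.filter B).card := Nat.cast_nonneg _
      have h3 : (D : ℝ) * N ≤ M * E.card := by
        have h4 : (D : ℝ) * N * Λ ≤ M * E.card * Λ := by
          have h5 := mul_le_mul_of_nonneg_right hD1 hN.le
          have h6 := mul_le_mul_of_nonneg_left hbig.le hM.le
          linarith
        exact le_of_mul_le_mul_right h4 hΛ
      have h4 := mul_le_mul_of_nonneg_right h1 hN.le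
      have h5 := mul_le_mul_of_nonneg_right h3 h2
      linarith
    refine hF ⟨n, u, fun s => hA _ (hu s), fun B => ?_, hmarg Prod.fst hr, hmarg Prod.snd hc⟩
    rw [hpr B, pr_eq_card, hNN, ← mul_div_assoc, div_le_div_iff₀ hEpos (by positivity)]
    have h1 : ((E.filter B).card : ℝ) ≤ (univ.filter B).card := by
      exact_mod_cast card_le_card (filter_subset_filter _ (subset_univ _))
    have h2 : (0 : ℝ) ≤ (univ.filter B).card := Nat.cast_nonneg _
    have h4 := mul_le_mul_of_nonneg_right h1 (show 0 ≤ N * N by positivity)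
    have h5 := mul_le_mul_of_nonneg_right hbig.le h2
    linarith
  have hsat : ∀ f : Ω × Ω → Ω, pr (fun x => (E.filter (fun e => f e = x)).card = D) ≤ 2 / M := by
    intro f
    rw [pr_eq_card, ← hNdef, div_le_div_iff₀ hN hM]
    have h1 : (D : ℝ) * (univ.filter (fun x => (E.filter (fun e => f e = x)).card = D)).card ≤
        E.card := by exact_mod_cast Term.sat_le E f D
    generalize ((univ.filter (fun x => (E.filter (fun e => f e = x)).card = D)).card : ℝ) = c
      at h1 ⊢
    have h2 := mul_le_mul_of_nonneg_right h1 hΛ.le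
    by_contra hcon
    rw [not_le] at hcon
    have h3 : 0 < c := by
      by_contra h
      have := mul_nonpos_of_nonpos_of_nonneg (not_lt.1 h) hM.le
      linarith
    have h4 := mul_le_mul_of_nonneg_right hD3 h3.le
    have h5 := mul_lt_mul_of_pos_right hcon hN
    linarith
  refine ⟨fun x => (E.filter (fun e => e.1 = x)).card = D ∨ (E.filter (fun e => e.2 = x)).card = D,
    fun e => e ∈ E, ?_, ?_, fun e he => ?_⟩
  · have h1 := hsat Prod.fst
    have h2 := hsat Prod.snd
    have h3 : pr (fun x => (E.filter (fun e => e.1 = x)).card = D ∨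
        (E.filter (fun e => e.2 = x)).card = D) ≤
        pr (fun x => (E.filter (fun e => e.1 = x)).card = D) +
          pr (fun x => (E.filter (fun e => e.2 = x)).card = D) := by
      unfold pr
      rw [← E_add]
      exact E_mono fun x => ind_or_le _ _
    have h4 : 4 / M = 2 / M + 2 / M := by ring
    linarith
  · rw [pr_eq_card, hNN, div_le_div_iff₀ (by positivity) hΛ, filter_mem_eq_inter, univ_inter,
      one_mul]
    exact hsmall
  · by_contra hcon
    simp only [not_or] at hcon
    obtain ⟨⟨h1, -⟩, ⟨-, h2⟩, h3⟩ := hcon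
    have h4 := hmax (insert e E) (mem_filter.2 ⟨mem_univ _, fun e' he' => by
      rcases mem_insert.1 he' with h | h
      · rw [h]; exact he
      · exact hA e' h, Term.insert_deg E Prod.fst D hr e h1, Term.insert_deg E Prod.snd D hc e h2⟩)
    rw [card_insert_of_notMem h3] at h4
    omega

end Vale.Agent.P060
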