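import Vale.Agent.P060.StB

/-! Tokens, the ideal kernel and triangle freeness. -/

namespace Vale.Agent.P060

open Finset Vale.Agent.P015
open scoped BigOperators

namespace Tok

variable {F : Type} [Field F] [Fintype F] [DecidableEq F] {b k d N n : ℕ}

theorem TS_eq (ρ : Zt F b k → Fn F b k) (S : Fn F b k) : TS ρ S = ∑ s, S s • ρ s := by
  funext s'
  simp [TS, dotProduct, Finset.sum_apply]

theorem TS_mem {ρ : Zt F b k → Fn F b k} (h : ∀ s, ρ s ∈ Cd F b k d) (S : Fn F b k) :
    TS ρ S ∈ Cd F b k d := by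
  rw [TS_eq]
  exact Submodule.sum_mem _ fun s _ => Submodule.smul_mem _ _ (h s)

theorem TS_symm {ρ : Zt F b k → Fn F b k} (h : ∀ s s', ρ s s' = ρ s' s) (S S' : Fn F b k) :
    S ⬝ᵥ TS ρ S' = S' ⬝ᵥ TS ρ S := by
  simp only [TS, dotProduct, Finset.mul_sum]
  rw [Finset.sum_comm]
  refine Finset.sum_congr rfl fun s _ => Finset.sum_congr rfl fun s' _ => ?_
  rw [h s s']
  ring

theorem TS_comb (ρ : Zt F b k → Fn F b k) (τ : Ty F b k n) (r : Bool) (c : Fin n → F)
    (s : Zt F b k) : TS ρ (comb τ r c) s = ∑ l, c l * TS ρ (τ.S r l) s := by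
  simp only [TS, comb, sum_dotProduct, smul_dotProduct, smul_eq_mul]

theorem Th_one (X : Fr F b k d N) (S : Fn F b k) : Th X S (none, none, none) = S ⬝ᵥ 1 := by
  simp [Th, fr]

theorem pair {ρ : Zt F b k → Fn F b k} {S S' f : Fn F b k} {t : F} (h1 : S ⬝ᵥ 1 = 1)
    (h : ∀ s, f s = t + TS ρ S' s) : S ⬝ᵥ f = t + S ⬝ᵥ TS ρ S' := by
  have : f = t • (1 : Fn F b k) + TS ρ S' := by
    funext s
    simp [h s]
  rw [this, dotProduct_add, dotProduct_smul, h1, smul_eq_mul, mul_one]

theorem ev_none (c : F) (u : Fin (k + 1) → F) : ev (Pi.single none c : Co F k) u = c := by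
  simp [ev]

theorem ev_some (u : Fin (k + 1) → F) : ev (Pi.single (some 0) 1 : Co F k) u = u 0 := by
  simp [ev, Pi.single_apply]

/-- The key as a linear map. -/
def keyL (u : Fin (k + 1) → F) : Wt F k N →ₗ[F] Ky F N where
  toFun w := keyW w u
  map_add' w w' := by
    funext m i
    fin_cases m
    · simp [keyW]
    · simp [keyW]
    · simp only [keyW, ev, add_mul, Finset.sum_add_distrib, Fin.reduceFinMk, Matrix.cons_val,
        Prod.snd_add, Prod.fst_add, Pi.add_apply]
      ring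
  map_smul' c w := by
    funext m i
    fin_cases m
    · simp [keyW]
    · simp [keyW]
    · simp only [keyW, ev, Fin.reduceFinMk, Matrix.cons_val, Prod.smul_snd, Prod.smul_fst,
        Pi.smul_apply, smul_eq_mul, RingHom.id_apply, mul_add, Finset.mul_sum, mul_assoc]

theorem keyL_surj (u : Fin (k + 1) → F) : Function.Surjective (keyL (N := N) u) := by
  intro κ
  refine ⟨((κ 0, κ 1), fun i => Pi.single none (κ 2 i), 0), ?_⟩
  funext m i
  fin_cases m
  · simp [keyL, keyW]
  · simp [keyL, keyW]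
  · simp [keyL, keyW, ev_none]

theorem pr_pt {Ω : Type} [Fintype Ω] (a : Ω) : pr (fun x => x = a) = 1 / Fintype.card Ω := by
  have h := sum_ind_eq (Finset.mem_univ a) fun _ => (1 : ℝ)
  rw [pr, E_eq, ← h]
  congr 1
  exact Finset.sum_congr rfl fun x _ => by rw [mul_one]; exact ind_congr eq_comm

theorem sum_aK (La : (Fin b → F) → Co F k → Lx n → Co F k)
    (K : (Fin b → F) → Wt F k N → Co F k → ℝ) (s : Zt F b k) (κ : Ky F N) (h : Lb F n → ℝ) :
    ∑ θ, aK La K s κ θ * h θ = Fintype.card (Ky F N) *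
      𝔼 w, ind (keyW w s.2 = κ) * ∑ y, K s.1 w y * h (labW La s w y) := by
  simp only [aK, mul_assoc]
  rw [← Finset.mul_sum]
  congr 1
  simp only [← E_mul_right]
  rw [← E_sum]
  refine E_congr fun w => ?_
  simp only [Finset.sum_mul]
  rw [Finset.sum_comm, Finset.mul_sum]
  refine Finset.sum_congr rfl fun y _ => ?_
  rw [← sum_ind_eq (Finset.mem_univ (labW La s w y)) h, Finset.mul_sum, Finset.mul_sum]
  refine Finset.sum_congr rfl fun θ _ => ?_
  rw [ind_and]
  ring

theorem pr_fix (a : Fin (k + 1) → F) :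
    pr (fun x : Co F k => ∀ i, x (some i) = a i) = 1 / qq F ^ (k + 1) := by
  have h1 := (law_equiv (Equiv.piOptionEquivProd (β := fun _ : Option (Fin (k + 1)) => F))
    id).pr_eq fun p => p.2 = a
  have h2 := (law_snd (Ω := F) (id : (Fin (k + 1) → F) → _)).pr_eq fun p => p = a
  have h3 := pr_pt a
  simp only [id] at h1 h2
  rw [h2, h3] at h1
  rw [Fintype.card_fun, Fintype.card_fin, Nat.cast_pow] at h1
  rw [← h1]
  exact pr_congr fun x => ⟨fun h => funext h, fun h i => congrFun h i⟩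

theorem lam_sum (ρ : Zt F b k → Fn F b k) (τ : Ty F b k n) (r : Bool) (z : Fin b → F) (x : Co F k)
    (c : Lx n → F) (i : Fin (k + 1)) : ∑ l, c l * lam ρ τ r z x l (some i) =
      co (fun s => c (Sum.inr true) * s.2 0 + TS ρ (comb τ r fun l => c (Sum.inl l)) s) z (some i) +
        c (Sum.inr false) * x (some i) := by
  have h1 : (Pi.single (some 0) 1 : Co F k) (some i) = (Pi.single i 1 : Fin (k + 1) → F) 0 := by
    by_cases hi : i = 0
    · subst hi; simp
    · rw [Pi.single_eq_of_ne (by simpa using hi), Pi.single_eq_of_ne (Ne.symm hi)]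
  simp only [lam, Fintype.sum_sum_type, Sum.elim_inl, Sum.elim_inr, Fintype.sum_bool, co, TS_comb,
    if_true, Bool.false_eq_true, if_false, h1, mul_sub, Finset.sum_sub_distrib, Pi.zero_apply]
  ring

end Tok

open Tok

theorem s_tri (ha : S_Aff) : S_Tri := by
  intro F _ _ _ _ b k d N ρ Sg hρ hS
  obtain ⟨-, -, -, -, -, -, -, -, -, -, -, -, hw, -⟩ := ha F b k
  have one : ∀ {X Y : Fr F b k d N} {S S' : Fn F b k}, Th X S = Th Y S' → S ⬝ᵥ 1 = 1 →
      S' ⬝ᵥ 1 = 1 := fun {X Y S S'} h h1 => by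
    rw [← Th_one Y, ← h, Th_one, h1]
  have pr' : ∀ {X Y : Fr F b k d N} {S S' : Fn F b k} (M : Tn F N), Th X S = Th Y S' →
      S ⬝ᵥ wt M X = S' ⬝ᵥ wt M Y := fun {X Y S S'} M h => by
    rw [hw, hw, h]
  constructor
  · rintro x y ⟨S, S', t, t', h1, h2, h3, h4, h5⟩
    exact ⟨S', S, t', t, h1.symm, one h1 h2, h4, h3, by rwa [add_comm]⟩
  · rintro x y z ⟨S1, S1', t1, t1', a1, a2, a3, a4, a5⟩ ⟨S2, S2', t2, t2', b1, b2, b3, b4, b5⟩
      ⟨S3, S3', t3, t3', c1, c2, c3, c4, c5⟩
    have e1 := pr' z.2 a1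
    have e2 := pr' x.2 b1
    have e3 := pr' y.2 c1
    rw [pair a2 c3, pair (one a1 a2) b3] at e1
    rw [pair b2 a4, pair (one b1 b2) c4, TS_symm hρ S2 S1'] at e2
    rw [pair c2 a3, pair (one c1 c2) b4, TS_symm hρ S3 S1, TS_symm hρ S3' S2'] at e3
    have h2 : (2 : F) = 0 := CharTwo.two_eq_zero
    refine hS _ _ _ a5 b5 c5 ?_
    linear_combination e1 + e2 + e3 +
      (t2 + t3' + t2' - S1 ⬝ᵥ TS ρ S3 + S2' ⬝ᵥ TS ρ S3') * h2

theorem s_ak (hl : S_Lin) : S_AK := by
  intro F _ _ _ b k N n La K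
  have hc : (0 : ℝ) < Fintype.card (Ky F N) := Nat.cast_pos.2 Fintype.card_pos
  have hk : ∀ (u : Fin (k + 1) → F) (κ : Ky F N),
      Fintype.card (Ky F N) * 𝔼 w : Wt F k N, ind (keyW w u = κ) = 1 := by
    intro u κ
    have h1 := ((hl F).1 _ _ (keyL (N := N) u) (keyL_surj u)).pr_eq fun x => x = κ
    rw [pr_pt] at h1
    have h2 : 𝔼 w : Wt F k N, ind (keyW w u = κ) = 1 / Fintype.card (Ky F N) := h1
    rw [h2, mul_one_div_cancel hc.ne']
  have hs : ∀ s κ, ∑ θ, aK La K s κ θ = Fintype.card (Ky F N) *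
      𝔼 w, ind (keyW w s.2 = κ) * ∑ y, K s.1 w y := fun s κ => by
    simpa only [mul_one] using sum_aK La K s κ fun _ => 1
  refine ⟨fun s h => ?_, fun h s κ θ => ?_, fun h s κ => ?_, fun h s κ => ?_⟩
  · simp only [sum_aK]
    rw [E_mul_left, E_comm, ← E_mul_left]
    refine E_congr fun w => ?_
    rw [E_eq, mul_div_cancel₀ _ hc.ne']
    exact sum_ind_eq (Finset.mem_univ (keyW w s.2))
      fun κ => ∑ y, K s.1 w y * h κ (labW La s w y)
  · exact mul_nonneg hc.le (E_nonneg fun w =>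
      Finset.sum_nonneg fun y _ => mul_nonneg (h _ _ _) (ind_nonneg _))
  · rw [hs, ← hk s.2 κ]
    exact mul_le_mul_of_nonneg_left
      (E_mono fun w => mul_le_of_le_one_right (ind_nonneg _) (h _ _)) hc.le
  · rw [hs, ← hk s.2 κ]
    simp only [h, mul_one]

theorem s_tok (ha : S_Aff) : S_Tok := by
  intro F _ _ _ b k d N j n δ ρ τ hρ
  obtain ⟨h1, h2, -, -, -, -, -, -, -, -, hf, hw, -, -⟩ := ha F b k
  have hC : ∀ f ∈ Cd F b k d, ∀ s : Zt F b k, f s = ev (co f s.1) s.2 := h2 (3 * d + 1)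
  refine ⟨fun U r s => ⟨?_, ?_⟩, fun Sg hT hδ r c hc => ?_⟩
  · funext m i
    fin_cases m
    · exact h1 d _ (hf d N (vx U r).1 0 (some i)) s
    · exact h1 d _ (hf d N (vx U r).1 1 (some i)) s
    · exact h2 (d + 1) _ (hf d N (vx U r).1 2 (some i)) s
  · refine Prod.ext ?_ (hC _ (hw d N _ _) s)
    funext l
    rcases l with l | t
    · exact hC _ (TS_mem hρ.mem _) s
    · cases t
      · exact hC _ (hw d N _ _) s
      · exact (ev_some s.2).symm
  · simp only [lam_sum]
    have hq : 0 ≤ 1 / qq F ^ (k + 1) := by positivity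
    by_cases hx : c (Sum.inr false) = 0
    · simp only [hx, zero_mul, add_zero]
      refine le_trans (le_of_eq ((law_fst (Ω' := Co F k) (fun z : Fin b → F => z)).pr_eq fun z => ∀ i,
        co (fun s => c (Sum.inr true) * s.2 0 + TS ρ (comb τ r fun l => c (Sum.inl l)) s) z
          (some i) = 0)) ?_
      by_cases hT0 : (fun l => c (Sum.inl l)) = 0
      · have hb : c (Sum.inr true) ≠ 0 := by
          intro hb
          apply hc
          funext l
          rcases l with l | t
          · exact congrFun hT0 l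
          · cases t
            · exact hx
            · exact hb
        refine le_trans (le_of_eq ?_) (hq.trans hδ)
        refine (E_congr fun z => ind_neg fun h => hb ?_).trans (expect_const_zero _)
        have := h 0
        simpa [co, TS_comb, hT0] using this
      · exact hρ.nd _ (hT.1 r _) (hT.2.1 r _ hT0) _
    · rw [pr, E_prod]
      refine E_le fun z => le_trans (le_of_eq ?_) hδ
      rw [← pr_fix fun i => -(co (fun s => c (Sum.inr true) * s.2 0 +
        TS ρ (comb τ r fun l => c (Sum.inl l)) s) z (some i)) / c (Sum.inr false)]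
      refine pr_congr fun x => forall_congr' fun i => ?_
      rw [eq_div_iff hx]
      constructor
      · intro h; linear_combination h
      · intro h; linear_combination h

end Vale.Agent.P060
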