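import Vale.Agent.P060.StB

/-! Every non degenerate unit without a hole has a type. -/

namespace Vale.Agent.P060

open Finset Vale.Agent.P015
open scoped BigOperators

namespace Ty1

variable {F : Type} [Field F] [Fintype F] [DecidableEq F] {b k d N j : ℕ}

/-- The relation space. -/
def RR (U : Un F b k d N) : Submodule F (Fn F b k × Fn F b k) where
  carrier := {p | Th U.1.1 p.1 = Th U.2.1 p.2}
  add_mem' := by
    intro p q hp hq
    funext ι
    have h1 := congrFun hp ι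
    have h2 := congrFun hq ι
    simp only [Th, Prod.fst_add, Prod.snd_add, add_dotProduct] at h1 h2 ⊢
    rw [h1, h2]
  zero_mem' := by
    funext ι
    simp [Th]
  smul_mem' := by
    intro c p hp
    funext ι
    have h1 := congrFun hp ι
    simp only [Th, Prod.smul_fst, Prod.smul_snd, smul_dotProduct] at h1 ⊢
    rw [h1]

theorem tri_eq {U : Un F b k d N} {p : Fn F b k × Fn F b k} (hp : p ∈ RR U)
    {φ ψ ξ : Fn F b k × Fn F b k} (h0 : φ ∈ AU U 0) (h1 : ψ ∈ AU U 1) (h2 : ξ ∈ AU U 2) :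
    p.1 ⬝ᵥ (φ.1 * ψ.1 * ξ.1) = p.2 ⬝ᵥ (φ.2 * ψ.2 * ξ.2) := by
  induction h0 using Submodule.span_induction with
  | zero => simp
  | add x y _ _ hx hy => simp only [Prod.fst_add, Prod.snd_add, add_mul, dotProduct_add, hx, hy]
  | smul c x _ hx => simp only [Prod.smul_fst, Prod.smul_snd, smul_mul_assoc, dotProduct_smul, hx]
  | mem x hx =>
    obtain ⟨i0, rfl⟩ := hx
    induction h1 using Submodule.span_induction with
    | zero => simp
    | add x y _ _ hx hy =>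
      simp only [Prod.fst_add, Prod.snd_add, add_mul, mul_add, dotProduct_add, hx, hy]
    | smul c x _ hx =>
      simp only [Prod.smul_fst, Prod.smul_snd, smul_mul_assoc, mul_smul_comm, dotProduct_smul, hx]
    | mem x hx =>
      obtain ⟨i1, rfl⟩ := hx
      induction h2 using Submodule.span_induction with
      | zero => simp
      | add x y _ _ hx hy => simp only [Prod.fst_add, Prod.snd_add, mul_add, dotProduct_add, hx, hy]
      | smul c x _ hx =>
        simp only [Prod.smul_fst, Prod.smul_snd, mul_smul_comm, dotProduct_smul, hx]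
      | mem x hx =>
        obtain ⟨i2, rfl⟩ := hx
        exact congrFun hp (i0, i1, i2)

theorem lift {U : Un F b k d N} (hs : ∀ r, Span (vx U r).1) (r : Bool) (m : Fin 3) {f : Fn F b k}
    (hf : f ∈ Vm F b k d m) : ∃ φ ∈ AU U m, cmp φ r = f := by
  have h := hs r m hf
  clear hf
  induction h using Submodule.span_induction with
  | zero => exact ⟨0, zero_mem _, by cases r <;> rfl⟩
  | add x y _ _ hx hy =>
    obtain ⟨φ, h1, rfl⟩ := hx
    obtain ⟨ψ, h2, rfl⟩ := hy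
    exact ⟨φ + ψ, add_mem h1 h2, by cases r <;> rfl⟩
  | smul c x _ hx =>
    obtain ⟨φ, h1, rfl⟩ := hx
    exact ⟨c • φ, Submodule.smul_mem _ c h1, by cases r <;> rfl⟩
  | mem x hx =>
    obtain ⟨i, rfl⟩ := hx
    exact ⟨pf U m i, Submodule.subset_span ⟨i, rfl⟩, by cases r <;> rfl⟩

theorem kill {U : Un F b k d N} (hs : ∀ r, Span (vx U r).1) {p : Fn F b k × Fn F b k}
    (hp : p ∈ RR U) (r : Bool) {f g h : Fn F b k} (hf : f ∈ Vm F b k d 0) (hg : g ∈ Vm F b k d 1)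
    (hh : h ∈ Vm F b k d 2)
    (H : pur r f ∈ AU U 0 ∨ pur r g ∈ AU U 1 ∨ pur r h ∈ AU U 2) : cmp p r ⬝ᵥ (f * g * h) = 0 := by
  obtain ⟨φ, h0, rfl⟩ := lift hs r 0 hf
  obtain ⟨ψ, h1, rfl⟩ := lift hs r 1 hg
  obtain ⟨ξ, h2, rfl⟩ := lift hs r 2 hh
  rcases H with H | H | H
  · have := tri_eq hp H h1 h2
    cases r
    · simpa [pur, cmp] using this
    · simpa [pur, cmp] using this.symm
  · have := tri_eq hp h0 H h2
    cases r
    · simpa [pur, cmp] using this
    · simpa [pur, cmp] using this.symm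
  · have := tri_eq hp h0 h1 H
    cases r
    · simpa [pur, cmp] using this
    · simpa [pur, cmp] using this.symm

theorem cod {U : Un F b k d N} (hc : Cod U j) (r : Bool) (m : Fin 3) :
    ∃ a : Fin j → Module.Dual F (Fn F b k), ∀ f ∈ Vm F b k d m, (∀ i, a i f = 0) →
      pur r f ∈ AU U m := by
  obtain ⟨a, ha⟩ := hc m
  cases r
  · exact ⟨fun i => (a i).comp (LinearMap.inl F _ _), fun f hf h => ha _ hf (zero_mem _) h⟩
  · exact ⟨fun i => (a i).comp (LinearMap.inr F _ _), fun f hf h => ha _ (zero_mem _) hf h⟩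

theorem gens {E : Type} [AddCommGroup E] [Module F E] (W : Submodule F E)
    (a : Fin j → Module.Dual F E) : ∃ e : Fin j → E, (∀ i, e i ∈ W) ∧ ∀ f ∈ W,
      ∃ c : Fin j → F, ∀ i, a i (f - ∑ l, c l • e l) = 0 := by
  let A : W →ₗ[F] Fin j → F := (LinearMap.pi a).comp W.subtype
  obtain ⟨g, hg⟩ := A.rangeRestrict.exists_rightInverse_of_surjective A.range_rangeRestrict
  obtain ⟨g', hg'⟩ := LinearMap.exists_extend g
  refine ⟨fun i => g' (Pi.single i 1), fun i => (g' _).2, fun f hf => ⟨A ⟨f, hf⟩, fun i => ?_⟩⟩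
  have h1 : ∑ l, A ⟨f, hf⟩ l • (g' (Pi.single l 1) : E) = g' (A ⟨f, hf⟩) := by
    conv_rhs => rw [pi_eq_sum_univ' (A ⟨f, hf⟩), map_sum, Submodule.coe_sum]
    simp
  have h2 : A (g' (A ⟨f, hf⟩)) = A ⟨f, hf⟩ := by
    have e1 := LinearMap.congr_fun hg' (A.rangeRestrict ⟨f, hf⟩)
    have e2 := congrArg Subtype.val (LinearMap.congr_fun hg (A.rangeRestrict ⟨f, hf⟩))
    change g' (A ⟨f, hf⟩) = _ at e1
    rw [e1]
    exact e2
  rw [h1, map_sub, sub_eq_zero]
  exact (congrFun h2 i).symm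

theorem span3 {U : Un F b k d N} (hs : ∀ r, Span (vx U r).1) (hc : Cod U j) :
    ∃ e : Fin 3 → Fin j → Fn F b k, (∀ m i, e m i ∈ Vm F b k d m) ∧ ∀ p ∈ RR U,
      (∀ i0 i1 i2, p.1 ⬝ᵥ (e 0 i0 * e 1 i1 * e 2 i2) = 0) →
      ∀ φ ∈ Vm F b k d 0 * Vm F b k d 1 * Vm F b k d 2, p.1 ⬝ᵥ φ = 0 := by
  choose a ha using cod hc false
  choose e he hg using fun m => gens (Vm F b k d m) (a m)
  have hd : ∀ m, ∀ f ∈ Vm F b k d m, ∃ (c : Fin j → F) (f' : Fn F b k), f' ∈ Vm F b k d m ∧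
      pur false f' ∈ AU U m ∧ f = f' + ∑ l, c l • e m l := fun m f hf => by
    obtain ⟨c, h⟩ := hg m f hf
    have h1 : f - ∑ l, c l • e m l ∈ Vm F b k d m :=
      sub_mem hf (sum_mem fun l _ => Submodule.smul_mem _ _ (he m l))
    exact ⟨c, _, h1, ha m _ h1 h, by simp⟩
  refine ⟨e, he, fun p hp h0 φ hφ => ?_⟩
  have h1 : ∀ i0 i1, ∀ h ∈ Vm F b k d 2, p.1 ⬝ᵥ (e 0 i0 * e 1 i1 * h) = 0 := fun i0 i1 h hh => by
    obtain ⟨c, f, a1, a2, rfl⟩ := hd 2 h hh
    have : p.1 ⬝ᵥ _ = 0 := kill hs hp false (he 0 i0) (he 1 i1) a1 (Or.inr (Or.inr a2))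
    simp only [mul_add, dotProduct_add, this, Finset.mul_sum, dotProduct_sum, mul_smul_comm,
      dotProduct_smul, h0, smul_zero, Finset.sum_const_zero, add_zero]
  have h2 : ∀ i0, ∀ g ∈ Vm F b k d 1, ∀ h ∈ Vm F b k d 2, p.1 ⬝ᵥ (e 0 i0 * g * h) = 0 :=
    fun i0 g hg h hh => by
    obtain ⟨c, f, a1, a2, rfl⟩ := hd 1 g hg
    have : p.1 ⬝ᵥ _ = 0 := kill hs hp false (he 0 i0) a1 hh (Or.inr (Or.inl a2))
    simp only [mul_add, add_mul, dotProduct_add, this, Finset.mul_sum, Finset.sum_mul,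
      dotProduct_sum, mul_smul_comm, smul_mul_assoc, dotProduct_smul, h1 _ _ h hh, smul_zero,
      Finset.sum_const_zero, add_zero]
  have h3 : ∀ f ∈ Vm F b k d 0, ∀ g ∈ Vm F b k d 1, ∀ h ∈ Vm F b k d 2,
      p.1 ⬝ᵥ (f * g * h) = 0 := fun f hf g hg h hh => by
    obtain ⟨c, f, a1, a2, rfl⟩ := hd 0 f hf
    have : p.1 ⬝ᵥ _ = 0 := kill hs hp false a1 hg hh (Or.inl a2)
    simp only [add_mul, dotProduct_add, this, Finset.sum_mul, dotProduct_sum, smul_mul_assoc,
      dotProduct_smul, h2 _ g hg h hh, smul_zero, Finset.sum_const_zero, add_zero]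
  refine Submodule.mul_induction_on hφ (fun x hx h hh => ?_) fun x y hx hy => by
    rw [dotProduct_add, hx, hy, add_zero]
  refine Submodule.mul_induction_on hx (fun f hf g hg => h3 f hf g hg h hh) fun x y hx hy => by
    rw [add_mul, dotProduct_add, hx, hy, add_zero]

end Ty1

open Ty1 in
theorem s_ty1 (hd : S_Dim) (ha : S_Aff) : S_Ty1 := by
  classical
  intro F _ _ _ _ b k d N j δ ρ Sg Rep U _ hR hs hc hH
  obtain ⟨-, -, -, -, -, -, a7, a8, -, -, a11, -, a13, a14⟩ := ha F b k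
  have hfr : ∀ (X : Fr F b k d N) (ι : Ix N × Ix N × Ix N),
      fr X 0 ι.1 * fr X 1 ι.2.1 * fr X 2 ι.2.2 ∈ Cd F b k d := fun X ι =>
    a7 d ▸ Submodule.mul_mem_mul (Submodule.mul_mem_mul (a11 d N X _ _) (a11 d N X _ _))
      (a11 d N X _ _)
  have hlow : ∀ p ∈ RR U, ∀ r, LowRk d j (cmp p r) := fun p hp r => by
    obtain ⟨a, h⟩ := cod hc r 0
    refine ⟨a, fun φ hφ h0 ψ hψ => ?_⟩
    rw [← a8] at hψ
    refine Submodule.mul_induction_on hψ (fun g hg f hf => ?_) fun x y hx hy => by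
      rw [mul_add, dotProduct_add, hx, hy, add_zero]
    rw [← mul_assoc]
    exact kill hs hp r hφ hg hf (Or.inl (h φ hφ h0))
  have hsw : ∀ p ∈ RR U, ∀ r, (∀ φ ∈ Cd F b k d, cmp p r ⬝ᵥ φ = 0) →
      ∀ r', ∀ φ ∈ Cd F b k d, cmp p r' ⬝ᵥ φ = 0 := fun p hp r h r' φ hφ => by
    have h1 : Th (vx U r).1 (cmp p r) = 0 := funext fun ι => h _ (hfr _ ι)
    have h2 : Th (vx U r').1 (cmp p r') = 0 := by
      have h3 : Th U.1.1 p.1 = Th U.2.1 p.2 := hp
      cases r <;> cases r'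
      · exact h1
      · exact h3.symm.trans h1
      · exact h3.trans h1
      · exact h1
    obtain ⟨M, rfl⟩ := a14 d N _ (hs r') φ hφ
    rw [a13, h2, dotProduct_zero]
  obtain ⟨e, he, hk⟩ := span3 hs hc
  rw [a7] at hk
  have hee : ∀ i0 i1 i2, e 0 i0 * e 1 i1 * e 2 i2 ∈ Cd F b k d := fun _ _ _ =>
    a7 d ▸ Submodule.mul_mem_mul (Submodule.mul_mem_mul (he _ _) (he _ _)) (he _ _)
  let Ψ : RR U →ₗ[F] Fin j × Fin j × Fin j → F :=
    { toFun := fun p i => p.1.1 ⬝ᵥ (e 0 i.1 * e 1 i.2.1 * e 2 i.2.2)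
      map_add' := fun p q => funext fun i => add_dotProduct _ _ _
      map_smul' := fun c p => funext fun i => smul_dotProduct _ _ _ }
  let B := Module.finBasis F (LinearMap.range Ψ)
  have hp : ∀ l, ∃ p : RR U, (∀ r, cmp p.1 r ∈ Rep) ∧ Ψ p = B l := fun l => by
    obtain ⟨p, hp⟩ := (B l).2
    obtain ⟨S, h1, h2⟩ := hR.2 _ (hlow p.1 p.2 false)
    obtain ⟨S', h3, h4⟩ := hR.2 _ (hlow p.1 p.2 true)
    refine ⟨⟨(S, S'), funext fun ι => ?_⟩, fun r => by cases r <;> assumption,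
      Eq.trans (funext fun i => (h2 _ (hee _ _ _)).symm) hp⟩
    exact (h2 _ (hfr _ ι)).symm.trans ((congrFun p.2 ι).trans (h4 _ (hfr _ ι)))
  choose p hp1 hp2 using hp
  let S : Bool → Fin (Module.finrank F (LinearMap.range Ψ)) → Fn F b k := fun r l => cmp (p l).1 r
  let τ : Ty F b k (Module.finrank F (LinearMap.range Ψ)) := ⟨S, fun r c =>
    if h : ∃ v, ∀ s, yl U r s + TS ρ (∑ l, c l • S r l) s = v then some h.choose else none⟩
  have hcomb : ∀ r c, comb τ r c = cmp (∑ l, c l • p l : RR U).1 r := fun r c => by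
    cases r <;> simp [comb, τ, S, cmp, Prod.fst_sum, Prod.snd_sum]
  have hΨ : ∀ c : Fin (Module.finrank F (LinearMap.range Ψ)) → F,
      Ψ (∑ l, c l • p l) = (∑ l, c l • B l : LinearMap.range Ψ) := fun c => by
    simp [hp2]
  have hfl : ∀ r c v, τ.fl r c = some v → ∀ s, yl U r s + TS ρ (comb τ r c) s = v := by
    intro r c v h
    simp only [τ] at h
    split_ifs at h with h1
    rw [← Option.some.inj h]
    exact h1.choose_spec
  refine ⟨_, ?_, τ, fun r l => hp1 l r, ⟨fun l => (p l).2, fun S1 S2 h => ?_, hfl,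
    fun r c h v => ?_⟩, fun r c => ?_, fun r c hc0 => ?_, fun c v v' h1 h2 h3 hS => ?_⟩
  · refine (Submodule.finrank_le _).trans (le_of_eq ?_)
    simp only [Module.finrank_fintype_fun_eq_card, Fintype.card_prod, Fintype.card_fin]
    ring
  · let q : RR U := ⟨(S1, S2), h⟩
    refine ⟨B.repr ⟨Ψ q, q, rfl⟩, fun φ hφ => ?_⟩
    have h1 : Ψ (q - ∑ l, B.repr ⟨Ψ q, q, rfl⟩ l • p l) = 0 := by
      rw [map_sub, hΨ, B.sum_repr, sub_self]
    have h2 := hsw _ (q - ∑ l, B.repr ⟨Ψ q, q, rfl⟩ l • p l).2 false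
      (hk _ (q - ∑ l, B.repr ⟨Ψ q, q, rfl⟩ l • p l).2 fun i0 i1 i2 => congrFun h1 (i0, i1, i2))
    rw [hcomb, hcomb]
    exact ⟨sub_eq_zero.1 ((sub_dotProduct _ _ _).symm.trans (h2 false φ hφ)),
      sub_eq_zero.1 ((sub_dotProduct _ _ _).symm.trans (h2 true φ hφ))⟩
  · simp only [τ] at h
    split_ifs at h with h1
    push Not at h1
    exact h1 v
  · rw [hcomb]
    exact hlow _ (∑ l, c l • p l : RR U).2 r
  · by_contra h
    push Not at h
    rw [hcomb] at h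
    have h1 : Ψ (∑ l, c l • p l) = 0 := funext fun i =>
      hsw _ (∑ l, c l • p l : RR U).2 r h false _ (hee _ _ _)
    rw [hΨ] at h1
    exact hc0 (funext (Fintype.linearIndependent_iff.1 B.linearIndependent c
      (Subtype.ext h1)))
  · refine hH ⟨comb τ false c, comb τ true c, v, v', ?_, ?_, fun s => ?_, fun s => ?_, hS⟩
    · rw [hcomb, hcomb]
      exact (∑ l, c l • p l : RR U).2
    · rw [← h1, comb, sum_dotProduct, dotProduct_comm (alf τ)]
      simp only [smul_dotProduct, smul_eq_mul]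
      rfl
    · rw [← hfl _ _ _ h2 s, add_assoc, CharTwo.add_self_eq_zero, add_zero]
      rfl
    · rw [← hfl _ _ _ h3 s, add_assoc, CharTwo.add_self_eq_zero, add_zero]
      rfl

end Vale.Agent.P060
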