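import Vale.Agent.P060.StA

/-! The union bound: a random sample has no large connected matching. -/

namespace Vale.Agent.P060

open Finset Vale.Agent.P015
open scoped BigOperators

namespace UB

variable {Ω : Type} [Fintype Ω] {m : ℕ}

/-- Resampling one coordinate. -/
lemma resample [Nonempty Ω] (f : (Fin m → Ω) → ℝ) (i : Fin m) :
    𝔼 x, f x = 𝔼 x, 𝔼 v : Ω, f (Function.update x i v) := by
  rw [← E_prod (fun p : (Fin m → Ω) × Ω => f (Function.update p.1 i p.2))]
  have h1 : 𝔼 x, f x = 𝔼 p : (Fin m → Ω) × Ω, f p.1 := by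
    rw [E_prod (fun p : (Fin m → Ω) × Ω => f p.1)]
    exact E_congr fun x => (E_const _).symm
  rw [h1]
  let σ : (Fin m → Ω) × Ω → (Fin m → Ω) × Ω := fun p => (Function.update p.1 i p.2, p.1 i)
  have hσ : Function.Involutive σ := by
    rintro ⟨x, v⟩
    simp [σ]
  exact (Fintype.expect_equiv hσ.toPerm _ _ (fun p => rfl)).symm

/-- Evaluate a list of index pairs. -/
def ev (lam : List (Fin m × Fin m)) (x : Fin m → Ω) : List (Ω × Ω) :=
  lam.map (fun p => (x p.1, x p.2))

/-- Indices occurring in the list. -/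
def D (lam : List (Fin m × Fin m)) (i : Fin m) : Prop := ∃ p ∈ lam, p.1 = i ∨ p.2 = i

omit [Fintype Ω] in
lemma ev_update {lam : List (Fin m × Fin m)} {i : Fin m} (h : ¬ D lam i) (x : Fin m → Ω)
    (v : Ω) : ev lam (Function.update x i v) = ev lam x := by
  unfold ev
  refine List.map_congr_left fun p hp => ?_
  have h1 : p.1 ≠ i := fun e => h ⟨p, hp, Or.inl e⟩
  have h2 : p.2 ≠ i := fun e => h ⟨p, hp, Or.inr e⟩
  rw [Function.update_of_ne h1, Function.update_of_ne h2]

lemma bound1 [Nonempty Ω] (T : List (Ω × Ω) → Ω → Prop) {p1 : ℝ} (hT : ∀ l, pr (T l) ≤ p1)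
    (lam : List (Fin m × Fin m)) (B : Finset (Fin m)) (hB : ∀ i ∈ B, ¬ D lam i) :
    pr (fun x : Fin m → Ω => ∀ i ∈ B, T (ev lam x) (x i)) ≤ p1 ^ B.card := by
  have hp : 0 ≤ p1 := (pr_nonneg _).trans (hT [])
  induction B using Finset.induction_on with
  | empty => simpa using pr_le_one _
  | insert j B hj ih =>
    have ih' := ih fun i hi => hB i (mem_insert_of_mem hi)
    have hDj := hB j (mem_insert_self _ _)
    rw [card_insert_of_notMem hj, pow_succ', pr, resample _ j]
    calc _ = 𝔼 x : Fin m → Ω, pr (T (ev lam x)) * ind (∀ i ∈ B, T (ev lam x) (x i)) := by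
          refine E_congr fun x => ?_
          rw [pr, ← E_mul_right]
          refine E_congr fun v => ?_
          rw [← ind_and, ev_update hDj]
          refine ind_congr ?_
          rw [forall_mem_insert, Function.update_self]
          refine and_congr Iff.rfl (forall₂_congr fun i hi => ?_)
          have e1 : i ≠ j := fun e => hj (e ▸ hi)
          rw [Function.update_of_ne e1]
      _ ≤ 𝔼 x : Fin m → Ω, p1 * ind (∀ i ∈ B, T (ev lam x) (x i)) :=
          E_mono fun x => mul_le_mul_of_nonneg_right (hT _) (ind_nonneg _)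
      _ ≤ _ := by
          rw [E_mul_left]
          exact mul_le_mul_of_nonneg_left ih' hp

lemma bound2 [Nonempty Ω] (A : List (Ω × Ω) → Ω × Ω → Prop) {p2 : ℝ} (hA : ∀ l, pr (A l) ≤ p2)
    (lam : List (Fin m × Fin m)) (g : Fin m → Fin m) (B : Finset (Fin m))
    (hB : ∀ i ∈ B, ¬ D lam i ∧ ¬ D lam (g i)) (hg : ∀ i ∈ B, ∀ i' ∈ B, g i ≠ i')
    (hi : ∀ i ∈ B, ∀ i' ∈ B, g i = g i' → i = i') :
    pr (fun x : Fin m → Ω => ∀ i ∈ B, A (ev lam x) (x i, x (g i))) ≤ p2 ^ B.card := by
  have hp : 0 ≤ p2 := (pr_nonneg _).trans (hA [])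
  induction B using Finset.induction_on with
  | empty => simpa using pr_le_one _
  | insert j B hj ih =>
    have ih' := ih (fun i hi => hB i (mem_insert_of_mem hi))
      (fun i h i' h' => hg i (mem_insert_of_mem h) i' (mem_insert_of_mem h'))
      (fun i h i' h' => hi i (mem_insert_of_mem h) i' (mem_insert_of_mem h'))
    have hDj := hB j (mem_insert_self _ _)
    have hjj : j ≠ g j := (hg j (mem_insert_self _ _) j (mem_insert_self _ _)).symm
    rw [card_insert_of_notMem hj, pow_succ', pr, resample _ (g j), resample _ j]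
    calc _ = 𝔼 x : Fin m → Ω, pr (A (ev lam x)) * ind (∀ i ∈ B, A (ev lam x) (x i, x (g i))) := by
          refine E_congr fun x => ?_
          rw [pr, ← E_mul_right, E_prod]
          refine E_congr fun v => E_congr fun w => ?_
          rw [← ind_and, ev_update hDj.2, ev_update hDj.1]
          refine ind_congr ?_
          rw [forall_mem_insert, Function.update_self, Function.update_of_ne hjj,
            Function.update_self]
          refine and_congr Iff.rfl (forall₂_congr fun i hi' => ?_)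
          have e1 : i ≠ j := fun e => hj (e ▸ hi')
          have e2 : i ≠ g j := (hg j (mem_insert_self _ _) i (mem_insert_of_mem hi')).symm
          have e3 : g i ≠ j := hg i (mem_insert_of_mem hi') j (mem_insert_self _ _)
          have e4 : g i ≠ g j := fun e =>
            e1 (hi i (mem_insert_of_mem hi') j (mem_insert_self _ _) e)
          rw [Function.update_of_ne e2, Function.update_of_ne e1, Function.update_of_ne e4,
            Function.update_of_ne e3]
      _ ≤ 𝔼 x : Fin m → Ω, p2 * ind (∀ i ∈ B, A (ev lam x) (x i, x (g i))) :=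
          E_mono fun x => mul_le_mul_of_nonneg_right (hA _) (ind_nonneg _)
      _ ≤ _ := by
          rw [E_mul_left]
          exact mul_le_mul_of_nonneg_left ih' hp

/-- Decoding of short lists. -/
def dec {α : Type} {s : ℕ} (c : Fin s → Option α) : List α := (List.ofFn c).reduceOption

lemma dec_surj {α : Type} (s : ℕ) (l : List α) (h : l.length ≤ s) :
    ∃ c : Fin s → Option α, dec c = l := by
  induction s generalizing l with
  | zero =>
    refine ⟨fun i => i.elim0, ?_⟩
    have : l = [] := List.length_eq_zero_iff.1 (by omega)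
    simp [dec, this]
  | succ s ih =>
    cases l with
    | nil =>
      obtain ⟨c, hc⟩ := ih [] (by simp)
      refine ⟨Fin.cons none c, ?_⟩
      unfold dec at hc ⊢
      rw [List.ofFn_succ]
      simpa using hc
    | cons a l =>
      obtain ⟨c, hc⟩ := ih l (by simpa using h)
      refine ⟨Fin.cons (some a) c, ?_⟩
      unfold dec at hc ⊢
      rw [List.ofFn_succ]
      simpa using hc

/-- Partner maps supported on `B`. -/
def G (B : Finset (Fin m)) : Finset (Fin m → Fin m) :=
  Fintype.piFinset (fun i => if i ∈ B then univ else {i})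

lemma card_G (B : Finset (Fin m)) : (G B).card = m ^ B.card := by
  unfold G
  rw [Fintype.card_piFinset]
  have : ∀ i : Fin m, (if i ∈ B then (univ : Finset (Fin m)) else {i}).card
      = if i ∈ B then m else 1 := by
    intro i; split_ifs <;> simp
  simp only [this]
  rw [prod_ite_mem, univ_inter, prod_const]

/-- First bad event. -/
def E1 (T : List (Ω × Ω) → Ω → Prop) (lam : List (Fin m × Fin m)) (B : Finset (Fin m))
    (x : Fin m → Ω) : Prop :=
  (∀ i ∈ B, ¬ D lam i) ∧ ∀ i ∈ B, T (ev lam x) (x i)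

/-- Second bad event. -/
def E2 (A : List (Ω × Ω) → Ω × Ω → Prop) (lam : List (Fin m × Fin m)) (B : Finset (Fin m))
    (g : Fin m → Fin m) (x : Fin m → Ω) : Prop :=
  ((∀ i ∈ B, ¬ D lam i ∧ ¬ D lam (g i)) ∧ (∀ i ∈ B, ∀ i' ∈ B, g i ≠ i') ∧
    (∀ i ∈ B, ∀ i' ∈ B, g i = g i' → i = i')) ∧ ∀ i ∈ B, A (ev lam x) (x i, x (g i))

lemma pr_E1 [Nonempty Ω] (T : List (Ω × Ω) → Ω → Prop) {p1 : ℝ} (hT : ∀ l, pr (T l) ≤ p1)
    (lam : List (Fin m × Fin m)) (B : Finset (Fin m)) :
    pr (E1 T lam B) ≤ p1 ^ B.card := by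
  by_cases h : ∀ i ∈ B, ¬ D lam i
  · exact (pr_mono fun x hx => hx.2).trans (bound1 T hT lam B h)
  · have hp : 0 ≤ p1 := (pr_nonneg _).trans (hT [])
    refine le_trans (E_le fun x => ?_) (pow_nonneg hp _)
    rw [ind_neg fun hx => h hx.1]

lemma pr_E2 [Nonempty Ω] (A : List (Ω × Ω) → Ω × Ω → Prop) {p2 : ℝ} (hA : ∀ l, pr (A l) ≤ p2)
    (lam : List (Fin m × Fin m)) (B : Finset (Fin m)) (g : Fin m → Fin m) :
    pr (E2 A lam B g) ≤ p2 ^ B.card := by
  by_cases h : (∀ i ∈ B, ¬ D lam i ∧ ¬ D lam (g i)) ∧ (∀ i ∈ B, ∀ i' ∈ B, g i ≠ i') ∧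
    (∀ i ∈ B, ∀ i' ∈ B, g i = g i' → i = i')
  · exact (pr_mono fun x hx => hx.2).trans (bound2 A hA lam g B h.1 h.2.1 h.2.2)
  · have hp : 0 ≤ p2 := (pr_nonneg _).trans (hA [])
    refine le_trans (E_le fun x => ?_) (pow_nonneg hp _)
    rw [ind_neg fun hx => h hx.1]

lemma lift_list {α β : Type} (f : α → β) (l : List β) (h : ∀ e ∈ l, ∃ k, e = f k) :
    ∃ ks : List α, ks.map f = l := by
  induction l with
  | nil => exact ⟨[], rfl⟩
  | cons e l ih =>
    obtain ⟨ks, hks⟩ := ih fun e' he' => h e' (List.mem_cons_of_mem _ he')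
    obtain ⟨k, hk⟩ := h e List.mem_cons_self
    exact ⟨k :: ks, by simp [hks, hk]⟩

omit [Fintype Ω] in
/-- Deterministic part. -/
lemma det (H : Ω → Ω → Prop) (n s n1 : ℕ) (T : List (Ω × Ω) → Ω → Prop)
    (A : List (Ω × Ω) → Ω × Ω → Prop) (hH : TriFree H) (hn : 2 * n1 + s ≤ n)
    (hC : ∀ I : Ω × Ω → Prop, (∀ e, I e → ¬ H e.1 e.2) → (∀ e e', I e → I e' → ¬ Conf H e e') →
        ∃ l : List (Ω × Ω), l.length ≤ s ∧ (∀ e ∈ l, I e) ∧
          ∀ e, I e → T l e.1 ∨ T l e.2 ∨ A l e)
    (x : Fin m → Ω) (hx : CM H x n) :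
    ∃ lam : List (Fin m × Fin m), lam.length ≤ s ∧ ∃ B : Finset (Fin m), B.card = n1 ∧
      (E1 T lam B x ∨ ∃ g ∈ G B, E2 A lam B g x) := by
  classical
  obtain ⟨a, b, hinj, h1, h2⟩ := hx
  obtain ⟨l, hl, hI, hcov⟩ := hC (fun e => ∃ k, e = (x (a k), x (b k)))
    (by rintro e ⟨k, rfl⟩; exact h1 k)
    (by
      rintro e e' ⟨k, rfl⟩ ⟨k', rfl⟩
      by_cases hk : k = k'
      · subst hk
        intro hc
        exact hH.2 _ _ _ hc.1 hc.1 hc.1
      · exact h2 k k' hk)
  obtain ⟨ks, hks⟩ := lift_list (fun k => (x (a k), x (b k))) l hI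
  have haa : ∀ k k', a k = a k' → k = k' := fun k k' e =>
    Sum.inl.inj (hinj (a₁ := Sum.inl k) (a₂ := Sum.inl k') e)
  have hbb : ∀ k k', b k = b k' → k = k' := fun k k' e =>
    Sum.inr.inj (hinj (a₁ := Sum.inr k) (a₂ := Sum.inr k') e)
  have hab : ∀ k k', a k ≠ b k' := fun k k' e =>
    Sum.inl_ne_inr (hinj (a₁ := Sum.inl k) (a₂ := Sum.inr k') e)
  set lam : List (Fin m × Fin m) := ks.map (fun k => (a k, b k)) with hlam
  have hev : ev lam x = l := by
    rw [← hks, ev, hlam, List.map_map]; rfl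
  have hlen : ks.length ≤ s := by rw [← hks, List.length_map] at hl; exact hl
  have hD : ∀ k, k ∉ ks → ¬ D lam (a k) ∧ ¬ D lam (b k) := by
    intro k hk
    constructor
    · rintro ⟨p, hp, hp'⟩
      obtain ⟨k', hk', rfl⟩ := List.mem_map.1 hp
      rcases hp' with e | e
      · exact hk (haa _ _ e ▸ hk')
      · exact hab _ _ e.symm
    · rintro ⟨p, hp, hp'⟩
      obtain ⟨k', hk', rfl⟩ := List.mem_map.1 hp
      rcases hp' with e | e
      · exact hab _ _ e
      · exact hk (hbb _ _ e ▸ hk')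
  refine ⟨lam, by rw [hlam, List.length_map]; exact hlen, ?_⟩
  set R1 : Finset (Fin n) := univ.filter (fun k => k ∉ ks ∧ (T l (x (a k)) ∨ T l (x (b k))))
  set R2 : Finset (Fin n) := univ.filter (fun k => k ∉ ks ∧ A l (x (a k), x (b k)))
  have hcard : n ≤ ks.toFinset.card + (R1.card + R2.card) := by
    have : (univ : Finset (Fin n)) ⊆ ks.toFinset ∪ (R1 ∪ R2) := by
      intro k _
      by_cases hk : k ∈ ks
      · exact mem_union_left _ (List.mem_toFinset.2 hk)
      · refine mem_union_right _ ?_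
        rcases hcov _ ⟨k, rfl⟩ with h | h | h
        · exact mem_union_left _ (mem_filter.2 ⟨mem_univ _, hk, Or.inl h⟩)
        · exact mem_union_left _ (mem_filter.2 ⟨mem_univ _, hk, Or.inr h⟩)
        · exact mem_union_right _ (mem_filter.2 ⟨mem_univ _, hk, h⟩)
    have h3 := card_le_card this
    rw [card_univ, Fintype.card_fin] at h3
    exact h3.trans ((card_union_le _ _).trans (Nat.add_le_add_left (card_union_le _ _) _))
  have hks' : ks.toFinset.card ≤ s := (List.toFinset_card_le ks).trans hlen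
  by_cases hR : n1 ≤ R1.card
  · obtain ⟨R, hR1, hR2⟩ := exists_subset_card_eq hR
    let c : Fin n → Fin m := fun k => if T l (x (a k)) then a k else b k
    have hc : Function.Injective c := by
      intro k k' e
      simp only [c] at e
      split_ifs at e
      · exact haa _ _ e
      · exact absurd e (hab _ _)
      · exact absurd e.symm (hab _ _)
      · exact hbb _ _ e
    refine ⟨R.image c, by rw [card_image_of_injective _ hc, hR2], Or.inl ⟨?_, ?_⟩⟩
    · intro i hi
      obtain ⟨k, hk, rfl⟩ := mem_image.1 hi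
      have hk' := (mem_filter.1 (hR1 hk)).2
      simp only [c]
      split_ifs
      · exact (hD k hk'.1).1
      · exact (hD k hk'.1).2
    · intro i hi
      obtain ⟨k, hk, rfl⟩ := mem_image.1 hi
      have hk' := (mem_filter.1 (hR1 hk)).2
      rw [hev]
      simp only [c]
      split_ifs with h
      · exact h
      · exact hk'.2.resolve_left h
  · have hR' : n1 ≤ R2.card := by omega
    obtain ⟨R, hR1, hR2⟩ := exists_subset_card_eq hR'
    have ha : Function.Injective a := haa
    let g : Fin m → Fin m := fun i => if i ∈ R.image a then Function.extend a b id i else i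
    have hg : ∀ k ∈ R, g (a k) = b k := by
      intro k hk
      simp only [g]
      rw [if_pos (mem_image_of_mem _ hk), ha.extend_apply]
    refine ⟨R.image a, by rw [card_image_of_injective _ ha, hR2], Or.inr ⟨g, ?_, ⟨?_, ?_, ?_⟩, ?_⟩⟩
    · unfold G
      rw [Fintype.mem_piFinset]
      intro i
      by_cases hi : i ∈ R.image a
      · rw [if_pos hi]; exact mem_univ _
      · rw [if_neg hi]
        simp only [g]
        rw [if_neg hi]; exact mem_singleton_self _
    · intro i hi
      obtain ⟨k, hk, rfl⟩ := mem_image.1 hi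
      rw [hg k hk]
      exact hD k (mem_filter.1 (hR1 hk)).2.1
    · intro i hi i' hi'
      obtain ⟨k, hk, rfl⟩ := mem_image.1 hi
      obtain ⟨k', hk', rfl⟩ := mem_image.1 hi'
      rw [hg k hk]
      exact (hab _ _).symm
    · intro i hi i' hi' e
      obtain ⟨k, hk, rfl⟩ := mem_image.1 hi
      obtain ⟨k', hk', rfl⟩ := mem_image.1 hi'
      rw [hg k hk, hg k' hk'] at e
      rw [hbb _ _ e]
    · intro i hi
      obtain ⟨k, hk, rfl⟩ := mem_image.1 hi
      rw [hg k hk, hev]
      exact (mem_filter.1 (hR1 hk)).2.2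

end UB

open UB in
theorem s_ub : S_UB := by
  intro Ω _ _ H p1 p2 m n s n1 T A hH hT hA hn hC hlt
  by_contra hcon
  push Not at hcon
  have hp1 : 0 ≤ p1 := (pr_nonneg _).trans (hT [])
  have hp2 : 0 ≤ p2 := (pr_nonneg _).trans (hA [])
  have key : ∀ x : Fin m → Ω, (1 : ℝ) ≤ ∑ c : Fin s → Option (Fin m × Fin m),
      ∑ B ∈ powersetCard n1 (univ : Finset (Fin m)),
        (ind (E1 T (dec c) B x) + ∑ g ∈ G B, ind (E2 A (dec c) B g x)) := by
    intro x
    obtain ⟨lam, hlam, B, hB, hE⟩ := det H n s n1 T A hH hn hC x (hcon x)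
    obtain ⟨c, rfl⟩ := dec_surj s lam hlam
    have hnn : ∀ (c : Fin s → Option (Fin m × Fin m)) (B : Finset (Fin m)),
        0 ≤ ind (E1 T (dec c) B x) + ∑ g ∈ G B, ind (E2 A (dec c) B g x) := fun c B =>
      add_nonneg (ind_nonneg _) (sum_nonneg fun _ _ => ind_nonneg _)
    refine le_trans ?_ (single_le_sum (fun c _ => sum_nonneg fun B _ => hnn c B) (mem_univ c))
    refine le_trans ?_ (single_le_sum (fun B _ => hnn c B)
      (mem_powersetCard.2 ⟨subset_univ B, hB⟩))
    rcases hE with h | ⟨g, hg, h⟩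
    · rw [ind_pos h]
      exact le_add_of_nonneg_right (sum_nonneg fun _ _ => ind_nonneg _)
    · refine le_trans ?_ (le_add_of_nonneg_left (ind_nonneg _))
      rw [← ind_pos h]
      exact single_le_sum (f := fun g => ind (E2 A (dec c) B g x)) (fun _ _ => ind_nonneg _) hg
  have h1 := le_E key
  rw [E_sum] at h1
  have h2 : ∀ c : Fin s → Option (Fin m × Fin m),
      𝔼 x : Fin m → Ω, ∑ B ∈ powersetCard n1 (univ : Finset (Fin m)),
        (ind (E1 T (dec c) B x) + ∑ g ∈ G B, ind (E2 A (dec c) B g x)) ≤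
      2 ^ m * (p1 ^ n1 + (m * p2) ^ n1) := by
    intro c
    rw [E_sum]
    have h3 : ∀ B ∈ powersetCard n1 (univ : Finset (Fin m)),
        𝔼 x : Fin m → Ω, (ind (E1 T (dec c) B x) + ∑ g ∈ G B, ind (E2 A (dec c) B g x)) ≤
          p1 ^ n1 + (m * p2) ^ n1 := by
      intro B hB
      have hBc : B.card = n1 := (mem_powersetCard.1 hB).2
      rw [E_add, E_sum]
      refine add_le_add (hBc ▸ pr_E1 T hT (dec c) B) ?_
      refine (sum_le_card_nsmul _ _ (p2 ^ n1) fun g _ => hBc ▸ pr_E2 A hA (dec c) B g).trans ?_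
      rw [card_G, hBc, nsmul_eq_mul, mul_pow]
      push_cast
      exact le_rfl
    refine (sum_le_card_nsmul _ _ _ h3).trans ?_
    rw [nsmul_eq_mul]
    refine mul_le_mul_of_nonneg_right ?_ (by positivity)
    rw [card_powersetCard, card_univ, Fintype.card_fin]
    exact_mod_cast Nat.choose_le_two_pow m n1
  have h4 := h1.trans (sum_le_card_nsmul _ _ _ fun c _ => h2 c)
  rw [card_univ, Fintype.card_fun, Fintype.card_option, Fintype.card_prod, Fintype.card_fin,
    Fintype.card_fin, nsmul_eq_mul] at h4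
  push_cast at h4
  rw [← sq, ← mul_assoc] at h4
  linarith

end Vale.Agent.P060
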