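import Vale.Agent.P060.StB

/-! Uniformity of tokens at separated points. -/

namespace Vale.Agent.P060

open Finset Vale.Agent.P015
open scoped BigOperators

namespace WU

variable {F : Type} [Field F] {b k d N : ℕ}

theorem pr_pt {W : Type} [Fintype W] (t : W) : pr (fun w : W => w = t) = 1 / Fintype.card W := by
  classical
  rw [pr_eq_card, Finset.card_eq_one.2 ⟨t, by ext; simp⟩, Nat.cast_one]

theorem co_add (f g : Fn F b k) (z : Fin b → F) : co (f + g) z = co f z + co g z := by
  funext o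
  cases o
  · rfl
  · simp only [co, Pi.add_apply]; ring

theorem co_smul (c : F) (f : Fn F b k) (z : Fin b → F) : co (c • f) z = c • co f z := by
  funext o
  cases o
  · rfl
  · simp only [co, Pi.smul_apply, smul_eq_mul]; ring

theorem co_congr {f g : Fn F b k} {z : Fin b → F} (h : ∀ u, f (z, u) = g (z, u)) :
    co f z = co g z := by
  funext o
  cases o
  · exact h _
  · simp only [co, h]

theorem wt_add (M M' : Tn F N) (X : Fr F b k d N) : wt (M + M') X = wt M X + wt M' X := by
  funext s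
  simp only [wt, tri, Pi.add_apply, add_mul, Finset.sum_add_distrib]

theorem wt_smul (c : F) (M : Tn F N) (X : Fr F b k d N) : wt (c • M) X = c • wt M X := by
  funext s
  simp only [wt, tri, Pi.smul_apply, smul_eq_mul, Finset.mul_sum, mul_assoc]

/-- The affine function with given coefficients. -/
def aff (c : Co F k) : Fn F b k := fun s => ev c s.2

theorem aff_mem (c : Co F k) : (aff c : Fn F b k) ∈ U1 F b k := by
  have e : (aff c : Fn F b k) =
      c none • (1 : Fn F b k) + ∑ i, c (some i) • fun s : Zt F b k => s.2 i := by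
    funext s
    simp [aff, ev]
  rw [e]
  exact add_mem (Submodule.smul_mem _ _ (Submodule.subset_span (Set.mem_insert _ _)))
    (Submodule.sum_mem _ fun i _ => Submodule.smul_mem _ _
      (Submodule.subset_span (Set.mem_insert_of_mem _ ⟨i, rfl⟩)))

theorem co_aff (c : Co F k) (z : Fin b → F) : co (aff c : Fn F b k) z = c := by
  funext o
  cases o
  · simp [co, aff, ev]
  · simp [co, aff, ev, Pi.single_apply]

theorem glue {ι : Type} [Fintype ι] {f : ι → Fn F b k} (g : ι → Fn F b k) {s : Zt F b k} {l : ι}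
    (h1 : f l s = 1) (h0 : ∀ l', l' ≠ l → f l' s = 0) : (∑ l', f l' * g l') s = g l s := by
  rw [Finset.sum_apply, Finset.sum_eq_single l]
  · simp [h1]
  · intro l' _ h
    simp [h0 l' h]
  · simp

theorem glue' {ι : Type} [Fintype ι] {f : ι → Fn F b k} (c : ι → F) {s : Zt F b k} {l : ι}
    (h1 : f l s = 1) (h0 : ∀ l', l' ≠ l → f l' s = 0) : (∑ l', c l' • f l') s = c l := by
  rw [Finset.sum_apply, Finset.sum_eq_single l]
  · simp [h1]
  · intro l' _ h
    simp [h0 l' h]
  · simp

/-- The keys as a linear map. -/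
def LK {ι : Type} (s : ι → Zt F b k) : Vx F b k d N →ₗ[F] (ι → Ky F N) where
  toFun x := fun l => ky x.1 (s l)
  map_add' _ _ := rfl
  map_smul' _ _ := rfl

/-- The tokens with a frozen frame as a linear map. -/
def LW {ι : Type} (ζ : ι → Fin b → F) (X : Fr F b k d N) : Vx F b k d N →ₗ[F] (ι → Wt F k N) where
  toFun x := fun l => ((fun i => fr x.1 0 (some i) (ζ l, 0), fun i => fr x.1 1 (some i) (ζ l, 0)),
    fun i => co (fr x.1 2 (some i)) (ζ l), co (wt x.2 X) (ζ l))
  map_add' x y := by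
    funext l
    refine Prod.ext rfl (Prod.ext (funext fun i => co_add _ _ _) ?_)
    show co (wt (x.2 + y.2) X) (ζ l) = _
    rw [wt_add, co_add]
    rfl
  map_smul' c x := by
    funext l
    refine Prod.ext rfl (Prod.ext (funext fun i => co_smul _ _ _) ?_)
    show co (wt (c • x.2) X) (ζ l) = _
    rw [wt_smul, co_smul]
    rfl

end WU

open WU

theorem s_wu (ha : S_Aff) (hl : S_Lin) : S_WU := by
  intro F _ _ _ b k d N ι _ _
  obtain ⟨a1, a2, a3, -, a5, a6, -, -, -, -, a11, -, -, a14⟩ := ha F b k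
  obtain ⟨l1, -⟩ := hl F
  have sep : ∀ ζ : ι → Fin b → F, Sep (fun f => f ∈ P1 F b k ^ d) ζ → ∃ f : ι → Fn F b k,
      (∀ l, f l ∈ P1 F b k ^ d) ∧ ∀ l u, f l (ζ l, u) = 1 ∧ ∀ l', l' ≠ l → f l' (ζ l, u) = 0 := by
    intro ζ h
    choose f h1 h2 h3 using h
    refine ⟨f, h1, fun l u => ⟨?_, fun l' hl => ?_⟩⟩
    · rw [a1 d _ (h1 l)]; exact h2 l
    · rw [a1 d _ (h1 l')]; exact h3 l' l hl.symm
  have v0 : Vm F b k d 0 = P1 F b k ^ d := if_neg (by decide)
  have v1 : Vm F b k d 1 = P1 F b k ^ d := if_neg (by decide)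
  have v2 : Vm F b k d 2 = P1 F b k ^ (d + 1) * U1 F b k := if_pos rfl
  refine ⟨fun ζ x hs hx => ?_, fun s hs => ?_⟩
  · obtain ⟨f, h1, h2⟩ := sep ζ hs
    have m1 : ∀ m (c : ι → F), ∑ l, c l • f l ∈ Vm F b k d m := fun m c =>
      Submodule.sum_mem _ fun l _ => Submodule.smul_mem _ _ (a5 d m (h1 l))
    have m2 : ∀ c : ι → Co F k, ∑ l, f l * aff (c l) ∈ Vm F b k d 2 := fun c => by
      rw [v2]
      exact Submodule.sum_mem _ fun l _ =>
        Submodule.mul_mem_mul (a3 d (d + 1) (Nat.le_succ d) (h1 l)) (aff_mem _)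
    have c2 : ∀ (c : ι → Co F k) l, co (∑ l, f l * aff (c l)) (ζ l) = c l := fun c l => by
      rw [← co_aff (c l) (ζ l)]
      exact co_congr fun u => glue _ (h2 l u).1 (h2 l u).2
    have hsurj : Function.Surjective (LW (d := d) (N := N) ζ x.1) := by
      intro T
      obtain ⟨M, hM⟩ := a14 d N x.1 hx _ (a6 d 2 (m2 fun l => (T l).2.2))
      obtain ⟨g, hg⟩ : ∃ g : Fin 3 → Fin N → Fn F b k, g = ![fun i => ∑ l, (T l).1.1 i • f l,
        fun i => ∑ l, (T l).1.2 i • f l, fun i => ∑ l, f l * aff ((T l).2.1 i)] := ⟨_, rfl⟩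
      have hm : ∀ m i, g m i ∈ Vm F b k d m := by
        intro m i
        rw [hg]
        fin_cases m
        · exact m1 _ _
        · exact m1 _ _
        · exact m2 _
      refine ⟨(fun m i => ⟨g m i, hm m i⟩, M), funext fun l => ?_⟩
      refine Prod.ext (Prod.ext (funext fun i => ?_) (funext fun i => ?_))
        (Prod.ext (funext fun i => ?_) ?_)
      · show g 0 i (ζ l, 0) = _
        rw [hg]
        exact glue' (fun l => (T l).1.1 i) (h2 l 0).1 (h2 l 0).2
      · show g 1 i (ζ l, 0) = _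
        rw [hg]
        exact glue' (fun l => (T l).1.2 i) (h2 l 0).1 (h2 l 0).2
      · show co (g 2 i) (ζ l) = _
        rw [hg]
        exact c2 (fun l => (T l).2.1 i) l
      · show co (wt M x.1) (ζ l) = _
        rw [hM]
        exact c2 (fun l => (T l).2.2) l
    have e := (l1 _ _ _ hsurj).pr_eq fun w => w = fun l => Wd x (ζ l)
    rw [pr_pt, Fintype.card_fun, Nat.cast_pow] at e
    rw [← e]
    refine pr_mono fun x' h => funext fun l => ?_
    rw [← h l]
    refine Prod.ext rfl (Prod.ext rfl (co_congr fun u => ?_))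
    have key : ∀ m i, fr x.1 m i (ζ l, u) = fr x'.1 m i (ζ l, u) := by
      intro m i
      cases i with
      | none => rfl
      | some i =>
        fin_cases m
        · exact ((a1 d _ (v0 ▸ a11 d N x.1 0 (some i)) _).trans
            (congrFun (congrArg (fun w : Wt F k N => w.1.1) (h l)) i).symm).trans
            (a1 d _ (v0 ▸ a11 d N x'.1 0 (some i)) (ζ l, u)).symm
        · exact ((a1 d _ (v1 ▸ a11 d N x.1 1 (some i)) _).trans
            (congrFun (congrArg (fun w : Wt F k N => w.1.2) (h l)) i).symm).trans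
            (a1 d _ (v1 ▸ a11 d N x'.1 1 (some i)) (ζ l, u)).symm
        · exact ((a2 _ _ (v2 ▸ a11 d N x.1 2 (some i)) (ζ l, u)).trans
            (congrArg (fun w : Wt F k N => ev (w.2.1 i) u) (h l)).symm).trans
            (a2 _ _ (v2 ▸ a11 d N x'.1 2 (some i)) (ζ l, u)).symm
    simp only [wt, key]
  · obtain ⟨f, h1, h2⟩ := sep _ hs
    refine l1 _ _ (LK (d := d) (N := N) s) fun κ => ?_
    refine ⟨(fun m i => ⟨∑ l, κ l m i • f l, Submodule.sum_mem _ fun l _ =>
      Submodule.smul_mem _ _ (a5 d m (h1 l))⟩, 0), ?_⟩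
    funext l m i
    exact glue' (fun l => κ l m i) (h2 l (s l).2).1 (h2 l (s l).2).2

end Vale.Agent.P060
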