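import Vale.Agent.P060.XKA

namespace Vale.Agent.P060

open Finset Vale.Agent.P015
open scoped BigOperators

namespace XA1

open XKA

variable {F : Type} [Field F] {b k N : ℕ}

theorem two (L : (Fn F b k × Fn F b k) →ₗ[F] F)
    {A A' A'' B B' B'' : Submodule F (Fn F b k × Fn F b k)} {φ ψ ξ : Fn F b k × Fn F b k}
    (h1 : ∀ x ∈ A, ∀ y ∈ B', ∀ z ∈ B'', L (x * y * z) = 0)
    (h2 : ∀ x ∈ B, ∀ y ∈ A', ∀ z ∈ B'', L (x * y * z) = 0)
    (h3 : ∀ x ∈ B, ∀ y ∈ B', L (x * y * ξ) = 0)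
    (hφ : ∃ β ∈ B, ∃ f g, pur false f ∈ A ∧ pur true g ∈ A ∧ φ = β + pur false f + pur true g)
    (hψ : ∀ r, ∃ β ∈ B', ∃ f, pur r f ∈ A' ∧ ψ = β + pur r f)
    (hξ : ∀ r, ∃ β ∈ B'', ∃ f, pur r f ∈ A'' ∧ ξ = β + pur r f) : L (φ * ψ * ξ) = 0 := by
  have h4 : ∀ r f, pur r f ∈ A → L (pur r f * ψ * ξ) = 0 := by
    intro r f hf
    obtain ⟨y, hy, g, -, rfl⟩ := hψ (!r)
    obtain ⟨z, hz, g', -, rfl⟩ := hξ (!r)
    rw [mul_add (pur r f), pur_mul_not, add_zero, mul_add, mul_right_comm _ y (pur _ g'),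
      pur_mul_not, zero_mul, add_zero]
    exact h1 _ hf y hy z hz
  obtain ⟨x, hx, f, g, hf, hg, rfl⟩ := hφ
  have h5 : L (x * ψ * ξ) = 0 := by
    obtain ⟨y, hy, g, hg, rfl⟩ := hψ false
    rw [mul_add, add_mul, map_add, h3 x hx y hy, zero_add]
    obtain ⟨z, hz, g', -, rfl⟩ := hξ (!false)
    rw [mul_add, mul_assoc x _ (pur _ g'), pur_mul_not, mul_zero, add_zero]
    exact h2 x hx _ hg z hz
  rw [add_mul, add_mul, add_mul, add_mul, map_add, map_add, h5, h4 _ _ hf, h4 _ _ hg]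
  simp

theorem tri0 (D : Tn F N) (p q r : Ix N → F) :
    tri D p q r = ∑ i, p i * tri D (Pi.single i 1) q r := by
  simp only [tri, mul_sum]
  rw [sum_comm]
  refine sum_congr rfl fun ι _ => ?_
  rw [sum_eq_single ι.1 (fun i _ hi => by simp [hi.symm]) (by simp)]
  simp; ring

theorem tri1 (D : Tn F N) (p q r : Ix N → F) :
    tri D p q r = ∑ i, q i * tri D p (Pi.single i 1) r := by
  simp only [tri, mul_sum]
  rw [sum_comm]
  refine sum_congr rfl fun ι _ => ?_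
  rw [sum_eq_single ι.2.1 (fun i _ hi => by simp [hi.symm]) (by simp)]
  simp; ring

theorem tri2 (D : Tn F N) (p q r : Ix N → F) :
    tri D p q r = ∑ i, r i * tri D p q (Pi.single i 1) := by
  simp only [tri, mul_sum]
  rw [sum_comm]
  refine sum_congr rfl fun ι _ => ?_
  rw [sum_eq_single ι.2.2 (fun i _ hi => by simp [hi.symm]) (by simp)]
  simp; ring

theorem tri_sub (M M' : Tn F N) (p q r : Ix N → F) :
    tri (M - M') p q r = tri M p q r - tri M' p q r := by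
  simp only [tri, Pi.sub_apply, sub_mul, sum_sub_distrib]

theorem swap {R ι : Type} [CommRing R] [Algebra F R] [Fintype ι] (L : R →ₗ[F] F) (D : ι → F)
    (c c' : BB → ι → F) (e e' : BB → R) (x : ι → R)
    (h : ∀ a a', ∑ i, D i * (c a i * c' a' i * L (e a * e' a' * x i)) = 0) :
    ∑ i, D i * L ((∑ a, c a i • e a) * (∑ a, c' a i • e' a) * x i) = 0 := by
  have e1 : ∀ i, D i * L ((∑ a, c a i • e a) * (∑ a, c' a i • e' a) * x i) =
      ∑ a, ∑ a', D i * (c a i * c' a' i * L (e a * e' a' * x i)) := by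
    intro i
    rw [sum_mul_sum, sum_mul, map_sum, mul_sum]
    refine sum_congr rfl fun a _ => ?_
    rw [sum_mul, map_sum, mul_sum]
    refine sum_congr rfl fun a' _ => ?_
    rw [smul_mul_smul_comm, smul_mul_assoc, map_smul, smul_eq_mul]
  simp only [e1]
  rw [sum_comm]
  refine sum_eq_zero fun a _ => ?_
  rw [sum_comm]
  exact sum_eq_zero fun a' _ => h a a'

theorem split {R : Type} [CommRing R] [Algebra F R] (L : R →ₗ[F] F) (p0 p1 p2 k0 k1 k2 : R)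
    (h0 : L (k0 * (p1 - k1) * (p2 - k2)) = 0) (h1 : L (k1 * (p0 - k0) * (p2 - k2)) = 0)
    (h2 : L (p2 * (p0 - k0) * (p1 - k1)) = 0) : L (p0 * p1 * p2) =
      L (k0 * k1 * p2) + L (k0 * k2 * (p1 - k1)) + L (k1 * k2 * (p0 - k0)) := by
  rw [← add_zero (_ + L (k1 * k2 * _)), ← h0, ← add_zero (_ + L (k0 * (p1 - k1) * _)), ← h1,
    ← add_zero (_ + L (k1 * (p0 - k0) * _)), ← h2]
  simp only [← map_add]
  congr 1
  ring

end XA1

open XKA XA1 in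
theorem s_xa1 (_ha : S_Aff) (hx : S_XK) : S_XA1 := by
  intro F _ _ _ b k d N n ρ τ S _ u s κ θ B j1 e1 e2 Lp Ls h σ T T' h2 M M' hM
  have K := hx F b k d N n ρ τ S u s κ θ B j1 e1 e2 Lp Ls h σ
  obtain ⟨f, hf⟩ := interp (h.g4 σ)
  have t0 : ∀ φ ∈ AU (u σ) 0, ∀ ψ ∈ B 1, ∀ ξ ∈ B 2, Lm T T' (φ * ψ * ξ) = 0 :=
    fun φ hφ ψ hψ ξ hξ => h2 φ hφ ψ (h.le σ 1 hψ) ξ (h.le σ 2 hξ) (Or.inl ⟨hψ, hξ⟩)
  have t1 : ∀ φ ∈ B 0, ∀ ψ ∈ AU (u σ) 1, ∀ ξ ∈ B 2, Lm T T' (φ * ψ * ξ) = 0 :=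
    fun φ hφ ψ hψ ξ hξ => h2 φ (h.le σ 0 hφ) ψ hψ ξ (h.le σ 2 hξ) (Or.inr (Or.inl ⟨hφ, hξ⟩))
  have t2 : ∀ φ ∈ B 0, ∀ ψ ∈ B 1, ∀ ξ ∈ AU (u σ) 2, Lm T T' (φ * ψ * ξ) = 0 :=
    fun φ hφ ψ hψ ξ hξ => h2 φ (h.le σ 0 hφ) ψ (h.le σ 1 hψ) ξ hξ (Or.inr (Or.inr ⟨hφ, hψ⟩))
  obtain ⟨kk, hkk⟩ : ∃ kk : Fin 3 → Ix N → Fn F b k × Fn F b k, ∀ m i,
    kk m i = ∑ a : BB, hk (κ a) m i • pur a.1 (f m a) := ⟨_, fun _ _ => rfl⟩
  have hA : ∀ m i, kk m i ∈ AU (u σ) m := fun m i => hkk m i ▸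
    Submodule.sum_mem _ fun a _ => Submodule.smul_mem _ _ (hf m a).2.2.1
  have hC : ∀ m i r, ∃ β ∈ B m, ∃ g, pur r g ∈ AU (u σ) m ∧ pf (u σ) m i - kk m i = β + pur r g := by
    intro m i
    refine (K m).2.2.2.1 _ (Submodule.sub_mem _ (pf_mem _ _ _) (hA m i)) fun a => ?_
    have := dec (s := s) (fun a => (hf m a).2.2.2) (pf (u σ) m i) a
    simp only [← hk_kys, h.key σ] at this
    rw [hkk]
    exact this
  have hCA : ∀ m i, pf (u σ) m i - kk m i ∈ AU (u σ) m := fun m i =>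
    Submodule.sub_mem _ (pf_mem _ _ _) (hA m i)
  have e : ∀ ι : Ix N × Ix N × Ix N, ThU (u σ) T T' ι =
      Lm T T' (kk 0 ι.1 * kk 1 ι.2.1 * pf (u σ) 2 ι.2.2) +
      Lm T T' (kk 0 ι.1 * kk 2 ι.2.2 * (pf (u σ) 1 ι.2.1 - kk 1 ι.2.1)) +
      Lm T T' (kk 1 ι.2.1 * kk 2 ι.2.2 * (pf (u σ) 0 ι.1 - kk 0 ι.1)) := by
    intro ι
    rw [ThU_eq]
    refine split _ _ _ _ _ _ _ ?_ ?_ ?_
    · exact two _ t0 t1 (fun x hx y hy => t2 x hx y hy _ (hCA 2 _))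
        ((K 0).2.2.2.2.1 _ (hA 0 _)) (hC 1 _) (hC 2 _)
    · exact two _ (fun x hx y hy z hz => by rw [mul_comm x]; exact t1 y hy x hx z hz)
        (fun x hx y hy z hz => by rw [mul_comm x]; exact t0 y hy x hx z hz)
        (fun x hx y hy => by rw [mul_comm x]; exact t2 y hy x hx _ (hCA 2 _))
        ((K 1).2.2.2.2.1 _ (hA 1 _)) (hC 0 _) (hC 2 _)
    · exact two _ (fun x hx y hy z hz => by rw [mul_assoc, mul_comm x]; exact t2 y hy z hz x hx)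
        (fun x hx y hy z hz => by rw [mul_assoc, mul_comm x]; exact t0 y hy z hz x hx)
        (fun x hx y hy => by rw [mul_assoc, mul_comm x]; exact t1 y hy _ (hCA 1 _) x hx)
        ((K 2).2.2.2.2.1 _ (pf_mem _ _ _)) (hC 0 _) (hC 1 _)
  have z0 : ∀ a a' p, tri (M - M') p (hk (κ a) 1) (hk (κ a') 2) = 0 := fun a a' p => by
    rw [tri0]
    refine sum_eq_zero fun i _ => ?_
    rw [tri_sub]
    exact mul_eq_zero_of_right _
      (sub_eq_zero.2 (congrFun (congrFun (congrFun (congrFun hM 0) a) a') i))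
  have z1 : ∀ a a' p, tri (M - M') (hk (κ a) 0) p (hk (κ a') 2) = 0 := fun a a' p => by
    rw [tri1]
    refine sum_eq_zero fun i _ => ?_
    rw [tri_sub]
    exact mul_eq_zero_of_right _
      (sub_eq_zero.2 (congrFun (congrFun (congrFun (congrFun hM 1) a) a') i))
  have z2 : ∀ a a' p, tri (M - M') (hk (κ a) 0) (hk (κ a') 1) p = 0 := fun a a' p => by
    rw [tri2]
    refine sum_eq_zero fun i _ => ?_
    rw [tri_sub]
    exact mul_eq_zero_of_right _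
      (sub_eq_zero.2 (congrFun (congrFun (congrFun (congrFun hM 2) a) a') i))
  rw [← sub_eq_zero, ← sub_dotProduct, dotProduct]
  simp only [e, mul_add, sum_add_distrib]
  have s2 : ∑ ι : Ix N × Ix N × Ix N, (M - M') ι *
      Lm T T' (kk 0 ι.1 * kk 1 ι.2.1 * pf (u σ) 2 ι.2.2) = 0 := by
    simp only [hkk]
    exact swap _ _ _ _ _ _ _ fun a a' => z2 a a' fun i =>
      Lm T T' (pur a.1 (f 0 a) * pur a'.1 (f 1 a') * pf (u σ) 2 i)
  have s1 : ∀ x : Ix N → Fn F b k × Fn F b k, ∑ ι : Ix N × Ix N × Ix N, (M - M') ι *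
      Lm T T' (kk 0 ι.1 * kk 2 ι.2.2 * x ι.2.1) = 0 := by
    intro x
    simp only [hkk]
    refine swap _ _ _ _ _ _ _ fun a a' => Eq.trans ?_ (z1 a a' fun i =>
      Lm T T' (pur a.1 (f 0 a) * pur a'.1 (f 2 a') * x i))
    exact sum_congr rfl fun ι _ => by rw [mul_right_comm (hk (κ a) 0 ι.1)]
  have s0 : ∀ x : Ix N → Fn F b k × Fn F b k, ∑ ι : Ix N × Ix N × Ix N, (M - M') ι *
      Lm T T' (kk 1 ι.2.1 * kk 2 ι.2.2 * x ι.1) = 0 := by
    intro x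
    simp only [hkk]
    refine swap _ _ _ _ _ _ _ fun a a' => Eq.trans ?_ (z0 a a' fun i =>
      Lm T T' (pur a.1 (f 1 a) * pur a'.1 (f 2 a') * x i))
    exact sum_congr rfl fun ι _ => by ring
  rw [s2, s1 fun i => pf (u σ) 1 i - kk 1 i, s0 fun i => pf (u σ) 0 i - kk 0 i]
  simp

end Vale.Agent.P060
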