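import Vale.Agent.P060.XKA

namespace Vale.Agent.P060

open Finset Vale.Agent.P015
open scoped BigOperators

namespace XA2

open XKA

/-- The trilinear map attached to a functional. -/
def G3L {F R : Type} [Field F] [CommRing R] [Algebra F R] (L : R →ₗ[F] F) :
    R →ₗ[F] R →ₗ[F] R →ₗ[F] F :=
  (LinearMap.mul F R).compr₂ ((LinearMap.mul F R).compr₂ L)

theorem G3L_apply {F R : Type} [Field F] [CommRing R] [Algebra F R] (L : R →ₗ[F] F) (x y z : R) :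
    G3L L x y z = L (x * y * z) := rfl

theorem finrank_prod_le {F V : Type} [Field F] [AddCommGroup V] [Module F V] [Module.Finite F V]
    (A : Submodule F V) : Module.finrank F (A.prod A) ≤ 2 * Module.finrank F A := by
  have h : A.prod A = LinearMap.range (A.subtype.prodMap A.subtype) := by
    rw [LinearMap.range_prodMap, Submodule.range_subtype]
  rw [h, two_mul, ← Module.finrank_prod]
  exact LinearMap.finrank_range_le _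

variable {F : Type} [Field F] [Fintype F] [DecidableEq F] {b k d N n : ℕ}
  {ρ : Zt F b k → Fn F b k} {τ : Ty F b k n} {S : Type} [Fintype S] {u : S → Un F b k d N}
  {s : BB → Zt F b k} {κ : BB → Ky F N} {θ : BB → Lb F n}
  {B : Fin 3 → Submodule F (Fn F b k × Fn F b k)} {j1 : ℕ} {e1 e2 Lp Ls : ℝ}

theorem col (hk : S_XK) (hc : S_Col) (h : Nice ρ τ u s κ θ B j1 e1 e2 Lp Ls) (σ : S)
    (L : (Fn F b k × Fn F b k) →ₗ[F] F) (m0 m1 m2 : Fin 3)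
    (h01 : ∀ φ ∈ B m0, ∀ ψ ∈ B m1, ∀ ξ ∈ AU (u σ) m2, L (φ * ψ * ξ) = 0)
    (h02 : ∀ φ ∈ B m0, ∀ ψ ∈ AU (u σ) m1, ∀ ξ ∈ B m2, L (φ * ψ * ξ) = 0)
    {φ ψ ξ : Fn F b k × Fn F b k} (hφ : φ ∈ B m0) (hψ : ψ ∈ AU (u σ) m1) (hξ : ξ ∈ AU (u σ) m2)
    (hne : L (φ * ψ * ξ) ≠ 0) :
    pr (fun p : S × S => ∀ i i' i'', L (pf (u p.1) m0 i * pf (u p.1) m1 i' * pf (u p.1) m2 i'') =
      L (pf (u p.2) m0 i * pf (u p.2) m1 i' * pf (u p.2) m2 i'')) ≤ qq F ^ j1 * e2 := by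
  have K := hk F b k d N n ρ τ S u s κ θ B j1 e1 e2 Lp Ls h σ
  obtain ⟨r, f, hf, hr⟩ : ∃ r f, pur r f ∈ AU (u σ) m1 ∧ L (φ * pur r f * ξ) ≠ 0 := by
    obtain ⟨β, hβ, f, g, hf, hg, rfl⟩ := (K m1).2.2.2.2.1 ψ hψ
    by_contra hcon
    push Not at hcon
    rw [mul_add, mul_add, add_mul, add_mul, map_add, map_add, h01 φ hφ β hβ ξ hξ, hcon _ _ hf,
      hcon _ _ hg] at hne
    simp at hne
  obtain ⟨a, ha⟩ := h.cod m0
  have e : ∀ x, (G3L L (pur r f) ξ ∘ₗ purL r) (cmp x r) = L (x * pur r f * ξ) := fun x => by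
    rw [LinearMap.comp_apply, purL_apply, G3L_apply, mul_right_comm, pur_mul, cmp_pur, ← pur_mul,
      mul_comm x]
  refine hc F _ _ _ (Ix N) S (fun σ => pf (u σ) m0) (fun σ => pf (u σ) m1) (fun σ => pf (u σ) m2)
    (G3L L) (B m0) (B m1) (B m2) j1 e2 σ (pur r f) ξ a (fun σ σ' => h.diff σ σ' m0)
    (fun σ σ' => h.diff σ σ' m1) (fun σ σ' => h.diff σ σ' m2) hf hξ
    (fun x hx y hy σ' i => h01 x hx y hy _ ((K m2).1 σ' ▸ pf_mem _ _ _))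
    (fun x hx y hy => h02 x hx _ hf y hy)
    (fun x hx hz => ha x ((K m0).2.1 x hx false) ((K m0).2.1 x hx true) hz) fun v => ?_
  have := h.ent2 m0 r (G3L L (pur r f) ξ ∘ₗ purL r) ⟨φ, hφ, by rwa [e]⟩ v
  simpa only [e, G3L_apply] using this

theorem psum (hd : S_Dim) (ha : S_Aff) (hk : S_XK) (hp : S_PSum)
    (h : Nice ρ τ u s κ θ B j1 e1 e2 Lp Ls) (σ : S) (L : (Fn F b k × Fn F b k) →ₗ[F] F)
    (m0 m1 m2 : Fin 3) (m : ℕ) {φ ψ ξ : Fn F b k × Fn F b k} (hφ : φ ∈ AU (u σ) m0)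
    (hψ : ψ ∈ B m1) (hξ : ξ ∈ B m2) (hne : L (φ * ψ * ξ) ≠ 0) :
    pr (fun σ : Fin (2 * m) → S => ∀ i i' i'',
      ∑ l, L (pf (u (σ l)) m0 i * pf (u (σ l)) m1 i' * pf (u (σ l)) m2 i'') = 0) ≤
      2 * 4 ^ m * (qq F ^ (2 * n3 b k d * (2 * m + 1)) * e1) ^ m := by
  have K := hk F b k d N n ρ τ S u s κ θ B j1 e1 e2 Lp Ls h
  have : Nonempty S := ⟨σ⟩
  have hr : ∀ m, Module.finrank F ((Vm F b k d m).prod (Vm F b k d m)) ≤ 2 * n3 b k d := fun m =>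
    (finrank_prod_le _).trans (Nat.mul_le_mul_left _ ((Submodule.finrank_mono
      ((ha F b k).2.2.2.2.2.1 d m)).trans ((hd F b k).2.2.2.2 d)))
  have hm : ∀ m σ i, pf (u σ) m i ∈ (Vm F b k d m).prod (Vm F b k d m) := fun m σ i =>
    ⟨(K σ m).2.1 _ (pf_mem _ _ _) false, (K σ m).2.1 _ (pf_mem _ _ _) true⟩
  exact hp F _ _ _ (Ix N) S (fun σ => pf (u σ) m0) (fun σ => pf (u σ) m1) (fun σ => pf (u σ) m2)
    (G3L L) _ _ _ m e1 φ ψ ξ (hr m1) (hr m2) (hm m1) (hm m2)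
    (fun σ' => show φ ∈ AU (u σ') m0 from (K σ m0).1 σ' ▸ hφ) (fun σ' => h.le σ' m1 hψ)
    (fun σ' => h.le σ' m2 hξ) hne (fun a h1 => h.ent1 m1 a ⟨ψ, hψ, h1⟩)
    fun a h1 => h.ent1 m2 a ⟨ξ, hξ, h1⟩

end XA2

open XKA XA2 in
theorem s_xa2 (hk : S_XK) (hc : S_Col) : S_XA2 := by
  intro F _ _ _ b k d N n ρ τ S _ u s κ θ B j1 e1 e2 Lp Ls h σ T T' h2 h3
  have t0 : ∀ φ ∈ AU (u σ) 0, ∀ ψ ∈ B 1, ∀ ξ ∈ B 2, Lm T T' (φ * ψ * ξ) = 0 :=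
    fun φ hφ ψ hψ ξ hξ => h2 φ hφ ψ (h.le σ 1 hψ) ξ (h.le σ 2 hξ) (Or.inl ⟨hψ, hξ⟩)
  have t1 : ∀ φ ∈ B 0, ∀ ψ ∈ AU (u σ) 1, ∀ ξ ∈ B 2, Lm T T' (φ * ψ * ξ) = 0 :=
    fun φ hφ ψ hψ ξ hξ => h2 φ (h.le σ 0 hφ) ψ hψ ξ (h.le σ 2 hξ) (Or.inr (Or.inl ⟨hφ, hξ⟩))
  have t2 : ∀ φ ∈ B 0, ∀ ψ ∈ B 1, ∀ ξ ∈ AU (u σ) 2, Lm T T' (φ * ψ * ξ) = 0 :=
    fun φ hφ ψ hψ ξ hξ => h2 φ (h.le σ 0 hφ) ψ (h.le σ 1 hψ) ξ hξ (Or.inr (Or.inr ⟨hφ, hψ⟩))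
  unfold Ty3 at h3
  push Not at h3
  obtain ⟨φ, hφ, ψ, hψ, ξ, hξ, hB, hne⟩ := h3
  rw [GG_eq] at hne
  rcases hB with hB | hB | hB
  · exact le_trans (pr_mono fun p hp i i' i'' => congrFun hp (i, i', i''))
      (col hk hc h σ _ 0 1 2 t2 t1 hB hψ hξ hne)
  · refine le_trans (pr_mono fun p hp i i' i'' => ?_) (col hk hc h σ (Lm T T') 1 0 2
      (fun x hx y hy z hz => by rw [mul_comm x]; exact t2 y hy x hx z hz)
      (fun x hx y hy z hz => by rw [mul_comm x]; exact t0 y hy x hx z hz) hB hφ hξ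
      (by rwa [mul_comm ψ]))
    rw [mul_comm (pf (u p.1) 1 i), mul_comm (pf (u p.2) 1 i)]
    exact congrFun hp (i', i, i'')
  · refine le_trans (pr_mono fun p hp i i' i'' => ?_) (col hk hc h σ (Lm T T') 2 0 1
      (fun x hx y hy z hz => by rw [mul_assoc, mul_comm x]; exact t1 y hy z hz x hx)
      (fun x hx y hy z hz => by rw [mul_assoc, mul_comm x]; exact t0 y hy z hz x hx) hB hφ hψ
      (by rwa [mul_assoc, mul_comm ξ]))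
    rw [mul_assoc, mul_assoc, mul_comm (pf (u p.1) 2 i), mul_comm (pf (u p.2) 2 i)]
    exact congrFun hp (i', i'', i)

open XKA XA2 in
theorem s_x1 (hd : S_Dim) (ha : S_Aff) (hk : S_XK) (hp : S_PSum) : S_X1 := by
  intro F _ _ _ b k d N n ρ τ S _ u s κ θ B j1 e1 e2 Lp Ls h σ T T' m h2
  unfold Ty2 at h2
  push Not at h2
  obtain ⟨φ, hφ, ψ, hψ, ξ, hξ, hB, hne⟩ := h2
  rw [GG_eq] at hne
  have key : ∀ σ : Fin (2 * m) → S, ∑ l, ThU (u (σ l)) T T' = 0 → ∀ i i' i'',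
      ∑ l, Lm T T' (pf (u (σ l)) 0 i * pf (u (σ l)) 1 i' * pf (u (σ l)) 2 i'') = 0 := by
    intro σ hs i i' i''
    have := congrFun hs (i, i', i'')
    rwa [Finset.sum_apply] at this
  rcases hB with hB | hB | hB
  · exact le_trans (pr_mono key) (psum hd ha hk hp h σ _ 0 1 2 m hφ hB.1 hB.2 hne)
  · refine le_trans (pr_mono fun p hp i i' i'' => ?_)
      (psum hd ha hk hp h σ (Lm T T') 1 0 2 m hψ hB.1 hB.2 (by rwa [mul_comm ψ]))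
    rw [← key p hp i' i i'']
    exact sum_congr rfl fun l _ => by rw [mul_comm (pf (u (p l)) 1 i)]
  · refine le_trans (pr_mono fun p hp i i' i'' => ?_)
      (psum hd ha hk hp h σ (Lm T T') 2 0 1 m hξ hB.1 hB.2 (by rwa [mul_assoc, mul_comm ξ]))
    rw [← key p hp i' i'' i]
    exact sum_congr rfl fun l _ => by rw [mul_assoc, mul_comm (pf (u (p l)) 2 i)]

end Vale.Agent.P060
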