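import Vale.Agent.P060.XKA

namespace Vale.Agent.P060

open Finset Vale.Agent.P015
open scoped BigOperators

open XKA in
theorem s_xk (ha : S_Aff) : S_XK := by
  intro F _ _ _ b k d N n ρ τ S _ u s κ θ B j1 e1 e2 Lp Ls h σ m
  have h1 : ∀ σ σ', AU (u σ') m ≤ AU (u σ) m := fun σ σ' => Submodule.span_le.2 (by
    rintro _ ⟨i, rfl⟩
    have := (AU (u σ) m).add_mem (pf_mem (u σ) m i) (h.le σ m (h.diff σ' σ m i))
    simpa using this)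
  have h2 : ∀ φ ∈ AU (u σ) m, ∀ r, cmp φ r ∈ Vm F b k d m := by
    intro φ hφ r
    obtain ⟨c, rfl⟩ := (Submodule.mem_span_range_iff_exists_fun F).1 hφ
    rw [cmp_sum]
    refine Submodule.sum_mem _ fun i _ => ?_
    rw [cmp_smul, cmp_pf]
    exact Submodule.smul_mem _ _ ((ha F b k).2.2.2.2.2.2.2.2.2.2.1 _ _ _ _ _)
  have h4 : ∀ φ ∈ AU (u σ) m, (∀ a : BB, cmp φ a.1 (s a) = 0) → ∀ r, ∃ β ∈ B m, ∃ f,
      pur r f ∈ AU (u σ) m ∧ φ = β + pur r f := by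
    intro φ hφ hz r
    obtain ⟨β, hβ, e⟩ := h.proj m (!r) _ (h2 φ hφ (!r)) fun p => hz (!r, p)
    have e2 : φ - β = pur r (cmp (φ - β) r) := eq_pur (by rw [cmp_sub, e, sub_self])
    exact ⟨β, hβ, _, e2 ▸ Submodule.sub_mem _ hφ (h.le σ m hβ), by rw [← e2]; abel⟩
  obtain ⟨f, hf⟩ := interp (h.g4 σ)
  refine ⟨fun σ' => le_antisymm (h1 σ σ') (h1 σ' σ), h2, fun r g hg => ?_, h4, fun φ hφ => ?_,
    fun a => ?_⟩
  · obtain ⟨c, rfl⟩ := (Submodule.mem_span_range_iff_exists_fun F).1 (h.span σ r m hg)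
    refine ⟨∑ i, c i • pf (u σ) m i,
      Submodule.sum_mem _ fun i _ => Submodule.smul_mem _ _ (pf_mem _ _ _), ?_⟩
    simp only [cmp_sum, cmp_smul, cmp_pf]
  · obtain ⟨β, hβ, g, hg, e⟩ := h4 _ (Submodule.sub_mem _ hφ (Submodule.sum_mem _ fun a _ =>
      Submodule.smul_mem _ (cmp φ a.1 (s a)) (hf m a).2.2.1))
      (dec (fun a => (hf m a).2.2.2) φ) false
    have hs : ∀ r, pur r (∑ p, cmp φ r (s (r, p)) • f m (r, p)) =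
        ∑ p, cmp φ r (s (r, p)) • pur r (f m (r, p)) := fun r => by
      simp only [← purL_apply, map_sum, map_smul]
    have hm : ∀ r, pur r (∑ p, cmp φ r (s (r, p)) • f m (r, p)) ∈ AU (u σ) m := fun r =>
      hs r ▸ Submodule.sum_mem _ fun p _ => Submodule.smul_mem _ _ (hf m (r, p)).2.2.1
    refine ⟨β, hβ, g + ∑ p, cmp φ false (s (false, p)) • f m (false, p), _, ?_, hm true, ?_⟩
    · rw [pur_add]; exact Submodule.add_mem _ hg (hm false)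
    · rw [pur_add, hs, hs, ← add_assoc, ← e, Fintype.sum_prod_type, Fintype.sum_bool]
      abel
  · obtain ⟨c, hc⟩ := (Submodule.mem_span_range_iff_exists_fun F).1 (hf m a).2.2.1
    refine ⟨c, fun a' => ?_⟩
    rw [← (hf m a).2.2.2 a', ← hc, ← h.key σ, cmp_sum, Finset.sum_apply]
    exact sum_congr rfl fun i _ => by rw [hk_kys, cmp_smul]; rfl

namespace XK

open XKA

variable {F : Type} [Field F] {b k : ℕ}

theorem one (L : (Fn F b k × Fn F b k) →ₗ[F] F) {A A' B B' : Submodule F (Fn F b k × Fn F b k)}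
    {φ ψ ξ : Fn F b k × Fn F b k} (h1 : ∀ β ∈ B, ∀ ψ ∈ A', L (β * ψ * ξ) = 0)
    (h2 : ∀ β ∈ B', L (φ * β * ξ) = 0)
    (hφ : ∀ r, ∃ β ∈ B, ∃ f, pur r f ∈ A ∧ φ = β + pur r f)
    (hψ : ∃ β ∈ B', ∃ f g, pur false f ∈ A' ∧ pur true g ∈ A' ∧
      ψ = β + pur false f + pur true g) : L (φ * ψ * ξ) = 0 := by
  have h3 : ∀ r f, pur r f ∈ A' → L (φ * pur r f * ξ) = 0 := by
    intro r f hf
    obtain ⟨β, hβ, g, -, rfl⟩ := hφ (!r)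
    rw [add_mul, mul_comm (pur (!r) g), pur_mul_not, add_zero]
    exact h1 β hβ _ hf
  obtain ⟨β, hβ, f, g, hf, hg, rfl⟩ := hψ
  rw [mul_add, mul_add, add_mul, add_mul, map_add, map_add, h2 β hβ, h3 _ _ hf, h3 _ _ hg]
  simp

theorem exp (L : (Fn F b k × Fn F b k) →ₗ[F] F) {s : BB → Zt F b k}
    {e : BB → Fn F b k × Fn F b k} (φ x : Fn F b k × Fn F b k)
    (h : L ((φ - ∑ a, cmp φ a.1 (s a) • e a) * x) = 0) :
    L (φ * x) = ∑ a : BB, cmp φ a.1 (s a) * L (e a * x) := by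
  rw [sub_mul, map_sub, sub_eq_zero, sum_mul, map_sum] at h
  rw [h]
  exact sum_congr rfl fun a _ => by rw [smul_mul_assoc, map_smul, smul_eq_mul]

theorem off (ha : S_Aff) [Fintype F] [DecidableEq F] {d : ℕ} (hd : 1 ≤ d) {m : Fin 3}
    {s : BB → Zt F b k} {B A A' : Submodule F (Fn F b k × Fn F b k)}
    (hp : ∀ r, ∀ f ∈ Vm F b k d m, (∀ p, f (s (r, p)) = 0) → ∃ φ ∈ B, cmp φ r = f) {a a' : BB}
    {f g : Fn F b k} (hf : f ∈ P1 F b k ^ (d - 1) ∧ (∀ g ∈ P1 F b k, pur a.1 (g * f) ∈ A) ∧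
      pur a.1 f ∈ A ∧ ∀ c : BB, cmp (pur a.1 f) c.1 (s c) = if c = a then 1 else 0)
    (hg : g ∈ P1 F b k ^ (d - 1) ∧ (∀ l ∈ P1 F b k, pur a'.1 (l * g) ∈ A') ∧
      pur a'.1 g ∈ A' ∧ ∀ c : BB, cmp (pur a'.1 g) c.1 (s c) = if c = a' then 1 else 0)
    (hne : a' ≠ a) : ∃ β ∈ B, ∃ x ∈ A, (∀ a : BB, cmp x a.1 (s a) = 0) ∧
      pur a.1 f * pur a'.1 g = pur a.1 f * β + x := by
  obtain ⟨a1, -, a3, -, a5, -, -, -, -, a10, -⟩ := ha F b k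
  obtain ⟨r, p⟩ := a
  obtain ⟨r', p'⟩ := a'
  by_cases hr : r' = r
  · subst hr
    have w1 := hf.2.2.2 (r', p)
    have w2 := hf.2.2.2 (r', p')
    have w3 := hg.2.2.2 (r', p')
    have w4 := hg.2.2.2 (r', p)
    rw [cmp_pur, if_pos rfl] at w1 w3
    rw [cmp_pur, if_neg hne] at w2
    rw [cmp_pur, if_neg hne.symm] at w4
    have hz : (s (r', p')).1 ≠ (s (r', p)).1 := fun e => by
      rw [a1 _ _ hf.1, e, ← a1 _ _ hf.1, w1] at w2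
      exact one_ne_zero w2
    obtain ⟨l, hl, l1, l0⟩ := a10 _ _ hz
    have hpp : p' ≠ p := fun e => hne (by rw [e])
    have hq : ∀ q, q = p ∨ q = p' := fun q => by
      revert hpp; cases q <;> cases p <;> cases p' <;> decide
    have hlV : l ∈ Vm F b k d m := a5 d m (a3 1 d hd (by rwa [pow_one]))
    obtain ⟨β, hβ, e⟩ := hp r' (g - l) (Submodule.sub_mem _
      (a5 d m (a3 _ d (Nat.sub_le d 1) hg.1)) hlV) fun q => by
        rcases hq q with rfl | rfl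
        · rw [Pi.sub_apply, w4, l0, sub_self]
        · rw [Pi.sub_apply, w3, l1, sub_self]
    refine ⟨β, hβ, pur r' (l * f), hf.2.1 l hl, fun a => ?_, ?_⟩
    · obtain ⟨r2, q⟩ := a
      by_cases h2 : r2 = r'
      · subst h2
        rw [cmp_pur]
        rcases hq q with rfl | rfl
        · rw [Pi.mul_apply, l0, zero_mul]
        · rw [Pi.mul_apply, w2, mul_zero]
      · rw [cmp_pur_ne h2]; rfl
    · rw [pur_mul, pur_mul, ← pur_add, e, cmp_pur]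
      congr 1
      ring
  · refine ⟨0, zero_mem _, 0, zero_mem _, fun a => by cases a.1 <;> rfl, ?_⟩
    rw [Bool.eq_not.2 hr, pur_mul_not]
    simp

end XK

open XKA XK in
theorem s_xa3 (ha : S_Aff) (hk : S_XK) : S_XA3 := by
  intro F _ _ _ b k d N n ρ τ S _ u s κ θ B j1 e1 e2 Lp Ls h hd σ T T' h3
  have K := hk F b k d N n ρ τ S u s κ θ B j1 e1 e2 Lp Ls h σ
  obtain ⟨f, hf⟩ := interp (h.g4 σ)
  have t0 : ∀ φ ∈ B 0, ∀ ψ ∈ AU (u σ) 1, ∀ ξ ∈ AU (u σ) 2, Lm T T' (φ * ψ * ξ) = 0 :=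
    fun φ hφ ψ hψ ξ hξ => h3 φ (h.le σ 0 hφ) ψ hψ ξ hξ (Or.inl hφ)
  have t1 : ∀ φ ∈ AU (u σ) 0, ∀ ψ ∈ B 1, ∀ ξ ∈ AU (u σ) 2, Lm T T' (φ * ψ * ξ) = 0 :=
    fun φ hφ ψ hψ ξ hξ => h3 φ hφ ψ (h.le σ 1 hψ) ξ hξ (Or.inr (Or.inl hψ))
  have t2 : ∀ φ ∈ AU (u σ) 0, ∀ ψ ∈ AU (u σ) 1, ∀ ξ ∈ B 2, Lm T T' (φ * ψ * ξ) = 0 :=
    fun φ hφ ψ hψ ξ hξ => h3 φ hφ ψ hψ ξ (h.le σ 2 hξ) (Or.inr (Or.inr hξ))
  have k0 : ∀ φ ∈ AU (u σ) 0, (∀ a : BB, cmp φ a.1 (s a) = 0) → ∀ ψ ∈ AU (u σ) 1,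
      ∀ ξ ∈ AU (u σ) 2, Lm T T' (φ * ψ * ξ) = 0 := fun φ hφ hz ψ hψ ξ hξ =>
    one _ (fun β hβ ψ hψ => t0 β hβ ψ hψ ξ hξ) (fun β hβ => t1 φ hφ β hβ ξ hξ)
      ((K 0).2.2.2.1 φ hφ hz) ((K 1).2.2.2.2.1 ψ hψ)
  have k1 : ∀ ψ ∈ AU (u σ) 1, (∀ a : BB, cmp ψ a.1 (s a) = 0) → ∀ φ ∈ AU (u σ) 0,
      ∀ ξ ∈ AU (u σ) 2, Lm T T' (ψ * φ * ξ) = 0 := fun ψ hψ hz φ hφ ξ hξ =>
    one _ (fun β hβ φ hφ => by rw [mul_comm β]; exact t1 φ hφ β hβ ξ hξ)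
      (fun β hβ => by rw [mul_comm ψ]; exact t0 β hβ ψ hψ ξ hξ)
      ((K 1).2.2.2.1 ψ hψ hz) ((K 0).2.2.2.2.1 φ hφ)
  have k2 : ∀ ξ ∈ AU (u σ) 2, (∀ a : BB, cmp ξ a.1 (s a) = 0) → ∀ φ ∈ AU (u σ) 0,
      ∀ ψ ∈ AU (u σ) 1, Lm T T' (ξ * φ * ψ) = 0 := fun ξ hξ hz φ hφ ψ hψ =>
    one _ (fun β hβ φ hφ => by rw [mul_assoc, mul_comm β]; exact t2 φ hφ ψ hψ β hβ)
      (fun β hβ => by rw [mul_assoc, mul_comm ξ]; exact t0 β hβ ψ hψ ξ hξ)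
      ((K 2).2.2.2.1 ξ hξ hz) ((K 0).2.2.2.2.1 φ hφ)
  have off := fun m a a' => off ha hd (h.proj m) (a := a) (a' := a') (hf 0 a) (hf m a')
  have sub : ∀ m, ∀ φ ∈ AU (u σ) m,
      φ - ∑ a : BB, cmp φ a.1 (s a) • pur a.1 (f m a) ∈ AU (u σ) m := fun m φ hφ =>
    Submodule.sub_mem _ hφ (Submodule.sum_mem _ fun a _ => Submodule.smul_mem _ _ (hf m a).2.2.1)
  have dc := fun m => dec (s := s) (fun a => (hf m a).2.2.2)
  have main : ∀ φ ∈ AU (u σ) 0, ∀ ψ ∈ AU (u σ) 1, ∀ ξ ∈ AU (u σ) 2, Lm T T' (φ * ψ * ξ) =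
      ∑ a : BB, Lm T T' (pur a.1 (f 0 a) * pur a.1 (f 1 a) * pur a.1 (f 2 a)) *
        (cmp φ a.1 (s a) * cmp ψ a.1 (s a) * cmp ξ a.1 (s a)) := by
    intro φ hφ ψ hψ ξ hξ
    rw [mul_assoc, exp (s := s) _ φ _ (by rw [← mul_assoc]; exact k0 _ (sub 0 φ hφ) (dc 0 φ) ψ hψ ξ hξ)]
    refine sum_congr rfl fun a _ => ?_
    have m0 := (hf 0 a).2.2.1
    have m1 := (hf 1 a).2.2.1
    have c1 : Lm T T' (pur a.1 (f 0 a) * (ψ * ξ)) =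
        cmp ψ a.1 (s a) * Lm T T' (ξ * (pur a.1 (f 0 a) * pur a.1 (f 1 a))) := by
      rw [mul_left_comm, exp (s := s) _ ψ _ (by
        rw [← mul_assoc]; exact k1 _ (sub 1 ψ hψ) (dc 1 ψ) _ m0 ξ hξ),
        sum_eq_single a (fun a' _ hne => ?_) (by simp)]
      · congr 2; ring
      · obtain ⟨β, hβ, x, hx, hz, e⟩ := off 1 a a' hne
        have := k0 x hx hz 1 (pf_mem _ 1 none) ξ hξ
        rw [mul_one] at this
        rw [← mul_assoc, mul_comm (pur a'.1 _), e, add_mul, map_add, t1 _ m0 β hβ ξ hξ, this]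
        simp
    have c2 : Lm T T' (ξ * (pur a.1 (f 0 a) * pur a.1 (f 1 a))) = cmp ξ a.1 (s a) *
        Lm T T' (pur a.1 (f 0 a) * pur a.1 (f 1 a) * pur a.1 (f 2 a)) := by
      rw [exp (s := s) _ ξ _ (by
        rw [← mul_assoc]; exact k2 _ (sub 2 ξ hξ) (dc 2 ξ) _ m0 _ m1),
        sum_eq_single a (fun a' _ hne => ?_) (by simp)]
      · congr 2; ring
      · obtain ⟨β, hβ, x, hx, hz, e⟩ := off 2 a a' hne
        have := k0 x hx hz _ m1 1 (pf_mem _ 2 none)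
        rw [mul_one] at this
        have t := t2 _ m0 _ m1 β hβ
        rw [mul_right_comm] at t
        rw [← mul_assoc, mul_comm (pur a'.1 _), e, add_mul, map_add, t, this]
        simp
    rw [c1, c2]
    ring
  refine ⟨fun a => Lm T T' (pur a.1 (f 0 a) * pur a.1 (f 1 a) * pur a.1 (f 2 a)), funext fun ι => ?_⟩
  rw [ThU_eq, main _ (pf_mem _ _ _) _ (pf_mem _ _ _) _ (pf_mem _ _ _), Finset.sum_apply]
  refine sum_congr rfl fun a _ => ?_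
  simp [cmp_pf, Th]

end Vale.Agent.P060
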