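import Vale.Agent.P060.StC

namespace Vale.Agent.P060

open Finset Vale.Agent.P015
open scoped BigOperators

namespace XPh

variable {F : Type} [Field F] [Fintype F] [DecidableEq F] {b k d N n : ℕ}

omit [DecidableEq F] in
theorem Th_sub (X : Fr F b k d N) (S S' : Fn F b k) : Th X (S - S') = Th X S - Th X S' := by
  funext ι; simp only [Th, sub_dotProduct, Pi.sub_apply]

omit [DecidableEq F] in
theorem Th_two (X : Fr F b k d N) (c c' : F) (S S' : Fn F b k) :
    Th X (c • S + c' • S') = c • Th X S + c' • Th X S' := by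
  funext ι
  simp only [Th, add_dotProduct, smul_dotProduct, Pi.add_apply, Pi.smul_apply]

omit [Fintype F] [DecidableEq F] in
theorem wt_key {U V : Un F b k d N} {s s' : BB → Zt F b k} (h : ∀ a, kys V s' a = kys U s a.swap)
    (M : Tn F N) (r p : Bool) : wt M (vx U r).1 (s (r, p)) = wt M (vx V p).1 (s' (p, r)) := by
  have e : ∀ m, (fun i => fr (vx U r).1 m i (s (r, p))) = fun i => fr (vx V p).1 m i (s' (p, r)) := by
    intro m
    funext i
    cases i with
    | none => rfl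
    | some i => exact (congrFun (congrFun (h (p, r)) m) i).symm
  simp only [wt, e]

omit [DecidableEq F] in
theorem comb_dot (τ : Ty F b k n) (r : Bool) (c : Fin n → F) (φ : Fn F b k) :
    comb τ r c ⬝ᵥ φ = ∑ l, c l * (τ.S r l ⬝ᵥ φ) := by
  simp only [comb, sum_dotProduct, smul_dotProduct, smul_eq_mul]

omit [DecidableEq F] in
theorem dot_split (S f g : Fn F b k) (t : F) :
    (S ⬝ᵥ fun x => f x + (t + g x)) = S ⬝ᵥ f + (t * (S ⬝ᵥ 1) + S ⬝ᵥ g) := by
  simp only [dotProduct, mul_add, sum_add_distrib, sum_mul, Pi.one_apply, mul_one, mul_comm t]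

end XPh

open XPh in
theorem s_xph (ha : S_Aff) : S_XPh := by
  intro F _ _ _ _ b k d N j n δ ρ τ U V s s' v v' Sa hρ hT hK h1 h2 hM hg
  have A := ha F b k
  have one : (1 : Fn F b k) ∈ Cd F b k d :=
    (A.2.2.2.2.2.2.2.2.1 d).2 (Submodule.subset_span (Set.mem_insert _ _))
  have hw := A.2.2.2.2.2.2.2.2.2.2.2.2.1 d N
  obtain ⟨θ, hθ⟩ : ∃ θ, θ = lbs ρ τ U s := ⟨_, rfl⟩
  obtain ⟨θ', hθ'⟩ : ∃ θ, θ = lbs ρ τ V s' := ⟨_, rfl⟩
  rw [← hθ, ← hθ'] at h1 h2 ⊢
  have pt : ∀ r p p', wt (vx V p).2 (vx U r).1 (s (r, p')) +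
      (tt θ θ' (r, p) + ρ (s (r, p)) (s (r, p'))) = 0 := by
    intro r p p'
    rw [wt_key hK]
    by_cases hp : p' = p
    · subst hp
      rw [hρ.diag, ← add_assoc, CharTwo.add_eq_zero, hθ, hθ']
      show _ + (wt (vx V p').2 (vx V p').1 (s' (p', r)) + (s (r, p')).2 0 ^ 2) = _
      rw [← add_assoc, CharTwo.add_self_eq_zero, zero_add]
    · obtain rfl : p = !p' := Bool.eq_not.2 (Ne.symm hp)
      have e : ρ (s (r, !p')) (s (r, p')) = v r := by
        cases p'
        · rw [hρ.symm]; exact hM r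
        · exact hM r
      rw [e, ← add_assoc, CharTwo.add_eq_zero, ← h2.1 p' r, hθ']
      rfl
  have key : ∀ p, ∑ r, (Sa (r, p) ⬝ᵥ fun x => wt (vx V p).2 (vx U r).1 x +
      (tt θ θ' (r, p) + ρ (s (r, p)) x)) = 0 := by
    intro p
    obtain ⟨g, hg⟩ := hg p
    obtain ⟨T, hT'⟩ : ∃ T : Bool → Fn F b k, ∀ r, T r = Sa (r, p) -
      (g (r, true) • Pi.single (s (r, true)) 1 + g (r, false) • Pi.single (s (r, false)) 1) :=
      ⟨_, fun _ => rfl⟩
    have e0 : Th U.1.1 (T false) + Th U.2.1 (T true) = 0 := by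
      rw [hT', hT', Th_sub, Th_sub, Th_two, Th_two, sub_add_sub_comm, sub_eq_zero]
      refine hg.trans ?_
      rw [Fintype.sum_prod_type, Fintype.sum_bool, Fintype.sum_bool, Fintype.sum_bool, add_comm]
      rfl
    have e1 : Th U.1.1 (T false) = Th U.2.1 (T true) :=
      funext fun ι => CharTwo.add_eq_zero.1 (congrFun e0 ι)
    obtain ⟨c, hc⟩ := hT.2.1 _ _ e1
    have e2 : ∀ r, (Sa (r, p) ⬝ᵥ fun x => wt (vx V p).2 (vx U r).1 x +
        (tt θ θ' (r, p) + ρ (s (r, p)) x)) = T r ⬝ᵥ fun x => wt (vx V p).2 (vx U r).1 x +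
        (tt θ θ' (r, p) + ρ (s (r, p)) x) := by
      intro r
      rw [hT', sub_dotProduct, add_dotProduct, smul_dotProduct, smul_dotProduct, single_dotProduct,
        single_dotProduct, pt, pt]
      simp
    have hc' : ∀ r, ∀ φ ∈ Cd F b k d, T r ⬝ᵥ φ = ∑ l, c l * (τ.S r l ⬝ᵥ φ) := by
      intro r φ hφ
      rw [← comb_dot]
      cases r
      · exact (hc φ hφ).1
      · exact (hc φ hφ).2
    have al : ∀ r l, τ.S r l ⬝ᵥ 1 = alf τ l := by
      intro r l
      cases r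
      · rfl
      · simpa [Th, fr, alf] using (congrFun (hT.1 l) (none, none, none)).symm
    have e3 : ∀ r, tt θ θ' (r, p) * (T r ⬝ᵥ 1) + T r ⬝ᵥ ρ (s (r, p)) =
        ∑ l, c l * (alf τ l * tt θ θ' (r, p) + (θ (r, p)).1 (Sum.inl l)) := by
      intro r
      rw [hc' r _ one, hc' r _ (hρ.mem _), mul_sum, ← sum_add_distrib]
      refine sum_congr rfl fun l _ => ?_
      have : (θ (r, p)).1 (Sum.inl l) = τ.S r l ⬝ᵥ ρ (s (r, p)) := by
        rw [hθ]
        show (τ.S r l ⬝ᵥ fun x => ρ x (s (r, p))) = _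
        simp only [hρ.symm _ (s (r, p))]
      rw [al, this]; ring
    rw [Fintype.sum_bool, e2, e2, dot_split, dot_split, e3, e3, hw, hw]
    simp only [h1.2 p]
    rw [add_add_add_comm, CharTwo.add_self_eq_zero, add_zero, ← dotProduct_add, add_comm]
    exact (congrArg _ e0).trans (dotProduct_zero _)
  rw [Ph, Fintype.sum_prod_type_right]
  exact sum_eq_zero fun p _ => key p

end Vale.Agent.P060
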