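import Vale.Agent.P060.Top
import Vale.Agent.P060.AMain
import Vale.Agent.P060.Aff
import Vale.Agent.P060.CR
import Vale.Agent.P060.CR1
import Vale.Agent.P060.CR2
import Vale.Agent.P060.ChiP
import Vale.Agent.P060.Cont
import Vale.Agent.P060.Cut
import Vale.Agent.P060.EI
import Vale.Agent.P060.EL
import Vale.Agent.P060.Four
import Vale.Agent.P060.GP
import Vale.Agent.P060.Hol
import Vale.Agent.P060.Inv
import Vale.Agent.P060.LA13
import Vale.Agent.P060.LA2
import Vale.Agent.P060.LR
import Vale.Agent.P060.Lab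
import Vale.Agent.P060.Lin
import Vale.Agent.P060.ND
import Vale.Agent.P060.Off
import Vale.Agent.P060.Part
import Vale.Agent.P060.Pin
import Vale.Agent.P060.Rare
import Vale.Agent.P060.Red
import Vale.Agent.P060.Sel
import Vale.Agent.P060.Seq
import Vale.Agent.P060.Sig
import Vale.Agent.P060.Span
import Vale.Agent.P060.TG
import Vale.Agent.P060.Term
import Vale.Agent.P060.Tok
import Vale.Agent.P060.Ty1
import Vale.Agent.P060.UB
import Vale.Agent.P060.WU
import Vale.Agent.P060.Par
import Vale.Agent.P060.PC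
import Vale.Agent.P060.SS
import Vale.Agent.P060.Core
import Vale.Agent.P060.G2
import Vale.Agent.P060.G34
import Vale.Agent.P060.Good
import Vale.Agent.P060.Push
import Vale.Agent.P060.Cnt1
import Vale.Agent.P060.Cnt2
import Vale.Agent.P060.Cnt3
import Vale.Agent.P060.Cnt
import Vale.Agent.P060.PC1
import Vale.Agent.P060.PC23
import Vale.Agent.P060.PSum
import Vale.Agent.P060.Col
import Vale.Agent.P060.XK
import Vale.Agent.P060.XA1
import Vale.Agent.P060.XA2
import Vale.Agent.P060.XPh
import Vale.Agent.P060.XT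
import Vale.Agent.P060.Ext
import Vale.Agent.P060.Fin

/-! A counterexample to the conjecture of Hadwiger exists. -/

namespace Vale.Agent.P060

theorem counterEx : CounterEx := by
  have hak := s_ak s_lin
  have htok := s_tok s_aff
  have hwu := s_wu s_aff s_lin
  have hlr := s_lr s_dim s_aff s_lin
  have hpush := s_push hak htok
  have hlab := s_lab s_chi hak (s_part (s_off s_chi hak (s_el s_chi s_lin))) (s_inv s_chi)
    (s_sel s_la1 s_la2 s_la3)
  have hcnt := s_cnt s_ei hak htok hpush hlab (s_cnt1 s_aff s_sz hak hpush) (s_cnt2 hak s_four)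
    (s_cnt3 hak hpush)
  have hgood := s_good hak hpush (s_g2 s_aff s_lin s_rare s_gp) (s_g3 s_aff s_rare s_gp hwu)
    (s_g4 s_aff s_gp)
  have hpc := s_pc s_dim s_aff s_lin s_pc1 (s_pcd s_aff s_lin) (s_pc2 s_aff s_lin) s_pc3
  have hxk := s_xk s_aff
  have hxt := s_xt s_chi s_aff (s_hol s_chi) (s_xa1 s_aff hxk) (s_xa2 hxk s_col)
    (s_x1 s_dim s_aff hxk (s_psum s_lin s_seq)) hxk
  have hext := s_ext s_chi s_dim s_aff s_lin (s_xa3 s_aff hxk) hxk (s_xph s_aff) hxt
  have hcore := s_core s_aff s_gp hwu (s_cr (s_cr1 s_pin) s_cr2) (s_cut s_chi s_aff) hgood hcnt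
    (s_fin hpc hext)
  exact top s_par s_sig s_tg (s_nd s_aff s_lin hlr) (s_tri s_aff)
    (s_ss hlr (s_span s_dim s_aff s_lin) (s_ty1 s_dim s_aff) hcore)
    (s_amain s_red s_term s_cont s_ub)

end Vale.Agent.P060
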