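import Vale.Agent.P060.StC

/-! Nice pieces inside heavy cells. -/

namespace Vale.Agent.P060

open Finset Vale.Agent.P015
open scoped BigOperators

namespace PC

lemma E_subtype {S : Type} [Fintype S] (P : S → Prop) [Fintype {σ // P σ}] (hP : 0 < pr P)
    (f : S → ℝ) : 𝔼 σ : {σ // P σ}, f σ.1 = (𝔼 σ, ind (P σ) * f σ) / pr P := by
  classical
  have hS : (Fintype.card S : ℝ) ≠ 0 := by
    intro h
    rw [pr, E_eq, h] at hP
    simp at hP
  have h1 : ∑ σ, ind (P σ) * f σ = ∑ σ : {σ // P σ}, f σ.1 := by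
    rw [← Finset.sum_subtype (univ.filter P) (by simp) f, Finset.sum_filter]
    refine sum_congr rfl fun σ _ => ?_
    by_cases h : P σ <;> simp [ind, h]
  have h2 : pr P = (Fintype.card {σ // P σ} : ℝ) / Fintype.card S := by
    rw [pr_eq_card, Fintype.card_subtype]
  rw [E_eq, E_eq, h1, h2, div_div_div_cancel_right₀ hS]

lemma pr_card {S : Type} [Fintype S] (P : S → Prop) [Fintype {σ // P σ}] :
    pr P = (Fintype.card {σ // P σ} : ℝ) / Fintype.card S := by
  classical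
  rw [pr_eq_card, Fintype.card_subtype]

lemma pr_subtype {S : Type} [Fintype S] (P : S → Prop) [Fintype {σ // P σ}] (hP : 0 < pr P)
    (A : S → Prop) : pr (fun σ : {σ // P σ} => A σ.1) = pr (fun σ => P σ ∧ A σ) / pr P := by
  rw [pr, E_subtype P hP (fun σ => ind (A σ))]
  congr 1
  exact E_congr fun σ => (ind_and _ _).symm

lemma pr_true {S : Type} [Fintype S] [Nonempty S] : pr (fun _ : S => True) = 1 := by
  rw [pr]; simp

lemma one_le_of_dens {S Ω : Type} [Fintype S] [Nonempty S] [Fintype Ω] {u : S → Ω} {L : ℝ}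
    (h : Dens u L) : 1 ≤ L := by
  have : Nonempty Ω := ⟨u (Classical.arbitrary S)⟩
  have := h (fun _ => True)
  rwa [pr_true, pr_true, mul_one] at this

lemma pr_or_le {S : Type} [Fintype S] (A B : S → Prop) :
    pr (fun σ => A σ ∨ B σ) ≤ pr A + pr B := by
  rw [pr, pr, pr, ← E_add]
  exact E_mono fun σ => ind_or_le _ _

lemma pr_exists_le {S ι : Type} [Fintype S] (t : Finset ι) (A : ι → S → Prop) :
    pr (fun σ => ∃ i ∈ t, A i σ) ≤ ∑ i ∈ t, pr (A i) := by
  simp only [pr]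
  rw [← E_sum]
  exact E_mono fun σ => ind_exists_le _ _

section
variable {F : Type} [Field F] [Fintype F] [DecidableEq F] {b k d N : ℕ}

/-- The component as a linear map. -/
def cmpL (F : Type) [Field F] (b k : ℕ) (r : Bool) : (Fn F b k × Fn F b k) →ₗ[F] Fn F b k where
  toFun φ := cmp φ r
  map_add' φ ψ := by cases r <;> simp [cmp]
  map_smul' c φ := by cases r <;> simp [cmp]

lemma cmp_sub (φ ψ : Fn F b k × Fn F b k) (r : Bool) : cmp (φ - ψ) r = cmp φ r - cmp ψ r := by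
  cases r <;> simp [cmp]

lemma cmp_pf (U : Un F b k d N) (m : Fin 3) (i : Ix N) (r : Bool) :
    cmp (pf U m i) r = fr (vx U r).1 m i := by
  cases r <;> simp [cmp, pf, vx]

/-- Pairs vanishing at the four positions. -/
def B0 (d : ℕ) (s : BB → Zt F b k) (m : Fin 3) : Submodule F (Fn F b k × Fn F b k) where
  carrier := {φ | φ ∈ (Vm F b k d m).prod (Vm F b k d m) ∧ ∀ a : BB, cmp φ a.1 (s a) = 0}
  zero_mem' := ⟨Submodule.zero_mem _, fun a => by rcases a with ⟨r, p⟩; cases r <;> simp [cmp]⟩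
  add_mem' := fun {φ ψ} h h' => ⟨Submodule.add_mem _ h.1 h'.1, fun a => by
    have h1 := h.2 a
    have h2 := h'.2 a
    rcases a with ⟨r, p⟩
    cases r <;> simp [cmp] at h1 h2 ⊢ <;> simp [h1, h2]⟩
  smul_mem' := fun c φ h => ⟨Submodule.smul_mem _ c h.1, fun a => by
    have h1 := h.2 a
    rcases a with ⟨r, p⟩
    cases r <;> simp [cmp] at h1 ⊢ <;> simp [h1]⟩

lemma finrank_prod_le {V : Type} [AddCommGroup V] [Module F V] [Module.Finite F V]
    (A : Submodule F V) (n : ℕ) (h : Module.finrank F A ≤ n) :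
    Module.finrank F (A.prod A) ≤ 2 * n := by
  rw [LinearMap.prod_eq_sup_map]
  refine (Submodule.finrank_add_le_finrank_add_finrank _ _).trans ?_
  have h1 := Submodule.finrank_map_le (LinearMap.inl F V V) A
  have h2 := Submodule.finrank_map_le (LinearMap.inr F V V) A
  omega

lemma card_ky : (Fintype.card (Ky F N) : ℝ) ^ 4 = (qq F ^ N) ^ 12 := by
  simp only [Ky, Fintype.card_fun, Fintype.card_fin, qq]
  push_cast
  ring

end

lemma cd_le (X E Λ π p : ℝ) (cd : ℕ) (hE : 1 ≤ E) (hX : 1 < X) (hEX : E ^ 2 ≤ X)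
    (hΛ : Λ ≤ X ^ 31) (h1 : 1 / (E * X ^ 12) ≤ p) (h2 : p ≤ E ^ cd * π)
    (h3 : π ≤ Λ * (1 / X ^ cd)) : cd ≤ 88 := by
  have hX0 : 0 < X := by linarith
  have hE0 : 0 < E := by linarith
  have hEX' : E ≤ X := le_trans (by nlinarith) hEX
  have h4 : π ≤ X ^ 31 * (1 / X ^ cd) :=
    h3.trans (mul_le_mul_of_nonneg_right hΛ (by positivity))
  have h5 : 1 / (E * X ^ 12) ≤ E ^ cd * (X ^ 31 * (1 / X ^ cd)) :=
    h1.trans (h2.trans (mul_le_mul_of_nonneg_left h4 (by positivity)))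
  have h6 : X ^ cd ≤ E ^ cd * X ^ 44 := by
    rw [div_le_iff₀ (by positivity)] at h5
    have h7 : X ^ cd ≤ E ^ cd * X ^ 43 * E := by
      calc X ^ cd = X ^ cd * 1 := (mul_one _).symm
        _ ≤ X ^ cd * (E ^ cd * (X ^ 31 * (1 / X ^ cd)) * (E * X ^ 12)) :=
          mul_le_mul_of_nonneg_left h5 (by positivity)
        _ = E ^ cd * X ^ 43 * E := by field_simp
    calc X ^ cd ≤ E ^ cd * X ^ 43 * E := h7
      _ ≤ E ^ cd * X ^ 43 * X := mul_le_mul_of_nonneg_left hEX' (by positivity)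
      _ = E ^ cd * X ^ 44 := by ring
  have h8 : X ^ cd * X ^ cd ≤ X ^ cd * X ^ 88 := by
    calc X ^ cd * X ^ cd ≤ (E ^ cd * X ^ 44) * (E ^ cd * X ^ 44) :=
          mul_le_mul h6 h6 (by positivity) (by positivity)
      _ = (E ^ 2) ^ cd * X ^ 88 := by ring
      _ ≤ X ^ cd * X ^ 88 :=
          mul_le_mul_of_nonneg_right (pow_le_pow_left₀ (by positivity) hEX _) (by positivity)
  have h9 : X ^ cd ≤ X ^ 88 := le_of_mul_le_mul_left h8 (by positivity)
  exact (pow_le_pow_iff_right₀ hX).1 h9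

end PC

open PC in
theorem s_pc (hd : S_Dim) (ha : S_Aff) (hl : S_Lin) (h1 : S_PC1) (hc : S_PCd) (h2 : S_PC2)
    (h3 : S_PC3) : S_PC := by
  intro F _ _ _ b k d N j n Λ M E ρ τ S _ _ u s κ θ hS hE hEX hΛ h6 hM hC
  classical
  rw [card_ky] at hC
  set X : ℝ := qq F ^ N with hXdef
  set C : S → Prop := Cell ρ τ u E s κ θ with hCdef
  have hM1 : 1 ≤ M := one_le_of_dens (hS.marg false)
  have hΛ1 : 1 ≤ Λ := one_le_of_dens hS.dens
  have hE0 : 0 < E := by linarith
  have hE90 : 1 ≤ E ^ 90 := one_le_pow₀ hE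
  have hX1 : 1 < X := lt_of_le_of_lt (by nlinarith) hM
  have hX0 : 0 < X := by linarith
  have hCpos : 0 < pr C := lt_of_lt_of_le (by positivity) hC
  have hCex : ∃ σ, C σ := by
    by_contra h
    push Not at h
    rw [pr, E_congr fun σ => ind_neg (h σ), E_const] at hCpos
    exact lt_irrefl _ hCpos
  obtain ⟨-, -, -, -, -, hVC, -, -, -, -, hfr, -⟩ := ha F b k
  have hpf : ∀ (U : Un F b k d N) m i, pf U m i ∈ (Vm F b k d m).prod (Vm F b k d m) :=
    fun U m i => ⟨hfr d N U.1.1 m i, hfr d N U.2.1 m i⟩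
  obtain ⟨B, σ0, hC0, hBB, hcd, hent⟩ := h1 F b k d N S u C E (B0 d s) hE hCex
    (fun m φ hφ => hφ.1) (by
      intro σ σ' hσ hσ' m i
      refine ⟨Submodule.sub_mem _ (hpf _ m i) (hpf _ m i), fun a => ?_⟩
      rw [cmp_sub, cmp_pf, cmp_pf, Pi.sub_apply, sub_eq_zero]
      cases i with
      | none => rfl
      | some i =>
        have e := hσ.2.1.trans hσ'.2.1.symm
        exact congrFun (congrFun (congrFun e a) m) i)
  set Q : S → Prop := fun σ => C σ ∧ ∀ m i, pf (u σ) m i - pf (u σ0) m i ∈ B m with hQdef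
  have hBV : ∀ m, B m ≤ (Vm F b k d m).prod (Vm F b k d m) := fun m φ hφ => (hBB m hφ).1
  obtain ⟨hcd1, hcd2⟩ := hc F b k d N B hBV
  have hπ0 : 0 < pr Q := pr_pos (ω := σ0) ⟨hC0, fun m i => by simp⟩
  have hπΛ : pr Q ≤ Λ * (1 / X ^ cdm d B) := by
    refine le_trans (pr_mono fun σ h => h.2)
      ((hS.dens fun U => ∀ m i, pf U m i - pf (u σ0) m i ∈ B m).trans ?_)
    exact mul_le_mul_of_nonneg_left (hcd1 (u σ0)) (by linarith)
  have h88 : cdm d B ≤ 88 := cd_le X E Λ (pr Q) (pr C) _ hE hX1 hEX hΛ hC hcd hπΛ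
  have hπC : pr C ≤ E ^ 88 * pr Q :=
    hcd.trans (mul_le_mul_of_nonneg_right (pow_le_pow_right₀ hE h88) hπ0.le)
  have hπ1 : 1 / (E ^ 89 * X ^ 12) ≤ pr Q := by
    rw [div_le_iff₀ (by positivity)] at hC ⊢
    calc 1 ≤ pr C * (E * X ^ 12) := hC
      _ ≤ E ^ 88 * pr Q * (E * X ^ 12) := mul_le_mul_of_nonneg_right hπC (by positivity)
      _ = pr Q * (E ^ 89 * X ^ 12) := by ring
  -- the finite sets of functionals
  have hD : ∀ m, ∃ D : Finset (Module.Dual F (Fn F b k × Fn F b k)),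
      D.card ≤ Fintype.card F ^ (2 * n3 b k d) ∧ ∀ a : Module.Dual F (Fn F b k × Fn F b k),
        ∃ a' ∈ D, ∀ v ∈ (Vm F b k d m).prod (Vm F b k d m), a v = a' v := fun m =>
    (hl F).2.2 _ _ _ (finrank_prod_le _ _
      ((Submodule.finrank_mono (hVC d m)).trans ((hd F b k).2.2.2.2 d)))
  choose D hDc hDa using hD
  set P : S → Prop := fun σ => Q σ ∧ ∀ m, B m ≤ AU (u σ) m with hPdef
  have hbad : pr (fun σ => Q σ ∧ ¬ P σ) ≤ pr Q / 2 := by
    have e1 : pr (fun σ => Q σ ∧ ¬ P σ) ≤ pr (fun σ => ∃ m ∈ (univ : Finset (Fin 3)),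
        ∃ a ∈ D m, (∃ φ ∈ B m, a φ ≠ 0) ∧ Q σ ∧ ∀ i, a (pf (u σ) m i) = 0) := by
      refine pr_mono fun σ h => ?_
      obtain ⟨hq, hp⟩ := h
      have : ∃ m, ¬ B m ≤ AU (u σ) m := by
        by_contra hh
        push Not at hh
        exact hp ⟨hq, hh⟩
      obtain ⟨m, hm⟩ := this
      obtain ⟨φ, hφ, hφ'⟩ := SetLike.not_le_iff_exists.1 hm
      obtain ⟨a, ha1, ha2⟩ := Submodule.exists_dual_map_eq_bot_of_notMem hφ' inferInstance
      obtain ⟨a', ha', hag⟩ := hDa m a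
      refine ⟨m, mem_univ _, a', ha', ⟨φ, hφ, ?_⟩, hq, fun i => ?_⟩
      · rw [← hag φ (hBV m hφ)]; exact ha1
      · rw [← hag _ (hpf _ m i)]
        have : a (pf (u σ) m i) ∈ (AU (u σ) m).map a :=
          Submodule.mem_map_of_mem (Submodule.subset_span ⟨i, rfl⟩)
        rw [ha2] at this
        exact this
    have e2 : ∀ m, pr (fun σ => ∃ a ∈ D m, (∃ φ ∈ B m, a φ ≠ 0) ∧ Q σ ∧
        ∀ i, a (pf (u σ) m i) = 0) ≤ qq F ^ (2 * n3 b k d) * (pr Q / E) := by
      intro m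
      refine (pr_exists_le _ _).trans ?_
      have e3 : ∀ a ∈ D m, pr (fun σ => (∃ φ ∈ B m, a φ ≠ 0) ∧ Q σ ∧
          ∀ i, a (pf (u σ) m i) = 0) ≤ pr Q / E := by
        intro a _
        by_cases hφ : ∃ φ ∈ B m, a φ ≠ 0
        · exact (pr_mono fun σ h => h.2).trans (hent m a hφ fun _ => 0)
        · rw [pr, E_congr fun σ => ind_neg fun h => hφ h.1, E_const]
          positivity
      refine (sum_le_card_nsmul _ _ _ e3).trans ?_
      rw [nsmul_eq_mul]
      refine mul_le_mul_of_nonneg_right ?_ (by positivity)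
      exact_mod_cast hDc m
    refine e1.trans ((pr_exists_le _ _).trans ((sum_le_sum fun m _ => e2 m).trans ?_))
    rw [sum_const, card_univ, Fintype.card_fin, nsmul_eq_mul, le_div_iff₀ two_pos]
    have : (3 : ℕ) * (qq F ^ (2 * n3 b k d) * (pr Q / E)) * 2 =
        (6 * qq F ^ (2 * n3 b k d)) / E * pr Q := by
      push_cast; field_simp; ring
    rw [this]
    exact mul_le_of_le_one_left hπ0.le ((div_le_one hE0).2 h6)
  have hP : pr Q / 2 ≤ pr P := by
    have : pr Q ≤ pr P + pr (fun σ => Q σ ∧ ¬ P σ) := by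
      refine le_trans (pr_mono fun σ h => ?_) (pr_or_le _ _)
      by_cases hp : P σ
      · exact Or.inl hp
      · exact Or.inr ⟨h, hp⟩
    linarith
  have hP0 : 0 < pr P := lt_of_lt_of_le (by positivity) hP
  have hPex : ∃ σ, P σ := by
    by_contra h
    push Not at h
    rw [pr, E_congr fun σ => ind_neg (h σ), E_const] at hP0
    exact lt_irrefl _ hP0
  have hP1 : 1 ≤ 2 * E ^ 89 * X ^ 12 * pr P := by
    rw [div_le_iff₀ (by positivity)] at hπ1
    calc 1 ≤ pr Q * (E ^ 89 * X ^ 12) := hπ1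
      _ ≤ 2 * pr P * (E ^ 89 * X ^ 12) :=
        mul_le_mul_of_nonneg_right (by linarith) (by positivity)
      _ = _ := by ring
  have hdiv : ∀ x y : ℝ, 0 ≤ y → x ≤ y → x / pr P ≤ 2 * E ^ 89 * X ^ 12 * y := by
    intro x y hy hxy
    rw [div_le_iff₀ hP0]
    calc x ≤ y := hxy
      _ = 1 * y := (one_mul _).symm
      _ ≤ 2 * E ^ 89 * X ^ 12 * pr P * y := mul_le_mul_of_nonneg_right hP1 hy
      _ = _ := by ring
  have hPC2 : ∀ m r (a : Module.Dual F (Fn F b k)) (v : Ix N → F),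
      (∃ f ∈ Vm F b k d m, (∀ p, f (s (r, p)) = 0) ∧ a f ≠ 0) →
      pr (fun σ => Q σ ∧ ∀ i, a (cmp (pf (u σ) m i) r) = v i) ≤ M * E / X ^ 13 := by
    intro m r a v hf
    refine le_trans (pr_mono fun σ h => ?_)
      (h2 F b k d N S u E M s κ m r a v hE0.le (by linarith) (hS.marg r) hf)
    exact ⟨h.1.1.1.2.2.1, h.1.1.1.2.2.2, h.1.1.2.1, h.2⟩
  have hcmpV : ∀ m, ∀ φ ∈ B m, ∀ r, cmp φ r ∈ Vm F b k d m := by
    intro m φ hφ r
    cases r
    · exact (hBV m hφ).1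
    · exact (hBV m hφ).2
  obtain ⟨σ1, hσ1⟩ := hPex
  refine ⟨{σ // P σ}, inferInstance, ⟨⟨σ1, hσ1⟩⟩, Subtype.val, B, Subtype.val_injective, ?_, ?_⟩
  · rw [← pr_card P, div_le_iff₀ (by positivity)]
    calc pr C ≤ E ^ 88 * pr Q := hπC
      _ ≤ E ^ 88 * (2 * pr P) := mul_le_mul_of_nonneg_left (by linarith) (by positivity)
      _ = _ := by ring
  · refine ⟨fun σ => σ.2.1.1.2.1, fun σ => σ.2.1.1.2.2, fun σ => hS.ty _, fun σ => hS.span _,
      fun σ => σ.2.1.1.1.2.2.2, fun σ σ' m i => ?_, fun σ m => σ.2.2 m,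
      fun m φ hφ => (hBB m hφ).2, hcd2 88 h88, ?_, ?_, ?_, ?_, ?_⟩
    · have := Submodule.sub_mem _ (σ.2.1.2 m i) (σ'.2.1.2 m i)
      rwa [sub_sub_sub_cancel_right] at this
    · intro m r f hf hf0
      by_contra hno
      have hnot : f ∉ (B m).map (cmpL F b k r) := fun h => by
        obtain ⟨φ, hφ, e⟩ := h
        exact hno ⟨φ, hφ, e⟩
      obtain ⟨a, ha1, ha2⟩ := Submodule.exists_dual_map_eq_bot_of_notMem hnot inferInstance
      have e1 := hPC2 m r a (fun i => a (cmp (pf (u σ0) m i) r)) ⟨f, hf, hf0, ha1⟩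
      have e2 : pr Q ≤ M * E / X ^ 13 := by
        refine le_trans (pr_mono fun σ h => ⟨h, fun i => ?_⟩) e1
        rw [← sub_eq_zero, ← map_sub, ← cmp_sub]
        have : a (cmp (pf (u σ) m i - pf (u σ0) m i) r) ∈ ((B m).map (cmpL F b k r)).map a :=
          Submodule.mem_map_of_mem (Submodule.mem_map_of_mem (f := cmpL F b k r) (h.2 m i))
        rw [ha2] at this
        exact this
      have e3 := hπ1.trans e2
      rw [div_le_div_iff₀ (by positivity) (by positivity)] at e3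
      have e4 : X * X ^ 12 ≤ M * E ^ 90 * X ^ 12 := by
        calc X * X ^ 12 = 1 * X ^ 13 := by ring
          _ ≤ M * E * (E ^ 89 * X ^ 12) := e3
          _ = _ := by ring
      have := le_of_mul_le_mul_right e4 (by positivity)
      linarith
    · intro m a hφ v
      rw [pr_subtype P hP0 fun σ => ∀ i, a (pf (u σ) m i) = v i, div_le_iff₀ hP0]
      refine le_trans (pr_mono fun σ h => ⟨h.1.1, h.2⟩) ((hent m a hφ v).trans ?_)
      rw [div_le_iff₀ hE0]
      calc pr Q ≤ 2 * pr P := by linarith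
        _ = _ := by field_simp
    · intro m r a hφ v
      obtain ⟨φ, hφ, ha1⟩ := hφ
      rw [pr_subtype P hP0 fun σ => ∀ i, a (cmp (pf (u σ) m i) r) = v i]
      refine (hdiv _ (M * E / X ^ 13) (by positivity) ?_).trans (le_of_eq ?_)
      · exact le_trans (pr_mono fun σ h => ⟨h.1.1, h.2⟩)
          (hPC2 m r a v ⟨cmp φ r, hcmpV m φ hφ r, fun p => (hBB m hφ).2 (r, p), ha1⟩)
      · field_simp
    · intro A
      rw [pr_subtype P hP0 fun σ => A (u σ)]
      have := pr_nonneg A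
      refine (hdiv _ (Λ * pr A) (by positivity) ?_).trans (le_of_eq (by ring))
      exact le_trans (pr_mono fun σ h => h.2) (hS.dens A)
    · intro f c hc0 hf0 hsl hfc
      rw [E_subtype P hP0 fun σ => f (u σ)]
      refine (hdiv _ (2 * E * c / X ^ 12) (by positivity) ?_).trans (le_of_eq ?_)
      · exact h3 F b k d N S u E s κ P f c hE0.le hc0 hf0 hsl
          (fun σ h => ⟨h.1.1.1.1, h.1.1.1.2.1, h.1.1.2.1⟩) hfc
      · field_simp
        ring

end Vale.Agent.P060
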