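import Vale.Agent.P015.Ent
import Vale.Agent.P060.Minor

/-! Part A: reduction to supersaturation (containers), finite field facts and abstract
probability lemmas.  All probability spaces are finite and uniform (`pr`, `ind`, `𝔼` of
`Vale.Agent.P015`). -/

namespace Vale.Agent.P060

open Finset Vale.Agent.P015
open scoped BigOperators

/-- Two pairs conflict when all four cross pairs are holes. -/
def Conf {Ω : Type} (H : Ω → Ω → Prop) (e e' : Ω × Ω) : Prop :=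
  H e.1 e'.1 ∧ H e.1 e'.2 ∧ H e.2 e'.1 ∧ H e.2 e'.2

/-- The law of `u` has density at most `L` with respect to the uniform measure. -/
def Dens {S Ω : Type} [Fintype S] [Fintype Ω] (u : S → Ω) (L : ℝ) : Prop :=
  ∀ A : Ω → Prop, pr (fun s => A (u s)) ≤ L * pr A

/-- Supersaturation. -/
def SS {Ω : Type} [Fintype Ω] (H : Ω → Ω → Prop) (Λ M γ : ℝ) : Prop :=
  ∀ (S : Type) [Fintype S] [Nonempty S] (u : S → Ω × Ω), (∀ s, ¬ H (u s).1 (u s).2) →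
    Dens u Λ → Dens (fun s => (u s).1) M → Dens (fun s => (u s).2) M →
    γ ≤ pr (fun p : S × S => Conf H (u p.1) (u p.2))

/-- A connected matching of size `n` in the complement of the hole graph on the sample `x`. -/
def CM {Ω : Type} (H : Ω → Ω → Prop) {m : ℕ} (x : Fin m → Ω) (n : ℕ) : Prop :=
  ∃ a b : Fin n → Fin m, Function.Injective (Sum.elim a b) ∧ (∀ l, ¬ H (x (a l)) (x (b l))) ∧
    ∀ l l', l ≠ l' → ¬ Conf H (x (a l), x (b l)) (x (a l'), x (b l'))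

/-- A set of pairs carries a spread probability measure. -/
def Feas {Ω : Type} [Fintype Ω] (Λ M : ℝ) (A : Ω × Ω → Prop) : Prop :=
  ∃ (n : ℕ) (u : Fin (n + 1) → Ω × Ω), (∀ s, A (u s)) ∧ Dens u Λ ∧
    Dens (fun s => (u s).1) M ∧ Dens (fun s => (u s).2) M

/-- A counterexample to Hadwiger. -/
def CounterEx : Prop :=
  ∃ (m : ℕ) (G : SimpleGraph (Fin m)) (t : ℕ), 0 < m ∧ 1 ≤ t ∧ ¬ HasKMinor G (t + 1) ∧
    ¬ G.Colorable t

def TriFree {Ω : Type} (H : Ω → Ω → Prop) : Prop :=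
  (∀ x y, H x y → H y x) ∧ ∀ x y z, H x y → H y z → H x z → False

def S_Red : Prop :=
  ∀ (Ω : Type) (H : Ω → Ω → Prop) (m n : ℕ) (x : Fin m → Ω), TriFree H → 1 ≤ n → 8 * n ≤ m →
    ¬ CM H x n → CounterEx

def S_Term : Prop :=
  ∀ (Ω : Type) [Fintype Ω] [Nonempty Ω] (Λ M : ℝ) (A : Ω × Ω → Prop), 0 < Λ → 0 < M →
    Λ ≤ M * Fintype.card Ω → ¬ Feas Λ M A →
    ∃ (T : Ω → Prop) (A' : Ω × Ω → Prop), pr T ≤ 4 / M ∧ pr A' ≤ 1 / Λ ∧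
      ∀ e, A e → T e.1 ∨ T e.2 ∨ A' e

def S_Cont : Prop :=
  ∀ (Ω : Type) [Fintype Ω] [Nonempty Ω] (H : Ω → Ω → Prop) (Λ M γ : ℝ) (s : ℕ), TriFree H →
    1 ≤ Λ → 0 < γ → 3 * Real.log Λ / γ + 1 ≤ s → SS H Λ M γ →
    ∃ Ct : List (Ω × Ω) → Ω × Ω → Prop, (∀ l, ¬ Feas Λ M (Ct l)) ∧
      ∀ I : Ω × Ω → Prop, (∀ e, I e → ¬ H e.1 e.2) → (∀ e e', I e → I e' → ¬ Conf H e e') →
        ∃ l : List (Ω × Ω), l.length ≤ s ∧ (∀ e ∈ l, I e) ∧ ∀ e, I e → Ct l e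

def S_UB : Prop :=
  ∀ (Ω : Type) [Fintype Ω] [Nonempty Ω] (H : Ω → Ω → Prop) (p1 p2 : ℝ) (m n s n1 : ℕ)
    (T : List (Ω × Ω) → Ω → Prop) (A : List (Ω × Ω) → Ω × Ω → Prop), TriFree H →
    (∀ l, pr (T l) ≤ p1) → (∀ l, pr (A l) ≤ p2) → 2 * n1 + s ≤ n →
    (∀ I : Ω × Ω → Prop, (∀ e, I e → ¬ H e.1 e.2) → (∀ e e', I e → I e' → ¬ Conf H e e') →
        ∃ l : List (Ω × Ω), l.length ≤ s ∧ (∀ e ∈ l, I e) ∧
          ∀ e, I e → T l e.1 ∨ T l e.2 ∨ A l e) →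
    ((m : ℝ) ^ 2 + 1) ^ s * 2 ^ m * (p1 ^ n1 + (m * p2) ^ n1) < 1 →
    ∃ x : Fin m → Ω, ¬ CM H x n

def S_AMain : Prop :=
  ∀ (Ω : Type) [Fintype Ω] [Nonempty Ω] (H : Ω → Ω → Prop) (X : ℕ), TriFree H → 2 ^ 11 ≤ X →
    X ^ 30 ≤ Fintype.card Ω → SS H ((X : ℝ) ^ 30) (2 ^ 100) (1 / (X : ℝ) ^ 14) → CounterEx

/-! ### The field -/

/-- A nontrivial real additive character. -/
structure Chi {F : Type} [Field F] (χ : F → ℝ) : Prop where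
  zero : χ 0 = 1
  add : ∀ a b, χ (a + b) = χ a * χ b
  nontriv : ∃ a, χ a ≠ 1

/-- The sum-free set. -/
def SigOK {F : Type} [Field F] [Fintype F] (Sg : F → Prop) (θ : ℝ) : Prop :=
  (∀ a b c, Sg a → Sg b → Sg c → a + b + c ≠ 0) ∧ (∀ c, ¬ Sg c → ∃ σ, Sg σ ∧ Sg (c + σ)) ∧
    pr (fun p : F × F => ¬ ∃ σ, Sg σ ∧ Sg (p.1 + σ) ∧ Sg (p.2 + σ)) ≤ θ

def S_Sig : Prop :=
  ∀ e : ℕ, ∃ (F : Type) (_ : Field F) (_ : Fintype F) (_ : CharP F 2) (Sg : F → Prop),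
    Fintype.card F = 2 ^ (120 * e + 1) ∧ SigOK Sg (3 / 8 ^ e)

/-- Existence of the character and the orthogonality relations. -/
def S_Chi : Prop :=
  ∀ (F : Type) [Field F] [Fintype F] [DecidableEq F] [CharP F 2],
    (∃ χ : F → ℝ, Chi χ) ∧ ∀ χ : F → ℝ, Chi χ → (∀ a, χ a = 1 ∨ χ a = -1) ∧
      (∀ a : F, 𝔼 x : F, χ (a * x) = ind (a = 0)) ∧
      ∀ (ι : Type) [Fintype ι] [DecidableEq ι] (v : ι → F),
        𝔼 ξ : ι → F, χ (ξ ⬝ᵥ v) = ind (v = 0)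

/-- A surjective linear map pushes the uniform measure to the uniform measure; counting of
subspaces and duals. -/
def S_Lin : Prop :=
  ∀ (F : Type) [Field F] [Fintype F],
    (∀ (V W : Type) [AddCommGroup V] [Module F V] [Fintype V] [AddCommGroup W] [Module F W]
      [Fintype W] (L : V →ₗ[F] W), Function.Surjective L → Law (fun v => L v) (fun w : W => w)) ∧
    (∀ (V : Type) [AddCommGroup V] [Module F V] [Fintype V] (ι : Type) [Fintype ι]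
      [DecidableEq ι] (W : ι → Type) [∀ i, AddCommGroup (W i)] [∀ i, Module F (W i)]
      (L : ∀ i, V →ₗ[F] W i),
      (∀ i v, ∃ v', L i v' = L i v ∧ ∀ i', i' ≠ i → L i' v' = 0) →
      ∀ (A : ∀ i, W i → Prop) (J : Finset ι),
        pr (fun v => ∀ i ∈ J, A i (L i v)) = ∏ i ∈ J, pr (fun v => A i (L i v))) ∧
    (∀ (V : Type) [AddCommGroup V] [Module F V] [Module.Finite F V] (A : Submodule F V) (n : ℕ),
      Module.finrank F A ≤ n → ∃ D : Finset (Module.Dual F V),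
        D.card ≤ Fintype.card F ^ n ∧ ∀ a : Module.Dual F V, ∃ a' ∈ D, ∀ v ∈ A, a v = a' v)

/-! ### Abstract probability lemmas -/

def S_Rare : Prop :=
  ∀ (S Ω Pos : Type) [Fintype S] [Nonempty S] [Fintype Ω] [Fintype Pos] [Nonempty Pos]
    (u : S → Ω) (Λ p δ : ℝ) (L n : ℕ) (bad : Pos → Ω → Prop) (gp : (Fin L → Pos) → Ω → Prop),
    0 < L → 0 ≤ Λ → 0 ≤ p → Dens u Λ → 𝔼 ζ : Fin L → Pos, pr (fun σ => ¬ gp ζ (u σ)) ≤ δ →
    (∀ (ζ : Fin L → Pos) (J : Finset (Fin L)),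
      pr (fun ω => gp ζ ω ∧ ∀ l ∈ J, bad (ζ l) ω) ≤ p ^ J.card) →
    𝔼 s : Pos, pr (fun σ => bad s (u σ)) ≤ n / L + Λ * 2 ^ L * p ^ n + δ

def S_Seq : Prop :=
  ∀ (ι S : Type) [Fintype ι] [DecidableEq ι] [LinearOrder ι] [Fintype S] [Nonempty S]
    (E : ι → (ι → S) → Prop) (p : ℝ), 0 ≤ p →
    (∀ l σ σ', (∀ l', l' ≤ l → σ l' = σ' l') → E l σ → E l σ') →
    (∀ l σ, pr (fun t => E l (Function.update σ l t)) ≤ p) →
    ∀ J : Finset ι, pr (fun σ => ∀ l ∈ J, E l σ) ≤ p ^ J.card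

/-- Hoelder step of the extractor. -/
def S_Hol : Prop :=
  ∀ (F : Type) [Field F] [Fintype F] [DecidableEq F] [CharP F 2] (χ : F → ℝ), Chi χ →
    ∀ (S S' Ω ι : Type) [Fintype S] [Nonempty S] [Fintype S'] [Nonempty S'] [Fintype Ω]
      [Fintype ι] [DecidableEq ι] (v : S' → Ω) (Λ : ℝ) (M : Ω → ι → F)
      (upd : Ω → (ι → F) → Ω) (Θ : S → ι → F) (h : S → Ω → ℝ) (m : ℕ), 0 < m → 0 ≤ Λ →
      Dens v Λ → (∀ f : Ω → ℝ, 𝔼 ω, f ω = 𝔼 ω, 𝔼 T : ι → F, f (upd ω T)) →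
      (∀ ω T, M (upd ω T) = T) → (∀ σ ω T, h σ (upd ω T) = h σ ω) → (∀ σ ω, |h σ ω| ≤ 1) →
      (𝔼 σ', 𝔼 σ, h σ (v σ') * χ (M (v σ') ⬝ᵥ Θ σ)) ^ (2 * m) ≤
        Λ * pr (fun σ : Fin (2 * m) → S => ∑ l, Θ (σ l) = 0)

/-- Conditional probability that `X = x` given the value of `c` at `σ`. -/
noncomputable def cp {S O α : Type} [Fintype S] (c : S → O) (X : S → α) (σ : S) (x : α) : ℝ :=
  pr (fun σ' => c σ' = c σ ∧ X σ' = x) / pr (fun σ' => c σ' = c σ)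

/-- Pinsker type inequality. -/
def S_Pin : Prop :=
  ∀ (S O α : Type) [Fintype S] [Nonempty S] [Fintype α] (c : S → O) (X : S → α)
    (π : O → α → ℝ) (K : ℝ), (∀ o x, 0 ≤ π o x) → (∀ o, ∑ x, π o x = 1) →
    (∀ σ, 0 < π (c σ) (X σ)) → (𝔼 σ, -Real.log (π (c σ) (X σ))) - cent X c ≤ K →
    𝔼 σ, ∑ x, max (π (c σ) x - cp c X σ x) 0 ≤ √K

/-- Energy increment. -/
def S_EI : Prop :=
  ∀ (S T K : Type) [Fintype S] [Fintype T] [Fintype K] [Nonempty K] (v : S → T → K → ℝ)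
    (E0 : S → Prop) (B η : ℝ), 0 < η → η ≤ 1 → 1 / 2 ≤ pr E0 →
    (∀ σ, ∑ t, 𝔼 κ, v σ t κ ^ 2 ≤ B) →
    ∃ E : S → Prop, (∀ σ, E σ → E0 σ) ∧ Real.exp (-(B + 1) / η ^ 2) ≤ pr E ∧
      ∀ (t : T) (e : K → ℝ), 𝔼 κ, e κ ^ 2 ≤ 1 →
        𝔼 σ, ind (E σ) * |𝔼 κ, (v σ t κ - (𝔼 σ', ind (E σ') * v σ' t κ) / pr E) * e κ|
          ≤ η * pr E

end Vale.Agent.P060
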