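import Vale.Agent.P060.Defs

/-! Part B: statements on polynomial spaces, the model, entropy, Fourier analysis and labels. -/

namespace Vale.Agent.P060

open Finset Vale.Agent.P015
open scoped BigOperators

/-- The size of the field as a real number. -/
noncomputable abbrev qq (F : Type) [Fintype F] : ℝ := Fintype.card F

/-- Bound for the dimension of the code. -/
def n3 (b k d : ℕ) : ℕ := (3 * d + 2) ^ (b + 1) * (k + 2)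
/-- Exponent for the number of low rank functionals. -/
def lrE (b k d j : ℕ) : ℕ := (b + 1) ^ 2 + (k + 2) * (3 * d + 2) ^ ((k + 2) * j ^ 3)

def S_Dim : Prop :=
  ∀ (F : Type) [Field F] [Fintype F] [DecidableEq F] (b k : ℕ),
    (∀ (E : Submodule F (Fn F b k)) (c e : ℕ), Module.finrank F E ≤ c →
      Module.finrank F (E ^ e : Submodule F (Fn F b k)) ≤ (e + 1) ^ c) ∧
    (∀ E E' : Submodule F (Fn F b k), Module.finrank F (E * E' : Submodule F (Fn F b k)) ≤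
      Module.finrank F E * Module.finrank F E') ∧
    Module.finrank F (P1 F b k) ≤ b + 1 ∧ Module.finrank F (U1 F b k) ≤ k + 2 ∧
    ∀ d, Module.finrank F (Cd F b k d) ≤ n3 b k d

def S_Aff : Prop :=
  ∀ (F : Type) [Field F] [Fintype F] [DecidableEq F] (b k : ℕ),
    (∀ e, ∀ f ∈ P1 F b k ^ e, ∀ s : Zt F b k, f s = f (s.1, 0)) ∧
    (∀ e, ∀ f ∈ P1 F b k ^ e * U1 F b k, ∀ s : Zt F b k, f s = ev (co f s.1) s.2) ∧
    (∀ e e', e ≤ e' → P1 F b k ^ e ≤ P1 F b k ^ e') ∧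
    (∀ e, P1 F b k ^ e ≤ P1 F b k ^ e * U1 F b k) ∧
    (∀ d m, P1 F b k ^ d ≤ Vm F b k d m) ∧ (∀ d m, Vm F b k d m ≤ Cd F b k d) ∧
    (∀ d, Vm F b k d 0 * Vm F b k d 1 * Vm F b k d 2 = Cd F b k d) ∧
    (∀ d, Vm F b k d 1 * Vm F b k d 2 = P1 F b k ^ (2 * d + 1) * U1 F b k) ∧
    (∀ d, U1 F b k ≤ Cd F b k d ∧ P1 F b k ≤ Cd F b k d) ∧
    (∀ s s' : Zt F b k, s.1 ≠ s'.1 → ∃ g ∈ P1 F b k, g s = 1 ∧ g s' = 0) ∧
    (∀ d N (X : Fr F b k d N) m i, fr X m i ∈ Vm F b k d m) ∧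
    (∀ d N (X : Fr F b k d N) (M : Tn F N), wt M X ∈ Cd F b k d) ∧
    (∀ d N (X : Fr F b k d N) (M : Tn F N) (S : Fn F b k), S ⬝ᵥ wt M X = M ⬝ᵥ Th X S) ∧
    (∀ d N (X : Fr F b k d N), Span X → ∀ f ∈ Cd F b k d, ∃ M : Tn F N, wt M X = f)

def S_TG : Prop :=
  ∀ (F : Type) [Field F] [Fintype F] [DecidableEq F] (b k t n e : ℕ), 1 ≤ t → 1 ≤ n → n ≤ b →
    b * (t - 1) ≤ e → TGp F b k e (t ^ n) (2 ^ b * (t / qq F) ^ (b + 1 - n))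

def S_GP : Prop :=
  ∀ (F : Type) [Field F] [Fintype F] [DecidableEq F] (b k e Lm : ℕ) (δ : ℝ), TGp F b k e Lm δ →
    ∀ (ι κ : Type) [Fintype ι] [DecidableEq ι] [Fintype κ] (a : κ → Module.Dual F (Fn F b k)),
      Fintype.card κ + Fintype.card ι ≤ Lm →
      pr (fun ζ : ι → Fin b → F => ¬ Sep (fun f => f ∈ P1 F b k ^ e ∧ ∀ i, a i f = 0) ζ) ≤
        Fintype.card ι * δ

def S_SZ : Prop :=
  ∀ (F : Type) [Field F] [Fintype F] [DecidableEq F] (b k d : ℕ), ∀ f ∈ Cd F b k d, ∀ v : F,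
    (∃ s, f s ≠ v) → pr (fun s => f s = v) ≤ (3 * d + 2) / qq F

def RepOK {F : Type} [Field F] [Fintype F] [DecidableEq F] {b k : ℕ} (d j : ℕ)
    (Rep : Finset (Fn F b k)) : Prop :=
  Rep.card ≤ Fintype.card F ^ lrE b k d j ∧
    ∀ S, LowRk d j S → ∃ S0 ∈ Rep, ∀ φ ∈ Cd F b k d, S ⬝ᵥ φ = S0 ⬝ᵥ φ

def S_LR : Prop :=
  ∀ (F : Type) [Field F] [Fintype F] [DecidableEq F] (b k d j : ℕ),
    ∃ Rep : Finset (Fn F b k), RepOK d j Rep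

def S_ND : Prop :=
  ∀ (F : Type) [Field F] [Fintype F] [DecidableEq F] [CharP F 2] (b k d j Lm : ℕ) (δ1 : ℝ),
    TGp F b k (d - 1) Lm δ1 → δ1 ≤ qq F / qq F ^ k → lrE b k d j + 2 ≤ Lm →
    ∃ ρ : Zt F b k → Fn F b k, RhoOK d j (2 * qq F / qq F ^ k) ρ

def S_Tri : Prop :=
  ∀ (F : Type) [Field F] [Fintype F] [DecidableEq F] [CharP F 2] (b k d N : ℕ)
    (ρ : Zt F b k → Fn F b k) (Sg : F → Prop), (∀ s s', ρ s s' = ρ s' s) →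
    (∀ a b c, Sg a → Sg b → Sg c → a + b + c ≠ 0) →
    TriFree (Hole (d := d) (N := N) ρ Sg)

def S_Span : Prop :=
  ∀ (F : Type) [Field F] [Fintype F] [DecidableEq F] (b k d N j : ℕ),
    pr (fun x : Vx F b k d N => ¬ Span x.1) ≤ 3 * qq F ^ n3 b k d / qq F ^ N ∧
    pr (fun U : Un F b k d N => ¬ Cod U j) ≤
      3 * qq F ^ (2 * n3 b k d * (j + 1)) / qq F ^ (N * (j + 1))

def S_Ty1 : Prop :=
  ∀ (F : Type) [Field F] [Fintype F] [DecidableEq F] [CharP F 2] (b k d N j : ℕ) (δ : ℝ)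
    (ρ : Zt F b k → Fn F b k) (Sg : F → Prop) (Rep : Finset (Fn F b k)) (U : Un F b k d N),
    RhoOK d j δ ρ → RepOK d j Rep → (∀ r, Span (vx U r).1) → Cod U j → ¬ Hole ρ Sg U.1 U.2 →
    ∃ n ≤ j ^ 3, ∃ τ : Ty F b k n, (∀ r l, τ.S r l ∈ Rep) ∧ HasTy ρ τ U ∧ TyOK d j Sg τ

def S_WU : Prop :=
  ∀ (F : Type) [Field F] [Fintype F] [DecidableEq F] (b k d N : ℕ) (ι : Type) [Fintype ι]
    [DecidableEq ι],
    (∀ (ζ : ι → Fin b → F) (x : Vx F b k d N), Sep (fun f => f ∈ P1 F b k ^ d) ζ → Span x.1 →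
      pr (fun x' : Vx F b k d N => ∀ l, Wd x' (ζ l) = Wd x (ζ l)) ≤
        1 / (Fintype.card (Wt F k N) : ℝ) ^ Fintype.card ι) ∧
    ∀ s : ι → Zt F b k, Sep (fun f => f ∈ P1 F b k ^ d) (fun l => (s l).1) →
      Law (fun x : Vx F b k d N => fun l => ky x.1 (s l)) (fun κ : ι → Ky F N => κ)

def S_Tok : Prop :=
  ∀ (F : Type) [Field F] [Fintype F] [DecidableEq F] (b k d N j n : ℕ) (δ : ℝ)
    (ρ : Zt F b k → Fn F b k) (τ : Ty F b k n), RhoOK d j δ ρ →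
    (∀ (U : Un F b k d N) (r : Bool) (s : Zt F b k),
      ky (vx U r).1 s = keyW (Wd (vx U r) s.1) s.2 ∧
      lab ρ τ U r s = labW (lam ρ τ r) s (Wd (vx U r) s.1) (Yd U r s.1)) ∧
    ∀ Sg : F → Prop, TyOK d j Sg τ → 1 / qq F ^ (k + 1) ≤ δ → ∀ r, LaOK (lam ρ τ r) δ

def S_AK : Prop :=
  ∀ (F : Type) [Field F] [Fintype F] [DecidableEq F] (b k N n : ℕ)
    (La : (Fin b → F) → Co F k → Lx n → Co F k) (K : (Fin b → F) → Wt F k N → Co F k → ℝ),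
    (∀ (s : Zt F b k) (h : Ky F N → Lb F n → ℝ), 𝔼 κ, ∑ θ, aK La K s κ θ * h κ θ =
      𝔼 w, ∑ y, K s.1 w y * h (keyW w s.2) (labW La s w y)) ∧
    ((∀ z w y, 0 ≤ K z w y) → ∀ s κ θ, 0 ≤ aK La K s κ θ) ∧
    ((∀ z w, ∑ y, K z w y ≤ 1) → ∀ s κ, ∑ θ, aK La K s κ θ ≤ 1) ∧
    ((∀ z w, ∑ y, K z w y = 1) → ∀ s κ, ∑ θ, aK La K s κ θ = 1)

/-! ### Correlation rounding -/

def S_CR1 : Prop :=
  ∀ (S O O' Z W Y : Type) [Fintype S] [Nonempty S] [Fintype W] [Nonempty W] [Fintype Y]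
    [Nonempty Y] [DecidableEq W] [DecidableEq Y] (c : S → O) (Wf : Bool → Z → S → W)
    (Yf : Bool → Z → S → Y) (z : BB → Z) (c' : BB → S → O'),
    (∀ a σ σ', c' a σ = c' a σ' → c σ = c σ' ∧ ∀ a', a' ≠ a →
      Wf a'.1 (z a') σ = Wf a'.1 (z a') σ' ∧ Yf a'.1 (z a') σ = Yf a'.1 (z a') σ') →
    𝔼 σ, tv c Wf Yf z σ ≤ √(∑ a : BB,
      (Real.log (Fintype.card W) - cent (Wf a.1 (z a)) (c' a) +
        cent (Yf a.1 (z a)) (fun σ => (c σ, Wf a.1 (z a) σ)) -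
        cent (Yf a.1 (z a)) (fun σ => (c' a σ, Wf a.1 (z a) σ))))

/-- The context map. -/
def ctx {S Z W Y ι : Type} (Wf : Bool → Z → S → W) (Yf : Bool → Z → S → Y) (ζ : Bool → ι → Z)
    (σ : S) : Bool → ι → W × Y := fun r l => (Wf r (ζ r l) σ, Yf r (ζ r l) σ)

/-- Hypotheses of correlation rounding. -/
structure CRH {S Z W : Type} [Fintype S] [Fintype Z] [Fintype W] (Wf : Bool → Z → S → W)
    (gp : ∀ ι : Type, (ι → Z) → Prop) (Λ M δ : ℝ) (Lm : ℕ) : Prop where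
  one : 1 ≤ Λ ∧ 1 ≤ M ∧ 0 ≤ δ
  gen : ∀ (ι : Type) [Fintype ι] [DecidableEq ι], Fintype.card ι ≤ Lm →
    pr (fun ζ : ι → Z => ¬ gp ι ζ) ≤ Fintype.card ι * δ
  d1 : ∀ (r : Bool) (ι : Type) [Fintype ι] (ζ : ι → Z), gp ι ζ → ∀ σ0,
    pr (fun σ => ∀ l, Wf r (ζ l) σ = Wf r (ζ l) σ0) ≤ M / (Fintype.card W : ℝ) ^ Fintype.card ι
  d2 : ∀ (r : Bool) (ι ι' : Type) [Fintype ι] [Fintype ι'] (ζ : ι → Z) (ζ' : ι' → Z), gp ι ζ →
    gp ι' ζ' → ∀ σ0, pr (fun σ => (∀ l, Wf r (ζ l) σ = Wf r (ζ l) σ0) ∧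
      ∀ l, Wf (!r) (ζ' l) σ = Wf (!r) (ζ' l) σ0) ≤
      Λ / (Fintype.card W : ℝ) ^ (Fintype.card ι + Fintype.card ι')

def S_CR2 : Prop :=
  ∀ (S Z W Y : Type) [Fintype S] [Nonempty S] [Fintype Z] [Nonempty Z] [Fintype W] [Nonempty W]
    [Fintype Y] [Nonempty Y] (Wf : Bool → Z → S → W) (Yf : Bool → Z → S → Y)
    (gp : ∀ ι : Type, (ι → Z) → Prop) (Λ M δ : ℝ) (Lm L J : ℕ) (r : Bool), CRH Wf gp Λ M δ Lm →
    0 < L → J + L ≤ Lm → L * J ≤ Lm →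
    𝔼 ζ : Bool → Fin J → Z, 𝔼 z : Z, (Real.log (Fintype.card W) - cent (Wf r z) (ctx Wf Yf ζ)) ≤
      (Real.log M + 2 * J * Real.log (Fintype.card Y) + Real.log Λ / L) / L +
        2 * Lm * δ * Real.log (Fintype.card W)

def S_CR : Prop :=
  ∀ (S Z W Y : Type) [Fintype S] [Nonempty S] [Fintype Z] [Nonempty Z] [Fintype W] [Nonempty W]
    [Fintype Y] [Nonempty Y] [DecidableEq W] [DecidableEq Y] (Wf : Bool → Z → S → W)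
    (Yf : Bool → Z → S → Y) (gp : ∀ ι : Type, (ι → Z) → Prop) (Λ M δ η : ℝ) (Lm L J0 : ℕ),
    CRH Wf gp Λ M δ Lm → 0 < L → 0 < J0 → 2 * J0 + L ≤ Lm → L * (2 * J0) ≤ Lm → 0 ≤ η →
    4 * Real.log (Fintype.card Y) / J0 +
      4 * ((Real.log M + 4 * J0 * Real.log (Fintype.card Y) + Real.log Λ / L) / L +
        2 * Lm * δ * Real.log (Fintype.card W)) ≤ η ^ 2 →
    ∃ (O : Type) (c : S → O), 𝔼 z : BB → Z, 𝔼 σ, tv c Wf Yf z σ ≤ η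

/-! ### Fourier analysis of labels -/

/-- Fourier coefficient of the restriction of `g` to the affine subspace `R`. -/
noncomputable def fh {F : Type} [Field F] [Fintype F] [DecidableEq F] {k N : ℕ} (χ : F → ℝ)
    (g : (Fin N → F) → ℝ) (R : Fin N → Co F k) (ζ : Fin (k + 1) → F) : ℝ :=
  𝔼 u : Fin (k + 1) → F, g (fun i => ev (R i) u) * χ (ζ ⬝ᵥ u)

def S_EL : Prop :=
  ∀ (F : Type) [Field F] [Fintype F] [DecidableEq F] [CharP F 2] (χ : F → ℝ), Chi χ →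
    ∀ (k N : ℕ) (g g' : (Fin N → F) → ℝ) (l l' : F) (Λ : Fin (k + 1) → F), (∀ x, |g x| ≤ 1) →
      (∀ x, |g' x| ≤ 1) → l ≠ 0 → l' ≠ 0 →
      𝔼 R : Fin N → Co F k, ∑ ζ, fh χ g R (l • ζ) ^ 2 * fh χ g' R (l' • (ζ + Λ)) ^ 2 ≤
        ind (Λ = 0) + 3 / qq F ^ k

/-- Total mass of a kernel. -/
noncomputable def mass {Z W Y : Type} [Fintype Z] [Fintype W] [Fintype Y] (K : Z → W → Y → ℝ) :
    ℝ := 𝔼 z, 𝔼 w, ∑ y, K z w y

def S_Off : Prop :=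
  ∀ (F : Type) [Field F] [Fintype F] [DecidableEq F] [CharP F 2] (χ : F → ℝ), Chi χ →
    ∀ (b k N n : ℕ) (La : (Fin b → F) → Co F k → Lx n → Co F k)
      (K : (Fin b → F) → Wt F k N → Co F k → ℝ) (δ : ℝ)
      (D : (Fin b → F) → Wt F k N → Co F k → Prop), Kern K → LaOK La δ →
      (∀ ξ : Lb F n, ξ.2 = 0 → ξ.1 ≠ 0 →
        𝔼 κ, fc χ La (rs K D) ξ κ ^ 2 ≤ √(δ + 3 / qq F ^ k)) ∧
      ∀ (η : ℝ) (ξ : Lb F n), 0 < η → ξ.2 ≠ 0 → η ^ 2 < 𝔼 κ, fc χ La (rs K D) ξ κ ^ 2 →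
        ∃ D' : (Fin b → F) → Wt F k N → Co F k → Prop, (∀ z w y, D' z w y → D z w y) ∧
          η ^ 2 / 2 ≤ mass (rs K D') ∧ ∀ ξ' : Lb F n, ξ'.2 ≠ 0 → ξ'.2⁻¹ • ξ'.1 ≠ ξ.2⁻¹ • ξ.1 →
            𝔼 κ, fc χ La (rs K D') ξ' κ ^ 2 ≤ 2 / η ^ 2 * √(δ + 3 / qq F ^ k)

def S_Part : Prop :=
  ∀ (F : Type) [Field F] [Fintype F] [DecidableEq F] [CharP F 2] (χ : F → ℝ), Chi χ →
    ∀ (b k N n : ℕ) (La : (Fin b → F) → Co F k → Lx n → Co F k)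
      (K : (Fin b → F) → Wt F k N → Co F k → ℝ) (δ η : ℝ), Kern K → LaOK La δ → 0 < η → η ≤ 1 →
      δ + 3 / qq F ^ k ≤ η ^ 16 / 2 ^ 30 →
      ∃ part : (Fin b → F) → Wt F k N → Co F k → Lx n → F, ∀ (c : Lx n → F) (ξ : Lb F n),
        ξ.1 ≠ ξ.2 • c → 𝔼 κ, fc χ La (rs K fun z w y => part z w y = c) ξ κ ^ 2 ≤ η ^ 2

def S_Inv : Prop :=
  ∀ (F : Type) [Field F] [Fintype F] [DecidableEq F] [CharP F 2] (χ : F → ℝ), Chi χ →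
    ∀ (b k N n : ℕ) (La : (Fin b → F) → Co F k → Lx n → Co F k)
      (K : (Fin b → F) → Wt F k N → Co F k → ℝ) (η : ℝ) (c : Lx n → F),
      (∀ ξ : Lb F n, ξ.1 ≠ ξ.2 • c → 𝔼 κ, fc χ La K ξ κ ^ 2 ≤ η ^ 2) → ∀ θ : Lb F n,
      𝔼 κ, (abar La K κ θ - gK La K c (res c θ) κ / qq F ^ (n + 2)) ^ 2 ≤ η ^ 2

/-! ### Label algebra -/

def S_LA1 : Prop :=
  ∀ (F : Type) [Field F] [CharP F 2] (n : ℕ) (Sg : F → Prop) (α : Fin n → F)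
    (at' : BB → (Lx n → F) × F), (∃ σ, Sg σ) →
    (∀ p, ∃ l, (at' (false, p)).1 (Sum.inl l) ≠ (at' (true, p)).1 (Sum.inl l)) → Solv Sg α at'

def S_LA2 : Prop :=
  ∀ (F : Type) [Field F] [Fintype F] [CharP F 2] (n : ℕ) (Sg : F → Prop) (θ : ℝ) (α : Fin n → F)
    (bt : Bool → (Lx n → F) × F), SigOK Sg θ → θ < 1 / 2 →
    (∀ l, (bt false).1 (Sum.inl l) = (bt true).1 (Sum.inl l)) →
    ¬ (NH α (bt false).1 ∧ NH α (bt true).1) → Solv Sg α (fun a => bt a.1)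

def S_LA3 : Prop :=
  ∀ (F : Type) [Field F] [CharP F 2] (n : ℕ) (Sg : F → Prop) (α : Fin n → F) (c : Lx n → F)
    (v : BB → F) (σ : F), NH α c → Sg σ → Sg (v (false, false) + v (true, false) + σ) →
    Sg (v (false, true) + v (true, true) + σ) → Solv Sg α (fun a => (c, v a))

def S_Sel : Prop :=
  ∀ (F : Type) [Field F] [Fintype F] [DecidableEq F] [CharP F 2] (n : ℕ) (K : Type) [Fintype K]
    [Nonempty K] (Sg : F → Prop) (θ R : ℝ) (α : Fin n → F) (fl : Bool → (Fin n → F) → Option F)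
    (g : Bool → (Lx n → F) → F → K → ℝ), SigOK Sg θ → 1 ≤ R → θ * R ^ 2 ≤ 1 / 100 →
    (∀ r c v κ, 0 ≤ g r c v κ) → (∀ r κ, ∑ c, ∑ v, g r c v κ = 1) →
    (∀ c v v', α ⬝ᵥ c = 1 → fl false c = some v → fl true c = some v' → ¬ Sg (v + v')) →
    (∀ r c v, NH α c → fl r (fun l => c (Sum.inl l)) = some v →
      ∑ v', ind (v' ≠ v) * 𝔼 κ, g r c v' κ ≤ 1 / 100) →
    (∀ r c, NH α c → fl r (fun l => c (Sum.inl l)) = none → ∀ v, 𝔼 κ, g r c v κ ≤ 2 * R / qq F) →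
    ∃ at' : BB → (Lx n → F) × F, Solv Sg α at' ∧ ∀ a : BB, (1 / (100 * qq F ^ (2 * (n + 3)))) ^ 2 ≤
      𝔼 κ, g a.1 (at' a).1 (at' a).2 κ * g a.2 (at' a.swap).1 (at' a.swap).2 κ

def S_Lab : Prop :=
  ∀ (F : Type) [Field F] [Fintype F] [DecidableEq F] [CharP F 2] (b k N n : ℕ) (Sg : F → Prop)
    (θ R δ : ℝ) (α : Fin n → F) (fl : Bool → (Fin n → F) → Option F)
    (La : Bool → (Fin b → F) → Co F k → Lx n → Co F k)
    (K : Bool → (Fin b → F) → Wt F k N → Co F k → ℝ), 100 ≤ qq F → SigOK Sg θ → 1 ≤ R →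
    θ * R ^ 2 ≤ 1 / 100 → (∀ r, Kern (K r)) → (∀ r, LaOK (La r) δ) →
    δ + 3 / qq F ^ k ≤ 1 / qq F ^ (96 * n + 485) →
    (∀ c v v', α ⬝ᵥ c = 1 → fl false c = some v → fl true c = some v' → ¬ Sg (v + v')) →
    (∀ r c v, NH α c → fl r (fun l => c (Sum.inl l)) = some v →
      𝔼 s : Zt F b k, 𝔼 w, ∑ y, K r s.1 w y * ind (res c (labW (La r) s w y) ≠ v) ≤ 1 / 100) →
    (∀ r c, NH α c → fl r (fun l => c (Sum.inl l)) = none → ∀ v,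
      𝔼 s : Zt F b k, 𝔼 w, ∑ y, K r s.1 w y * ind (res c (labW (La r) s w y) = v) ≤
        2 * R / qq F) →
    ∃ (t t' : BB → Lb F n) (ρ ρ' : Bool → F), Alg Sg α t t' ρ ρ' ∧ ∀ a : BB,
      1 / qq F ^ (6 * n + 19) ≤
        𝔼 κ, abar (La a.1) (K a.1) κ (t a) * abar (La a.2) (K a.2) κ (t' a.swap)

/-! ### Mixing -/

def S_Cut : Prop :=
  ∀ (F : Type) [Field F] [Fintype F] [DecidableEq F] [CharP F 2] (b k d j : ℕ) (δ lm : ℝ)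
    (ρ : Zt F b k → Fn F b k), RhoOK d j δ ρ → 2 ≤ j → 0 ≤ lm →
    δ + 1 / Fintype.card (Zt F b k) ≤ lm ^ 2 → CutOK ρ lm

def S_Four : Prop :=
  ∀ (F : Type) [Field F] [Fintype F] [DecidableEq F] (b k : ℕ) (lm : ℝ)
    (ρ : Zt F b k → Fn F b k) (C : BB → Zt F b k → Zt F b k → ℝ) (v v' : Bool → F), CutOK ρ lm →
    (∀ a s s', 0 ≤ C a s s' ∧ C a s s' ≤ 1) →
    (∏ a, 𝔼 s, 𝔼 s', C a s s') / qq F ^ 4 - 4 * lm ≤
      𝔼 s : BB → Zt F b k, 𝔼 s' : BB → Zt F b k,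
        ind (Mat ρ s v) * ind (Mat ρ s' v') * ∏ a, C a (s a) (s' a.swap)

end Vale.Agent.P060
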