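import Vale.Agent.P060.StB

/-! Part C: goodness, pieces, extractor, counting, parameters. -/

namespace Vale.Agent.P060

open Finset Vale.Agent.P015
open scoped BigOperators

section
variable {F : Type} [Field F] [Fintype F] [DecidableEq F] {b k d N n : ℕ} {S O : Type}

def Wf (u : S → Un F b k d N) (r : Bool) (z : Fin b → F) (σ : S) : Wt F k N := Wd (vx (u σ) r) z
def Yf (u : S → Un F b k d N) (r : Bool) (z : Fin b → F) (σ : S) : Co F k := Yd (u σ) r z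

/-- The kernel of role `r` in context `o`. -/
noncomputable def Kc [Fintype S] (u : S → Un F b k d N) (c : S → O) (o : O) (r : Bool) :
    (Fin b → F) → Wt F k N → Co F k → ℝ := fun z w y => cK c (Wf u r z) (Yf u r z) o w y

/-- The average kernel over the event `E`. -/
noncomputable def Kb [Fintype S] (u : S → Un F b k d N) (c : S → O) (E : S → Prop) (r : Bool) :
    (Fin b → F) → Wt F k N → Co F k → ℝ :=
  fun z w y => (𝔼 σ, ind (E σ) * Kc u c (c σ) r z w y) / pr E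

/-- Total variation error at positions `s`. -/
noncomputable def tvs [Fintype S] (u : S → Un F b k d N) (c : S → O) (s : BB → Zt F b k) (σ : S) :
    ℝ := tv c (Wf u) (Yf u) (fun a => (s a).1) σ

/-- Total error of the context of `σ`. -/
noncomputable def ee (ρ : Zt F b k → Fn F b k) (τ : Ty F b k n) [Fintype S]
    (u : S → Un F b k d N) (c : S → O) (E : ℝ) (σ : S) : ℝ :=
  𝔼 s : BB → Zt F b k, (tvs u c s σ +
    pr (fun σ' => c σ' = c σ ∧ ¬ Gd ρ τ u E s σ') / pr (fun σ' => c σ' = c σ))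

/-- Ideal cell density. -/
noncomputable def idl (ρ : Zt F b k → Fn F b k) (τ : Ty F b k n) [Fintype S]
    (u : S → Un F b k d N) (c : S → O) (σ : S) (s : BB → Zt F b k) (κ : BB → Ky F N)
    (θ : BB → Lb F n) : ℝ := ∏ a, aK (lam ρ τ a.1) (Kc u c (c σ) a.1) (s a) (κ a) (θ a)

/-- Ideal count. -/
noncomputable def Idl (ρ : Zt F b k → Fn F b k) (τ : Ty F b k n) [Fintype S]
    (u : S → Un F b k d N) (c : S → O) (t t' : BB → Lb F n) (v v' : Bool → F) (σ σ' : S) : ℝ :=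
  𝔼 s : BB → Zt F b k, 𝔼 s' : BB → Zt F b k, ind (Mat ρ s v) * ind (Mat ρ s' v') *
    𝔼 κ : BB → Ky F N, idl ρ τ u c σ s κ t * idl ρ τ u c σ' s' (fun a => κ a.swap) t'

/-- True count. -/
noncomputable def Tru (ρ : Zt F b k → Fn F b k) (τ : Ty F b k n) [Fintype S]
    (u : S → Un F b k d N) (E : ℝ) (t t' : BB → Lb F n) (v v' : Bool → F) : ℝ :=
  𝔼 s : BB → Zt F b k, 𝔼 s' : BB → Zt F b k, ind (Mat ρ s v) * ind (Mat ρ s' v') *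
    ∑ κ : BB → Ky F N, pr (fun σ => Gd ρ τ u E s σ ∧ kys (u σ) s = κ ∧ lbs ρ τ (u σ) s = t) *
      pr (fun σ => Gd ρ τ u E s' σ ∧ kys (u σ) s' = (fun a => κ a.swap) ∧ lbs ρ τ (u σ) s' = t')

/-- Total codimension of a triple of subspaces. -/
noncomputable def cdm (d : ℕ) (B : Fin 3 → Submodule F (Fn F b k × Fn F b k)) : ℕ :=
  ∑ m, (Module.finrank F ((Vm F b k d m).prod (Vm F b k d m)) - Module.finrank F (B m))
end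

def S_Push : Prop :=
  ∀ (F : Type) [Field F] [Fintype F] [DecidableEq F] (b k d N j n : ℕ) (δ : ℝ)
    (ρ : Zt F b k → Fn F b k) (τ : Ty F b k n) (S O : Type) [Fintype S] (u : S → Un F b k d N)
    (c : S → O), RhoOK d j δ ρ → (∀ o r, Kern (Kc u c o r)) ∧
    ∀ (σ : S) (s : BB → Zt F b k) (h : (BB → Ky F N) → (BB → Lb F n) → ℝ),
      (∀ κ θ, 0 ≤ h κ θ ∧ h κ θ ≤ 1) →
      𝔼 κ, ∑ θ, idl ρ τ u c σ s κ θ * h κ θ ≤
        (𝔼 σ', ind (c σ' = c σ) * h (kys (u σ') s) (lbs ρ τ (u σ') s)) /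
          pr (fun σ' => c σ' = c σ) + tvs u c s σ

def S_G2 : Prop :=
  ∀ (F : Type) [Field F] [Fintype F] [DecidableEq F] [CharP F 2] (b k d N j Lm L n' : ℕ)
    (δ1 Λ E : ℝ) (S : Type) [Fintype S] [Nonempty S] (u : S → Un F b k d N),
    TGp F b k (d - 1) Lm δ1 → (∀ σ, Cod (u σ) j) → Dens u Λ → 0 < E → 0 < L → j + 2 * L ≤ Lm →
    𝔼 s : BB → Zt F b k, pr (fun σ => ¬ G2 u E s (u σ)) ≤
      n' / L + Λ * 2 ^ L * (1 / E) ^ n' + 12 * L * δ1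

def S_G3 : Prop :=
  ∀ (F : Type) [Field F] [Fintype F] [DecidableEq F] (b k d N Lm L n' : ℕ)
    (δ1 Λ E : ℝ) (S : Type) [Fintype S] [Nonempty S] (u : S → Un F b k d N),
    TGp F b k (d - 1) Lm δ1 → Dens u Λ → 0 < E → 0 < L → 2 * L ≤ Lm →
    𝔼 s : BB → Zt F b k, pr (fun σ => ¬ G3 u E s (u σ)) ≤
      2 * (n' / L + Λ * 2 ^ L * (1 / E) ^ n' + 2 * L * δ1)

def S_G4 : Prop :=
  ∀ (F : Type) [Field F] [Fintype F] [DecidableEq F] (b k d N j Lm : ℕ) (δ1 : ℝ)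
    (U : Un F b k d N), TGp F b k (d - 1) Lm δ1 → Cod U j → 1 ≤ d → j * (b + 1) + 2 ≤ Lm →
    pr (fun s : BB → Zt F b k => ¬ G4 U s) ≤ 12 * δ1

def S_Good : Prop :=
  ∀ (F : Type) [Field F] [Fintype F] [DecidableEq F] [CharP F 2] (b k d N j n Lm L n' : ℕ)
    (δ δ1 Λ E η : ℝ) (ρ : Zt F b k → Fn F b k) (τ : Ty F b k n) (S O : Type) [Fintype S]
    [Nonempty S] (u : S → Un F b k d N) (c : S → O), RhoOK d j δ ρ → TGp F b k (d - 1) Lm δ1 →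
    (∀ σ, Cod (u σ) j) → Dens u Λ → 0 < E → 0 < L → j + 2 * L ≤ Lm → 1 ≤ d →
    j * (b + 1) + 2 ≤ Lm → 𝔼 s : BB → Zt F b k, 𝔼 σ, tvs u c s σ ≤ η →
    𝔼 s : BB → Zt F b k, pr (fun σ => ¬ Gd ρ τ u E s σ) ≤
      2 * η + 3 * (n' / L + Λ * 2 ^ L * (1 / E) ^ n') + (16 * L + 12) * δ1 +
        qq F ^ (4 * (n + 3)) / E

def S_Cnt1 : Prop :=
  ∀ (F : Type) [Field F] [Fintype F] [DecidableEq F] [CharP F 2] (b k d N j n : ℕ) (δ ε : ℝ)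
    (ρ : Zt F b k → Fn F b k) (τ : Ty F b k n) (S O : Type) [Fintype S] (u : S → Un F b k d N)
    (c : S → O) (E : S → Prop), RhoOK d j δ ρ → (∀ σ, HasTy ρ τ (u σ)) → 0 < pr E →
    (∀ σ, E σ → 𝔼 s : BB → Zt F b k, tvs u c s σ ≤ ε) →
    (∀ r, Kern (Kb u c E r)) ∧
    (∀ r κ θ, abar (lam ρ τ r) (Kb u c E r) κ θ =
      (𝔼 σ, ind (E σ) * abar (lam ρ τ r) (Kc u c (c σ) r) κ θ) / pr E) ∧
    (∀ r x v, NH (alf τ) x → τ.fl r (fun l => x (Sum.inl l)) = some v →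
      𝔼 s : Zt F b k, 𝔼 w, ∑ y, Kb u c E r s.1 w y * ind (res x (labW (lam ρ τ r) s w y) ≠ v) ≤
        ε) ∧
    ∀ r x, NH (alf τ) x → τ.fl r (fun l => x (Sum.inl l)) = none → ∀ v,
      𝔼 s : Zt F b k, 𝔼 w, ∑ y, Kb u c E r s.1 w y * ind (res x (labW (lam ρ τ r) s w y) = v) ≤
        (3 * d + 2) / qq F + ε

def S_Cnt2 : Prop :=
  ∀ (F : Type) [Field F] [Fintype F] [DecidableEq F] (b k d N n : ℕ) (η c2 : ℝ)
    (ρ : Zt F b k → Fn F b k) (τ : Ty F b k n) (S O : Type) [Fintype S] (u : S → Un F b k d N)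
    (c : S → O) (E : S → Prop) (t t' : BB → Lb F n) (v v' : Bool → F)
    (vb : Bool → Ky F N → Lb F n → ℝ), CutOK ρ η → 0 < pr E → 0 ≤ c2 →
    (∀ o r, Kern (Kc u c o r)) →
    (∀ r κ θ, vb r κ θ = (𝔼 σ, ind (E σ) * abar (lam ρ τ r) (Kc u c (c σ) r) κ θ) / pr E) →
    (∀ (r : Bool) (θ : Lb F n) (e : Ky F N → ℝ), 𝔼 κ, e κ ^ 2 ≤ 1 →
      𝔼 σ, ind (E σ) * |𝔼 κ, (abar (lam ρ τ r) (Kc u c (c σ) r) κ θ - vb r κ θ) * e κ| ≤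
        η * pr E) →
    (∀ a : BB, c2 ≤ 𝔼 κ, vb a.1 κ (t a) * vb a.2 κ (t' a.swap)) →
    pr E ^ 2 * (c2 ^ 4 / qq F ^ 4 - 12 * η) ≤
      𝔼 σ, 𝔼 σ', ind (E σ) * ind (E σ') * Idl ρ τ u c t t' v v' σ σ'

def S_Cnt3 : Prop :=
  ∀ (F : Type) [Field F] [Fintype F] [DecidableEq F] (b k d N j n : ℕ) (δ E' : ℝ)
    (ρ : Zt F b k → Fn F b k) (τ : Ty F b k n) (S O : Type) [Fintype S] (u : S → Un F b k d N)
    (c : S → O) (E : S → Prop) (t t' : BB → Lb F n) (v v' : Bool → F), RhoOK d j δ ρ →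
    𝔼 σ, 𝔼 σ', ind (E σ) * ind (E σ') *
        (Idl ρ τ u c t t' v v' σ σ' - ee ρ τ u c E' σ - ee ρ τ u c E' σ') ≤
      (Fintype.card (Ky F N) : ℝ) ^ 4 * Tru ρ τ u E' t t' v v'

def S_Cnt : Prop :=
  ∀ (F : Type) [Field F] [Fintype F] [DecidableEq F] [CharP F 2] (b k d N j n : ℕ)
    (δ θ η E : ℝ) (ρ : Zt F b k → Fn F b k) (Sg : F → Prop) (τ : Ty F b k n) (S O : Type)
    [Fintype S] [Nonempty S] (u : S → Un F b k d N) (c : S → O), 100 ≤ qq F → RhoOK d j δ ρ →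
    SigOK Sg θ → θ * (3 * d + 2) ^ 2 ≤ 1 / 100 → TyOK d j Sg τ → (∀ σ, HasTy ρ τ (u σ)) →
    1 / qq F ^ (k + 1) ≤ δ → δ + 3 / qq F ^ k ≤ 1 / qq F ^ (96 * n + 485) → 0 < η →
    η ≤ 1 / qq F ^ (24 * n + 90) → CutOK ρ η → 𝔼 s : BB → Zt F b k, 𝔼 σ, tvs u c s σ ≤ η →
    𝔼 s : BB → Zt F b k, pr (fun σ => ¬ Gd ρ τ u E s σ) ≤ 10 * η →
    ∃ (t t' : BB → Lb F n) (v v' : Bool → F), Alg Sg (alf τ) t t' v v' ∧
      Real.exp (-6 / η ^ 2) / qq F ^ (24 * n + 81) ≤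
        (Fintype.card (Ky F N) : ℝ) ^ 4 * Tru ρ τ u E t t' v v'

/-! ### Pieces -/

def S_PC1 : Prop :=
  ∀ (F : Type) [Field F] [Fintype F] [DecidableEq F] (b k d N : ℕ) (S : Type) [Fintype S]
    (u : S → Un F b k d N) (C : S → Prop) (E : ℝ)
    (B0 : Fin 3 → Submodule F (Fn F b k × Fn F b k)), 1 ≤ E → (∃ σ, C σ) →
    (∀ m, B0 m ≤ (Vm F b k d m).prod (Vm F b k d m)) →
    (∀ σ σ', C σ → C σ' → ∀ m i, pf (u σ) m i - pf (u σ') m i ∈ B0 m) →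
    ∃ (B : Fin 3 → Submodule F (Fn F b k × Fn F b k)) (σ0 : S), C σ0 ∧ (∀ m, B m ≤ B0 m) ∧
      pr C ≤ E ^ cdm d B * pr (fun σ => C σ ∧ ∀ m i, pf (u σ) m i - pf (u σ0) m i ∈ B m) ∧
      ∀ m (a : Module.Dual F (Fn F b k × Fn F b k)), (∃ φ ∈ B m, a φ ≠ 0) → ∀ v : Ix N → F,
        pr (fun σ => (C σ ∧ ∀ m i, pf (u σ) m i - pf (u σ0) m i ∈ B m) ∧
          ∀ i, a (pf (u σ) m i) = v i) ≤
        pr (fun σ => C σ ∧ ∀ m i, pf (u σ) m i - pf (u σ0) m i ∈ B m) / E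

def S_PCd : Prop :=
  ∀ (F : Type) [Field F] [Fintype F] [DecidableEq F] (b k d N : ℕ)
    (B : Fin 3 → Submodule F (Fn F b k × Fn F b k)),
    (∀ m, B m ≤ (Vm F b k d m).prod (Vm F b k d m)) →
    (∀ U0 : Un F b k d N, pr (fun U : Un F b k d N => ∀ m i, pf U m i - pf U0 m i ∈ B m) ≤
      1 / (qq F ^ N) ^ cdm d B) ∧
    ∀ j1, cdm d B ≤ j1 → ∀ m, ∃ a : Fin j1 → Module.Dual F (Fn F b k × Fn F b k),
      ∀ φ : Fn F b k × Fn F b k, φ.1 ∈ Vm F b k d m → φ.2 ∈ Vm F b k d m → (∀ i, a i φ = 0) →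
        φ ∈ B m

def S_PC2 : Prop :=
  ∀ (F : Type) [Field F] [Fintype F] [DecidableEq F] (b k d N : ℕ) (S : Type) [Fintype S]
    (u : S → Un F b k d N) (E M : ℝ) (s : BB → Zt F b k) (κ : BB → Ky F N) (m : Fin 3) (r : Bool)
    (a : Module.Dual F (Fn F b k)) (v : Ix N → F), 0 ≤ E → 0 ≤ M →
    Dens (fun σ => vx (u σ) r) M →
    (∃ f ∈ Vm F b k d m, (∀ p, f (s (r, p)) = 0) ∧ a f ≠ 0) →
    pr (fun σ => G3 u E s (u σ) ∧ G4 (u σ) s ∧ kys (u σ) s = κ ∧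
      ∀ i, a (cmp (pf (u σ) m i) r) = v i) ≤ M * E / (qq F ^ N) ^ 13

def S_PC3 : Prop :=
  ∀ (F : Type) [Field F] [Fintype F] [DecidableEq F] (b k d N : ℕ) (S : Type) [Fintype S]
    (u : S → Un F b k d N) (E : ℝ) (s : BB → Zt F b k) (κ : BB → Ky F N) (P : S → Prop)
    (f : Un F b k d N → ℝ) (c : ℝ), 0 ≤ E → 0 ≤ c → (∀ U, 0 ≤ f U) → SlDep κ f →
    (∀ σ, P σ → G0 u s (u σ) ∧ G2 u E s (u σ) ∧ kys (u σ) s = κ) →
    (∀ X X' : Fr F b k d N, 𝔼 M : Tn F N × Tn F N, f ((X, M.1), (X', M.2)) ≤ c) →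
    𝔼 σ, ind (P σ) * f (u σ) ≤ 2 * E * c / (qq F ^ N) ^ 12

def S_PC : Prop :=
  ∀ (F : Type) [Field F] [Fintype F] [DecidableEq F] (b k d N j n : ℕ) (Λ M E : ℝ)
    (ρ : Zt F b k → Fn F b k) (τ : Ty F b k n) (S : Type) [Fintype S] [Nonempty S]
    (u : S → Un F b k d N) (s : BB → Zt F b k) (κ : BB → Ky F N) (θ : BB → Lb F n),
    Smp ρ j τ Λ M u → 1 ≤ E → E ^ 2 ≤ qq F ^ N → Λ ≤ (qq F ^ N) ^ 31 →
    6 * qq F ^ (2 * n3 b k d) ≤ E → M * E ^ 90 < qq F ^ N →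
    1 / (E * (Fintype.card (Ky F N) : ℝ) ^ 4) ≤ pr (Cell ρ τ u E s κ θ) →
    ∃ (S' : Type) (_ : Fintype S') (_ : Nonempty S') (ι : S' → S)
      (B : Fin 3 → Submodule F (Fn F b k × Fn F b k)), Function.Injective ι ∧
      pr (Cell ρ τ u E s κ θ) / (2 * E ^ 88) ≤ (Fintype.card S' : ℝ) / Fintype.card S ∧
      Nice ρ τ (fun σ => u (ι σ)) s κ θ B 88 (2 / E) (2 * M * E ^ 90 / qq F ^ N)
        (2 * Λ * E ^ 89 * (qq F ^ N) ^ 12) (4 * E ^ 90)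

/-! ### Extractor -/

def S_PSum : Prop :=
  ∀ (F : Type) [Field F] [Fintype F] (VA VB VC : Type) [AddCommGroup VA] [Module F VA]
    [AddCommGroup VB] [Module F VB] [Module.Finite F VB] [AddCommGroup VC] [Module F VC]
    [Module.Finite F VC] (I S : Type) [Fintype I] [Fintype S] [Nonempty S] (f : S → I → VA)
    (g : S → I → VB) (h : S → I → VC) (G : VA →ₗ[F] VB →ₗ[F] VC →ₗ[F] F) (AB : Submodule F VB)
    (AC : Submodule F VC) (n0 m : ℕ) (e : ℝ) (φ : VA) (ψ : VB) (ξ : VC),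
    Module.finrank F AB ≤ n0 → Module.finrank F AC ≤ n0 → (∀ σ i, g σ i ∈ AB) →
    (∀ σ i, h σ i ∈ AC) → (∀ σ, φ ∈ Submodule.span F (Set.range (f σ))) →
    (∀ σ, ψ ∈ Submodule.span F (Set.range (g σ))) →
    (∀ σ, ξ ∈ Submodule.span F (Set.range (h σ))) → G φ ψ ξ ≠ 0 →
    (∀ a : Module.Dual F VB, a ψ ≠ 0 → ∀ v : I → F, pr (fun σ => ∀ i, a (g σ i) = v i) ≤ e) →
    (∀ a : Module.Dual F VC, a ξ ≠ 0 → ∀ v : I → F, pr (fun σ => ∀ i, a (h σ i) = v i) ≤ e) →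
    pr (fun σ : Fin (2 * m) → S => ∀ i i' i'', ∑ l, G (f (σ l) i) (g (σ l) i') (h (σ l) i'') = 0)
      ≤ 2 * 4 ^ m * (qq F ^ (n0 * (2 * m + 1)) * e) ^ m

def S_Col : Prop :=
  ∀ (F : Type) [Field F] [Fintype F] (VA VB VC : Type) [AddCommGroup VA] [Module F VA]
    [AddCommGroup VB] [Module F VB] [AddCommGroup VC] [Module F VC]
    (I S : Type) [Fintype I] [Fintype S] (f : S → I → VA)
    (g : S → I → VB) (h : S → I → VC) (G : VA →ₗ[F] VB →ₗ[F] VC →ₗ[F] F) (BA : Submodule F VA)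
    (BB' : Submodule F VB) (BC : Submodule F VC) (j1 : ℕ) (e : ℝ) (σ0 : S) (ψ : VB) (ξ : VC)
    (a : Fin j1 → Module.Dual F VA),
    (∀ σ σ' i, f σ i - f σ' i ∈ BA) → (∀ σ σ' i, g σ i - g σ' i ∈ BB') →
    (∀ σ σ' i, h σ i - h σ' i ∈ BC) → ψ ∈ Submodule.span F (Set.range (g σ0)) →
    ξ ∈ Submodule.span F (Set.range (h σ0)) →
    (∀ φ ∈ BA, ∀ β ∈ BB', ∀ σ i, G φ β (h σ i) = 0) → (∀ φ ∈ BA, ∀ β ∈ BC, G φ ψ β = 0) →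
    (∀ φ ∈ Submodule.span F (Set.range (f σ0)), (∀ i, a i φ = 0) → φ ∈ BA) →
    (∀ v : I → F, pr (fun σ => ∀ i, G (f σ i) ψ ξ = v i) ≤ e) →
    pr (fun p : S × S => ∀ i i' i'', G (f p.1 i) (g p.1 i') (h p.1 i'') =
      G (f p.2 i) (g p.2 i') (h p.2 i'')) ≤ qq F ^ j1 * e

/-- Decompositions inside a nice piece. -/
def S_XK : Prop :=
  ∀ (F : Type) [Field F] [Fintype F] [DecidableEq F] (b k d N n : ℕ) (ρ : Zt F b k → Fn F b k)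
    (τ : Ty F b k n) (S : Type) [Fintype S] (u : S → Un F b k d N) (s : BB → Zt F b k)
    (κ : BB → Ky F N) (θ : BB → Lb F n) (B : Fin 3 → Submodule F (Fn F b k × Fn F b k)) (j1 : ℕ)
    (e1 e2 Lp Ls : ℝ), Nice ρ τ u s κ θ B j1 e1 e2 Lp Ls → ∀ σ m,
    (∀ σ', AU (u σ') m = AU (u σ) m) ∧
    (∀ φ ∈ AU (u σ) m, ∀ r, cmp φ r ∈ Vm F b k d m) ∧
    (∀ r, ∀ f ∈ Vm F b k d m, ∃ φ ∈ AU (u σ) m, cmp φ r = f) ∧
    (∀ φ ∈ AU (u σ) m, (∀ a : BB, cmp φ a.1 (s a) = 0) → ∀ r, ∃ β ∈ B m, ∃ f,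
      pur r f ∈ AU (u σ) m ∧ φ = β + pur r f) ∧
    (∀ φ ∈ AU (u σ) m, ∃ β ∈ B m, ∃ f g, pur false f ∈ AU (u σ) m ∧ pur true g ∈ AU (u σ) m ∧
      φ = β + pur false f + pur true g) ∧
    ∀ a : BB, ∃ e : Ix N → F, ∀ a' : BB, e ⬝ᵥ hk (κ a') m = if a' = a then 1 else 0

def S_XA1 : Prop :=
  ∀ (F : Type) [Field F] [Fintype F] [DecidableEq F] (b k d N n : ℕ) (ρ : Zt F b k → Fn F b k)
    (τ : Ty F b k n) (S : Type) [Fintype S] (u : S → Un F b k d N) (s : BB → Zt F b k)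
    (κ : BB → Ky F N) (θ : BB → Lb F n) (B : Fin 3 → Submodule F (Fn F b k × Fn F b k)) (j1 : ℕ)
    (e1 e2 Lp Ls : ℝ), Nice ρ τ u s κ θ B j1 e1 e2 Lp Ls → ∀ (σ : S) (T T' : Fn F b k),
    Ty2 (AU (u σ)) B T T' → ∀ M M' : Tn F N, sl κ M = sl κ M' →
      M ⬝ᵥ ThU (u σ) T T' = M' ⬝ᵥ ThU (u σ) T T'

def S_XA2 : Prop :=
  ∀ (F : Type) [Field F] [Fintype F] [DecidableEq F] (b k d N n : ℕ) (ρ : Zt F b k → Fn F b k)
    (τ : Ty F b k n) (S : Type) [Fintype S] (u : S → Un F b k d N) (s : BB → Zt F b k)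
    (κ : BB → Ky F N) (θ : BB → Lb F n) (B : Fin 3 → Submodule F (Fn F b k × Fn F b k)) (j1 : ℕ)
    (e1 e2 Lp Ls : ℝ), Nice ρ τ u s κ θ B j1 e1 e2 Lp Ls → ∀ (σ : S) (T T' : Fn F b k),
    Ty2 (AU (u σ)) B T T' → ¬ Ty3 (AU (u σ)) B T T' →
      pr (fun p : S × S => ThU (u p.1) T T' = ThU (u p.2) T T') ≤ qq F ^ j1 * e2

def S_XA3 : Prop :=
  ∀ (F : Type) [Field F] [Fintype F] [DecidableEq F] (b k d N n : ℕ) (ρ : Zt F b k → Fn F b k)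
    (τ : Ty F b k n) (S : Type) [Fintype S] (u : S → Un F b k d N) (s : BB → Zt F b k)
    (κ : BB → Ky F N) (θ : BB → Lb F n) (B : Fin 3 → Submodule F (Fn F b k × Fn F b k)) (j1 : ℕ)
    (e1 e2 Lp Ls : ℝ), Nice ρ τ u s κ θ B j1 e1 e2 Lp Ls → 1 ≤ d → ∀ (σ : S) (T T' : Fn F b k),
    Ty3 (AU (u σ)) B T T' → ∃ g : BB → F,
      ThU (u σ) T T' = ∑ a : BB, g a • Th (vx (u σ) a.1).1 (Pi.single (s a) 1)

def S_X1 : Prop :=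
  ∀ (F : Type) [Field F] [Fintype F] [DecidableEq F] (b k d N n : ℕ) (ρ : Zt F b k → Fn F b k)
    (τ : Ty F b k n) (S : Type) [Fintype S] (u : S → Un F b k d N) (s : BB → Zt F b k)
    (κ : BB → Ky F N) (θ : BB → Lb F n) (B : Fin 3 → Submodule F (Fn F b k × Fn F b k)) (j1 : ℕ)
    (e1 e2 Lp Ls : ℝ), Nice ρ τ u s κ θ B j1 e1 e2 Lp Ls → ∀ (σ : S) (T T' : Fn F b k) (m : ℕ),
    ¬ Ty2 (AU (u σ)) B T T' →
      pr (fun σ : Fin (2 * m) → S => ∑ l, ThU (u (σ l)) T T' = 0) ≤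
        2 * 4 ^ m * (qq F ^ (2 * n3 b k d * (2 * m + 1)) * e1) ^ m

def S_XPh : Prop :=
  ∀ (F : Type) [Field F] [Fintype F] [DecidableEq F] [CharP F 2] (b k d N j n : ℕ) (δ : ℝ)
    (ρ : Zt F b k → Fn F b k) (τ : Ty F b k n) (U V : Un F b k d N) (s s' : BB → Zt F b k)
    (v v' : Bool → F) (Sa : BB → Fn F b k), RhoOK d j δ ρ → HasTy ρ τ U →
    (∀ a, kys V s' a = kys U s a.swap) → Half (alf τ) (lbs ρ τ U s) (lbs ρ τ V s') v' →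
    Half (alf τ) (lbs ρ τ V s') (lbs ρ τ U s) v → Mat ρ s v →
    (∀ p, ∃ g : BB → F, ThU U (Sa (false, p)) (Sa (true, p)) =
      ∑ a : BB, g a • Th (vx U a.1).1 (Pi.single (s a) 1)) →
    Ph ρ s (lbs ρ τ U s) (lbs ρ τ V s') Sa U V = 0

/-- The two bounds for one character of the extractor. -/
def S_XT : Prop :=
  ∀ (F : Type) [Field F] [Fintype F] [DecidableEq F] [CharP F 2] (χ : F → ℝ), Chi χ →
    ∀ (b k d N n : ℕ) (ρ : Zt F b k → Fn F b k) (τ : Ty F b k n) (S S' : Type) [Fintype S]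
    [Nonempty S] [Fintype S'] [Nonempty S'] (u : S → Un F b k d N) (u' : S' → Un F b k d N)
    (s s' : BB → Zt F b k) (κ : BB → Ky F N) (θ θ' : BB → Lb F n)
    (B B' : Fin 3 → Submodule F (Fn F b k × Fn F b k)) (j1 m : ℕ) (e1 e2 Lp Ls err : ℝ)
    (Sa Sa' : BB → Fn F b k) (σ0 : S) (p : Bool), Nice ρ τ u s κ θ B j1 e1 e2 Lp Ls →
    Nice ρ τ u' s' (fun a => κ a.swap) θ' B' j1 e1 e2 Lp Ls → 0 < m → 0 ≤ err →
    Lp * (2 * 4 ^ m * (qq F ^ (2 * n3 b k d * (2 * m + 1)) * e1) ^ m) ≤ err ^ (2 * m) →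
    Ls * (qq F ^ j1 * e2) ≤ err ^ 2 →
    ¬ Ty2 (AU (u σ0)) B (Sa (false, p)) (Sa (true, p)) ∨
      ((∀ p', Ty2 (AU (u σ0)) B (Sa (false, p')) (Sa (true, p'))) ∧
        ¬ Ty3 (AU (u σ0)) B (Sa (false, p)) (Sa (true, p))) →
    |𝔼 σ', 𝔼 σ, χ (Ph ρ s θ θ' Sa (u σ) (u' σ') + Ph ρ s' θ' θ Sa' (u' σ') (u σ))| ≤ err

def S_Ext : Prop :=
  ∀ (F : Type) [Field F] [Fintype F] [DecidableEq F] [CharP F 2] (b k d N j n : ℕ) (δ : ℝ)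
    (ρ : Zt F b k → Fn F b k) (τ : Ty F b k n) (S S' : Type) [Fintype S]
    [Nonempty S] [Fintype S'] [Nonempty S'] (u : S → Un F b k d N) (u' : S' → Un F b k d N)
    (s s' : BB → Zt F b k) (κ : BB → Ky F N) (θ θ' : BB → Lb F n) (v v' : Bool → F)
    (B B' : Fin 3 → Submodule F (Fn F b k × Fn F b k)) (j1 m : ℕ) (e1 e2 Lp Ls err : ℝ),
    RhoOK d j δ ρ → 1 ≤ d → Nice ρ τ u s κ θ B j1 e1 e2 Lp Ls →
    Nice ρ τ u' s' (fun a => κ a.swap) θ' B' j1 e1 e2 Lp Ls → 0 < m → 0 ≤ err →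
    Lp * (2 * 4 ^ m * (qq F ^ (2 * n3 b k d * (2 * m + 1)) * e1) ^ m) ≤ err ^ (2 * m) →
    Ls * (qq F ^ j1 * e2) ≤ err ^ 2 → Half (alf τ) θ θ' v' → Half (alf τ) θ' θ v →
    Mat ρ s v → Mat ρ s' v' →
    1 / qq F ^ (8 * n3 b k d) - err ≤
      pr (fun p : S × S' => Eqs ρ s θ θ' (u p.1) (u' p.2) ∧ Eqs ρ s' θ' θ (u' p.2) (u p.1))

def S_Fin : Prop :=
  ∀ (F : Type) [Field F] [Fintype F] [DecidableEq F] [CharP F 2] (b k d N j n m : ℕ)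
    (δ Λ M E err : ℝ) (ρ : Zt F b k → Fn F b k) (Sg : F → Prop) (τ : Ty F b k n) (S : Type)
    [Fintype S] [Nonempty S] (u : S → Un F b k d N) (t t' : BB → Lb F n) (v v' : Bool → F),
    RhoOK d j δ ρ → 1 ≤ d → Smp ρ j τ Λ M u → 1 ≤ E → E ^ 2 ≤ qq F ^ N → Λ ≤ (qq F ^ N) ^ 31 →
    6 * qq F ^ (2 * n3 b k d) ≤ E → M * E ^ 90 < qq F ^ N → 0 < m → 0 ≤ err →
    2 * Λ * E ^ 89 * (qq F ^ N) ^ 12 *
      (2 * 4 ^ m * (qq F ^ (2 * n3 b k d * (2 * m + 1)) * (2 / E)) ^ m) ≤ err ^ (2 * m) →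
    4 * E ^ 90 * (qq F ^ 88 * (2 * M * E ^ 90 / qq F ^ N)) ≤ err ^ 2 →
    2 * err ≤ 1 / qq F ^ (8 * n3 b k d) → Alg Sg (alf τ) t t' v v' →
    Tru ρ τ u E t t' v v' / (8 * E ^ 176 * qq F ^ (8 * n3 b k d)) ≤
      pr (fun p : S × S => Conf (Hole ρ Sg) (u p.1) (u p.2))

/-! ### Parameters and assembly -/

/-- Number of types. -/
def nT (q b k d j : ℕ) : ℕ := (j ^ 3 + 1) * q ^ (2 * j ^ 3 * lrE b k d j) * (q + 1) ^ (2 * q ^ j ^ 3)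

structure Num (q b k d N N1 j L Lm J0 m1 : ℕ) (δ1 θ η : ℝ) : Prop where
  hq : 100 ≤ q
  hd : 1 ≤ d
  hj : j = 31
  hN : N = 3200 * N1
  hη : η = 1 / (q : ℝ) ^ (24 * j ^ 3 + 90)
  hk : 96 * j ^ 3 + 487 ≤ k
  nd1 : δ1 ≤ q / (q : ℝ) ^ k
  nd2 : lrE b k d j + 2 ≤ Lm
  hθ : θ * (3 * d + 2) ^ 2 ≤ 1 / 100
  hL : 0 < L
  hJ : 0 < J0
  l1 : 2 * J0 + L ≤ Lm
  l2 : L * (2 * J0) ≤ Lm
  l3 : j + 2 * L ≤ Lm
  l4 : j * (b + 1) + 2 ≤ Lm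
  cr : 4 * ((k + 2) * Real.log q) / J0 +
    4 * ((m1 * Real.log q + 4 * J0 * ((k + 2) * Real.log q) + 31 * N * Real.log q / L) / L +
      2 * Lm * δ1 * ((2 * N + N * (k + 2) + (k + 2)) * Real.log q)) ≤ η ^ 2
  good : 3 * (13200 / L + 2 ^ L / (q : ℝ) ^ (2 * N)) + (16 * L + 12) * δ1 +
    (q : ℝ) ^ (4 * (j ^ 3 + 3)) / (q : ℝ) ^ (8 * N1) ≤ 8 * η
  ty : 2 * nT q b k d j * 2 ^ 100 ≤ q ^ m1
  big : m1 + 80001 * n3 b k d + 6 * q ^ (2 * (24 * j ^ 3 + 90)) + 24 * j ^ 3 + 200 ≤ N1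

def S_Par : Prop :=
  ∃ (e b k t n0 N N1 L J0 m1 : ℕ) (η : ℝ), 1 ≤ t ∧ 1 ≤ n0 ∧ n0 ≤ b ∧
    Num (2 ^ (120 * e + 1)) b k (b * t) N N1 31 L (t ^ n0) J0 m1
      (2 ^ b * (t / ((2 ^ (120 * e + 1) : ℕ) : ℝ)) ^ (b + 1 - n0)) (3 / 8 ^ e) η

def S_Core : Prop :=
  ∀ (F : Type) [Field F] [Fintype F] [DecidableEq F] [CharP F 2] (b k d N N1 j L Lm J0 m1 n : ℕ)
    (δ1 θ η : ℝ) (ρ : Zt F b k → Fn F b k) (Sg : F → Prop) (τ : Ty F b k n) (S : Type)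
    [Fintype S] [Nonempty S] (u : S → Un F b k d N),
    Num (Fintype.card F) b k d N N1 j L Lm J0 m1 δ1 θ η → TGp F b k (d - 1) Lm δ1 →
    RhoOK d j (2 * qq F / qq F ^ k) ρ → SigOK Sg θ → n ≤ j ^ 3 → TyOK d j Sg τ →
    Smp ρ j τ ((qq F ^ N) ^ 31) (qq F ^ m1) u →
    1 / (qq F ^ N) ^ 13 ≤ pr (fun p : S × S => Conf (Hole ρ Sg) (u p.1) (u p.2))

def S_SS : Prop :=
  ∀ (F : Type) [Field F] [Fintype F] [DecidableEq F] [CharP F 2] (b k d N N1 j L Lm J0 m1 : ℕ)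
    (δ1 θ η : ℝ) (ρ : Zt F b k → Fn F b k) (Sg : F → Prop),
    Num (Fintype.card F) b k d N N1 j L Lm J0 m1 δ1 θ η → TGp F b k (d - 1) Lm δ1 →
    RhoOK d j (2 * qq F / qq F ^ k) ρ → SigOK Sg θ →
    SS (Hole (d := d) (N := N) ρ Sg) ((qq F ^ N) ^ 30) (2 ^ 100) (1 / (qq F ^ N) ^ 14)

end Vale.Agent.P060
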