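import Vale.Agent.P060.StC

/-! Final assembly from the top level statements. -/

namespace Vale.Agent.P060

open Finset Vale.Agent.P015

theorem top (hpar : S_Par) (hsig : S_Sig) (htg : S_TG) (hnd : S_ND) (htri : S_Tri) (hss : S_SS)
    (ham : S_AMain) : CounterEx := by
  classical
  obtain ⟨e, b, k, t, n0, N, N1, L, J0, m1, η, ht, hn0, hn0b, hnum⟩ := hpar
  obtain ⟨F, iF, iFin, iCh, Sg, hcard, hS⟩ := hsig e
  have hb : 1 ≤ b := hn0.trans hn0b
  have hdeg : b * (t - 1) ≤ b * t - 1 := by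
    obtain ⟨t', rfl⟩ : ∃ t', t = t' + 1 := ⟨t - 1, by omega⟩
    simp only [Nat.add_sub_cancel, Nat.mul_add, Nat.mul_one]
    omega
  have hT := htg F b k t n0 (b * t - 1) ht hn0 hn0b hdeg
  rw [← hcard] at hnum
  obtain ⟨ρ, hρ⟩ := hnd F b k (b * t) 31 (t ^ n0) _ hT hnum.nd1 hnum.nd2
  have hSS := hss F b k (b * t) N N1 31 L (t ^ n0) J0 m1 _ _ η ρ Sg hnum hT hρ hS
  have hq : 100 ≤ Fintype.card F := hnum.hq
  have hN1 : 200 ≤ N1 := le_trans (Nat.le_add_left _ _) hnum.big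
  have hN : 11 ≤ N := by rw [hnum.hN]; omega
  have hne : Nonempty (Vx F b k (b * t) N) := ⟨(fun _ _ => 0, 0)⟩
  refine ham (Vx F b k (b * t) N) (Hole ρ Sg) (Fintype.card F ^ N)
    (htri F b k (b * t) N ρ Sg hρ.symm hS.1) ?_ ?_ ?_
  · calc 2 ^ 11 ≤ 2 ^ N := Nat.pow_le_pow_right (by norm_num) hN
      _ ≤ Fintype.card F ^ N := Nat.pow_le_pow_left (by omega) _
  · have h1 : Fintype.card (Tn F N) ≤ Fintype.card (Vx F b k (b * t) N) :=
      Fintype.card_le_of_injective (fun M => ((fun _ _ => 0), M)) fun _ _ h => (Prod.mk.inj h).2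
    refine le_trans ?_ h1
    rw [Fintype.card_fun, ← pow_mul]
    refine Nat.pow_le_pow_right (by omega) ?_
    simp only [Fintype.card_prod, Fintype.card_option, Fintype.card_fin]
    nlinarith [Nat.mul_le_mul hN hN]
  · simpa [qq] using hSS

end Vale.Agent.P060
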