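import Vale.Agent.P060.StC

/-! Auxiliary lemmas for `XK`, `XA1`, `XA2`. -/

namespace Vale.Agent.P060

open Finset Vale.Agent.P015
open scoped BigOperators

namespace XKA

variable {F : Type} [Field F] {b k d N n : ℕ}

/-- Pure elements, as a linear map. -/
def purL (r : Bool) : Fn F b k →ₗ[F] Fn F b k × Fn F b k :=
  if r then LinearMap.inr F _ _ else LinearMap.inl F _ _

/-- Components, as a linear map. -/
def cmpL (r : Bool) : (Fn F b k × Fn F b k) →ₗ[F] Fn F b k :=
  if r then LinearMap.snd F _ _ else LinearMap.fst F _ _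

theorem purL_apply (r : Bool) (f : Fn F b k) : purL r f = pur r f := by cases r <;> rfl
theorem cmpL_apply (r : Bool) (φ : Fn F b k × Fn F b k) : cmpL r φ = cmp φ r := by cases r <;> rfl

theorem cmp_add (φ ψ : Fn F b k × Fn F b k) (r : Bool) : cmp (φ + ψ) r = cmp φ r + cmp ψ r := by
  cases r <;> rfl
theorem cmp_sub (φ ψ : Fn F b k × Fn F b k) (r : Bool) : cmp (φ - ψ) r = cmp φ r - cmp ψ r := by
  cases r <;> rfl
theorem cmp_smul (c : F) (φ : Fn F b k × Fn F b k) (r : Bool) : cmp (c • φ) r = c • cmp φ r := by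
  cases r <;> rfl
theorem cmp_sum {ι : Type} (T : Finset ι) (φ : ι → Fn F b k × Fn F b k) (r : Bool) :
    cmp (∑ i ∈ T, φ i) r = ∑ i ∈ T, cmp (φ i) r := by
  simp only [← cmpL_apply, map_sum]
theorem cmp_pur (r : Bool) (f : Fn F b k) : cmp (pur r f) r = f := by cases r <;> rfl
theorem cmp_pur_ne {r r' : Bool} (h : r' ≠ r) (f : Fn F b k) : cmp (pur r f) r' = 0 := by
  cases r <;> cases r' <;> first | rfl | exact absurd rfl h
theorem pur_mul_not (r : Bool) (f g : Fn F b k) : pur r f * pur (!r) g = 0 := by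
  cases r <;> simp [pur]
theorem pur_mul (r : Bool) (f : Fn F b k) (φ : Fn F b k × Fn F b k) :
    pur r f * φ = pur r (f * cmp φ r) := by
  cases r <;> ext <;> simp [pur, cmp]
theorem pur_add (r : Bool) (f g : Fn F b k) : pur r (f + g) = pur r f + pur r g := by
  cases r <;> simp [pur]
theorem eq_pur {φ : Fn F b k × Fn F b k} {r : Bool} (h : cmp φ (!r) = 0) :
    φ = pur r (cmp φ r) := by
  cases r
  · exact Prod.ext rfl h
  · exact Prod.ext h rfl
theorem cmp_pf (U : Un F b k d N) (m : Fin 3) (i : Ix N) (r : Bool) :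
    cmp (pf U m i) r = fr (vx U r).1 m i := by cases r <;> rfl
theorem pf_none (U : Un F b k d N) (m : Fin 3) : pf U m none = 1 := rfl
theorem pf_mem (U : Un F b k d N) (m : Fin 3) (i : Ix N) : pf U m i ∈ AU U m :=
  Submodule.subset_span ⟨i, rfl⟩
theorem hk_kys (U : Un F b k d N) (s : BB → Zt F b k) (a : BB) (m : Fin 3) (i : Ix N) :
    hk (kys U s a) m i = cmp (pf U m i) a.1 (s a) := by
  rw [cmp_pf]
  cases i <;> rfl

variable [Fintype F] [DecidableEq F]

/-- The functional attached to a pair. -/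
def Lm (T T' : Fn F b k) : (Fn F b k × Fn F b k) →ₗ[F] F where
  toFun φ := T ⬝ᵥ φ.1 + T' ⬝ᵥ φ.2
  map_add' φ ψ := by simp only [Prod.fst_add, Prod.snd_add, dotProduct_add]; ring
  map_smul' c φ := by
    simp only [Prod.smul_fst, Prod.smul_snd, dotProduct_smul, smul_eq_mul, RingHom.id_apply]; ring

theorem GG_eq (T T' : Fn F b k) (φ ψ ξ : Fn F b k × Fn F b k) :
    GG T T' φ ψ ξ = Lm T T' (φ * ψ * ξ) := rfl

theorem ThU_eq (U : Un F b k d N) (T T' : Fn F b k) (ι : Ix N × Ix N × Ix N) :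
    ThU U T T' ι = Lm T T' (pf U 0 ι.1 * pf U 1 ι.2.1 * pf U 2 ι.2.2) := rfl

/-- Interpolants. -/
theorem interp {U : Un F b k d N} {s : BB → Zt F b k} (h : G4 U s) :
    ∃ f : Fin 3 → BB → Fn F b k, ∀ m a, f m a ∈ P1 F b k ^ (d - 1) ∧
      (∀ g ∈ P1 F b k, pur a.1 (g * f m a) ∈ AU U m) ∧ pur a.1 (f m a) ∈ AU U m ∧
      ∀ a' : BB, cmp (pur a.1 (f m a)) a'.1 (s a') = if a' = a then 1 else 0 := by
  choose f h1 h2 h3 h4 using h
  refine ⟨fun m a => f m a.1 a.2, fun m a => ⟨h1 _ _ _, h4 _ _ _, ?_, fun a' => ?_⟩⟩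
  · simpa using h4 m a.1 a.2 1 (Submodule.subset_span (Set.mem_insert _ _))
  · obtain ⟨r, p⟩ := a
    obtain ⟨r', p'⟩ := a'
    by_cases hr : r' = r
    · subst hr
      rw [cmp_pur]
      by_cases hp : p' = p
      · subst hp; rw [if_pos rfl]; exact h2 _ _ _
      · rw [if_neg fun e => hp (Prod.mk.inj e).2, Bool.eq_not.2 hp]; exact h3 _ _ _
    · rw [cmp_pur_ne hr, if_neg fun e => hr (Prod.mk.inj e).1]; rfl

omit [Fintype F] [DecidableEq F] in
/-- Removing the values at the keys. -/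
theorem dec {s : BB → Zt F b k} {e : BB → Fn F b k × Fn F b k}
    (he : ∀ a a' : BB, cmp (e a) a'.1 (s a') = if a' = a then 1 else 0)
    (φ : Fn F b k × Fn F b k) (a' : BB) :
    cmp (φ - ∑ a, cmp φ a.1 (s a) • e a) a'.1 (s a') = 0 := by
  rw [cmp_sub, cmp_sum]
  simp only [cmp_smul, Pi.sub_apply, Finset.sum_apply, Pi.smul_apply, he, smul_eq_mul, mul_ite,
    mul_one, mul_zero, sum_ite_eq, mem_univ, if_true, sub_self]

end XKA

end Vale.Agent.P060
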