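import Vale.Agent.P060.StC

/-! The two bounds for one character of the extractor. -/

namespace Vale.Agent.P060

open Finset Vale.Agent.P015
open scoped BigOperators

namespace XT

theorem upd1 {A B C : Type} [Fintype A] [Fintype B] [Nonempty B] [Fintype C]
    (f : (A × B) × C → ℝ) : 𝔼 ω, f ω = 𝔼 ω : (A × B) × C, 𝔼 T : B, f ((ω.1.1, T), ω.2) := by
  simp only [E_prod, E_const]
  exact E_congr fun a => E_comm _

theorem upd2 {A B C : Type} [Fintype A] [Fintype B] [Nonempty B] [Fintype C]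
    (f : C × (A × B) → ℝ) : 𝔼 ω, f ω = 𝔼 ω : C × (A × B), 𝔼 T : B, f (ω.1, (ω.2.1, T)) := by
  simp only [E_prod, E_const]

theorem sq_E {S : Type} [Fintype S] (g : S → ℝ) :
    (𝔼 σ, g σ) ^ 2 = 𝔼 p : S × S, g p.1 * g p.2 := by
  simp only [E_prod, E_mul_left, E_mul_right, sq]

theorem jensen {S : Type} [Fintype S] [Nonempty S] (g : S → ℝ) :
    (𝔼 σ, g σ) ^ 2 ≤ 𝔼 σ, g σ ^ 2 := by
  have h := Finset.expect_mul_sq_le_sq_mul_sq univ g fun _ => (1 : ℝ)
  simpa only [mul_one, one_pow, E_const] using h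

section
variable {F : Type} [Field F] [Fintype F] [DecidableEq F]

theorem second [CharP F 2] (hc : S_Chi) {χ : F → ℝ} (hχ : Chi χ) {ι S : Type} [Fintype ι]
    [DecidableEq ι] [Fintype S] (A B : S → ι → F) (D : S → F) :
    𝔼 M : (ι → F) × (ι → F), (𝔼 σ, χ (M.1 ⬝ᵥ A σ + M.2 ⬝ᵥ B σ + D σ)) ^ 2 ≤
      pr fun p : S × S => A p.1 = A p.2 ∧ B p.1 = B p.2 := by
  obtain ⟨c1, -, c3⟩ := (hc F).2 χ hχ
  simp only [sq_E]
  rw [E_comm]
  refine E_mono fun p => ?_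
  have e : ∀ M : (ι → F) × (ι → F), χ (M.1 ⬝ᵥ A p.1 + M.2 ⬝ᵥ B p.1 + D p.1) *
      χ (M.1 ⬝ᵥ A p.2 + M.2 ⬝ᵥ B p.2 + D p.2) =
      χ (M.1 ⬝ᵥ (A p.1 + A p.2)) * (χ (M.2 ⬝ᵥ (B p.1 + B p.2)) * χ (D p.1 + D p.2)) := by
    intro M
    rw [← hχ.add, ← hχ.add, ← hχ.add, dotProduct_add, dotProduct_add]
    congr 1
    ring
  have e2 : ∀ x y : ι → F, x + y = 0 → x = y := fun x y h =>
    funext fun i => CharTwo.add_eq_zero.1 (congrFun h i)
  simp only [e, E_prod, E_mul_left, E_mul_right, c3]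
  rw [← mul_assoc, ← ind_and]
  have h1 : χ (D p.1 + D p.2) ≤ 1 := by rcases c1 (D p.1 + D p.2) with h | h <;> linarith
  exact (mul_le_of_le_one_right (ind_nonneg _) h1).trans
    (ind_mono fun h => ⟨e2 _ _ h.1, e2 _ _ h.2⟩)

variable {b k d N n : ℕ}

theorem ph_eq (ha : S_Aff) (ρ : Zt F b k → Fn F b k) (s : BB → Zt F b k) (θ θ' : BB → Lb F n)
    (Sa : BB → Fn F b k) (U V : Un F b k d N) : Ph ρ s θ θ' Sa U V =
      V.1.2 ⬝ᵥ ThU U (Sa (false, false)) (Sa (true, false)) +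
        V.2.2 ⬝ᵥ ThU U (Sa (false, true)) (Sa (true, true)) +
        ∑ a : BB, Sa a ⬝ᵥ fun x => tt θ θ' a + ρ (s a) x := by
  have h := (ha F b k).2.2.2.2.2.2.2.2.2.2.2.2.1 d N
  have e : ∀ a : BB, (Sa a ⬝ᵥ fun x => wt (vx V a.2).2 (vx U a.1).1 x + (tt θ θ' a + ρ (s a) x)) =
      (vx V a.2).2 ⬝ᵥ Th (vx U a.1).1 (Sa a) + Sa a ⬝ᵥ fun x => tt θ θ' a + ρ (s a) x := by
    intro a
    rw [← h, ← dotProduct_add]
    rfl
  rw [Ph, Finset.sum_congr rfl fun a _ => e a, Finset.sum_add_distrib]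
  congr 1
  simp only [Fintype.sum_prod_type, Fintype.sum_bool, vx, ThU, dotProduct_add, if_true,
    Bool.false_eq_true, if_false]
  ring

omit [DecidableEq F] in
theorem ph_fr (ρ : Zt F b k → Fn F b k) (s : BB → Zt F b k) (θ θ' : BB → Lb F n)
    (Sa : BB → Fn F b k) {U U' : Un F b k d N} (V : Un F b k d N) (h1 : U.1.1 = U'.1.1)
    (h2 : U.2.1 = U'.2.1) : Ph ρ s θ θ' Sa U V = Ph ρ s θ θ' Sa U' V := by
  have e : ∀ r, (vx U r).1 = (vx U' r).1 := fun r => by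
    cases r
    exacts [h1, h2]
  simp only [Ph, e]

omit [Fintype F] [DecidableEq F] in
theorem sl_swap {κ : BB → Ky F N} {M M' : Tn F N}
    (h : sl (fun a => κ a.swap) M = sl (fun a => κ a.swap) M') : sl κ M = sl κ M' := by
  funext i a a'
  have := congrFun (congrFun (congrFun h i) a.swap) a'.swap
  fin_cases i <;> exact this

end

end XT

theorem s_xt (hc : S_Chi) (ha : S_Aff) (hh : S_Hol) (h1 : S_XA1) (h2 : S_XA2) (hx : S_X1)
    (hk : S_XK) : S_XT := by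
  intro F _ _ _ _ χ hχ b k d N n ρ τ S S' _ _ _ _ u u' s s' κ θ θ' B B' j1 m e1 e2 Lp Ls err Sa Sa'
    σ0 p hn hn' hm herr hp hs hcase
  have c1 : ∀ a, |χ a| ≤ 1 := fun a => by
    rcases ((hc F).2 χ hχ).1 a with h | h <;> simp [h]
  rcases hcase with h | ⟨h, h'⟩
  · have hL : 0 ≤ Lp := by
      have a1 := hn'.dens fun _ => True
      have a2 : 0 < pr fun _ : S' => True := pr_pos (ω := Classical.arbitrary S') trivial
      by_contra a3
      have := mul_nonpos_of_nonpos_of_nonneg (not_le.1 a3).le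
        (pr_nonneg fun _ : Un F b k d N => True)
      linarith
    have hb := hx F b k d N n ρ τ S u s κ θ B j1 e1 e2 Lp Ls hn σ0 _ _ m h
    rw [← pow_le_pow_iff_left₀ (abs_nonneg _) herr (show 2 * m ≠ 0 by omega),
      (even_two_mul m).pow_abs]
    refine le_trans ?_ ((mul_le_mul_of_nonneg_left hb hL).trans hp)
    cases p
    · have := hh F χ hχ S S' (Un F b k d N) _ u' Lp (fun V => V.1.2)
        (fun V T => ((V.1.1, T), V.2))
        (fun σ => ThU (u σ) (Sa (false, false)) (Sa (true, false)))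
        (fun σ V => χ (V.2.2 ⬝ᵥ ThU (u σ) (Sa (false, true)) (Sa (true, true)) +
          (∑ a : BB, Sa a ⬝ᵥ fun x => tt θ θ' a + ρ (s a) x) + Ph ρ s' θ' θ Sa' V (u σ))) m hm hL
        hn'.dens XT.upd1 (fun _ _ => rfl)
        (fun σ V T => by rw [XT.ph_fr ρ s' θ' θ Sa' (U := ((V.1.1, T), V.2)) (U' := V) _ rfl rfl])
        fun _ _ => c1 _
      refine le_of_eq_of_le ?_ this
      congr 1
      refine E_congr fun σ' => E_congr fun σ => ?_
      rw [← hχ.add, XT.ph_eq ha ρ s]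
      congr 1
      ring
    · have := hh F χ hχ S S' (Un F b k d N) _ u' Lp (fun V => V.2.2)
        (fun V T => (V.1, (V.2.1, T)))
        (fun σ => ThU (u σ) (Sa (false, true)) (Sa (true, true)))
        (fun σ V => χ (V.1.2 ⬝ᵥ ThU (u σ) (Sa (false, false)) (Sa (true, false)) +
          (∑ a : BB, Sa a ⬝ᵥ fun x => tt θ θ' a + ρ (s a) x) + Ph ρ s' θ' θ Sa' V (u σ))) m hm hL
        hn'.dens XT.upd2 (fun _ _ => rfl)
        (fun σ V T => by rw [XT.ph_fr ρ s' θ' θ Sa' (U := (V.1, (V.2.1, T))) (U' := V) _ rfl rfl])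
        fun _ _ => c1 _
      refine le_of_eq_of_le ?_ this
      congr 1
      refine E_congr fun σ' => E_congr fun σ => ?_
      rw [← hχ.add, XT.ph_eq ha ρ s]
      congr 1
      ring
  · have hA : ∀ σ, AU (u σ) = AU (u σ0) := fun σ => funext fun m =>
      (hk F b k d N n ρ τ S u s κ θ B j1 e1 e2 Lp Ls hn σ0 m).1 σ
    have hb := h2 F b k d N n ρ τ S u s κ θ B j1 e1 e2 Lp Ls hn σ0 _ _ (h p) h'
    have key := hn'.sld
      (fun V => (𝔼 σ, χ (Ph ρ s θ θ' Sa (u σ) V + Ph ρ s' θ' θ Sa' V (u σ))) ^ 2) _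
      ((pr_nonneg _).trans hb) (fun _ => sq_nonneg _) ?_ ?_
    · exact abs_le_of_sq_le_sq' (((XT.jensen _).trans key).trans hs) herr |> abs_le.2
    · intro V V' a1 a2 a3 a4
      refine congrArg (· ^ 2) (E_congr fun σ => ?_)
      rw [XT.ph_fr ρ s' θ' θ Sa' (u σ) a1 a2, XT.ph_eq ha ρ s, XT.ph_eq ha ρ s,
        h1 F b k d N n ρ τ S u s κ θ B j1 e1 e2 Lp Ls hn σ _ _ (hA σ ▸ h false) _ _
          (XT.sl_swap a3),
        h1 F b k d N n ρ τ S u s κ θ B j1 e1 e2 Lp Ls hn σ _ _ (hA σ ▸ h true) _ _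
          (XT.sl_swap a4)]
    · intro X X'
      have := XT.second hc hχ (fun σ => ThU (u σ) (Sa (false, false)) (Sa (true, false)))
        (fun σ => ThU (u σ) (Sa (false, true)) (Sa (true, true)))
        fun σ => (∑ a : BB, Sa a ⬝ᵥ fun x => tt θ θ' a + ρ (s a) x) +
          Ph ρ s' θ' θ Sa' ((X, 0), (X', 0)) (u σ)
      refine le_trans (le_of_eq_of_le ?_ this) (le_trans (pr_mono fun q hq => ?_) hb)
      · refine E_congr fun M => congrArg (· ^ 2) (E_congr fun σ => ?_)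
        rw [XT.ph_fr ρ s' θ' θ Sa' (U := ((X, M.1), (X', M.2))) (U' := ((X, 0), (X', 0))) _ rfl rfl,
          XT.ph_eq ha ρ s, add_assoc]
      · cases p
        exacts [hq.1, hq.2]

end Vale.Agent.P060
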